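import Mathlib

namespace Vale.Agent.P099.R2.H525

open MeasureTheory Finset

namespace Coll

variable {Ω : Type} [MeasurableSpace Ω]

noncomputable def ee (m : Measure Ω) (z : Ω → ℂ) (k k' : ℕ) : ℂ :=
  ∫ ω, z ω ^ k * (starRingEnd ℂ) (z ω) ^ k' ∂m

theorem intble (m : Measure Ω) [IsProbabilityMeasure m] {z : Ω → ℂ} (hz : Measurable z)
    (h1 : ∀ ω, ‖z ω‖ = 1) (k k' : ℕ) :
    Integrable (fun ω => z ω ^ k * (starRingEnd ℂ) (z ω) ^ k') m := by
  refine Integrable.of_bound (C := 1) ?_ ?_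
  · refine Measurable.aestronglyMeasurable ?_
    exact (hz.pow_const k).mul ((Complex.continuous_conj.measurable.comp hz).pow_const k')
  · refine Filter.Eventually.of_forall fun ω => ?_
    simp [h1 ω]

theorem sq_expand (K : ℕ) (w u : ℂ) :
    ((‖∑ k ∈ range K, (w * (starRingEnd ℂ) u) ^ k‖ ^ 2 : ℝ) : ℂ) =
      ∑ k ∈ range K, ∑ k' ∈ range K,
        (w ^ k * (starRingEnd ℂ) w ^ k') * ((starRingEnd ℂ) u ^ k * u ^ k') := by
  rw [Complex.ofReal_pow, ← Complex.mul_conj', map_sum, Finset.sum_mul_sum]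
  refine Finset.sum_congr rfl fun k _ => Finset.sum_congr rfl fun k' _ => ?_
  rw [map_pow, map_mul, Complex.conj_conj, mul_pow, mul_pow]
  ring

noncomputable def GG (m : Measure Ω) (z : Ω → ℂ) (K : ℕ) (u : ℂ) : ℝ :=
  ∫ ω, ‖∑ k ∈ range K, (z ω * (starRingEnd ℂ) u) ^ k‖ ^ 2 ∂m

theorem GG_eq (m : Measure Ω) [IsProbabilityMeasure m] {z : Ω → ℂ} (hz : Measurable z)
    (h1 : ∀ ω, ‖z ω‖ = 1) (K : ℕ) (u : ℂ) :
    ((GG m z K u : ℝ) : ℂ) = ∑ k ∈ range K, ∑ k' ∈ range K,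
      ee m z k k' * ((starRingEnd ℂ) u ^ k * u ^ k') := by
  rw [GG, ← integral_complex_ofReal]
  have : ∀ ω, (((‖∑ k ∈ range K, (z ω * (starRingEnd ℂ) u) ^ k‖ ^ 2 : ℝ)) : ℂ) =
      ∑ k ∈ range K, ∑ k' ∈ range K,
        (z ω ^ k * (starRingEnd ℂ) (z ω) ^ k') * ((starRingEnd ℂ) u ^ k * u ^ k') :=
    fun ω => sq_expand K (z ω) u
  have h2 : (fun ω => (((‖∑ k ∈ range K, (z ω * (starRingEnd ℂ) u) ^ k‖ ^ 2 : ℝ)) : ℂ)) =
      fun ω => ∑ k ∈ range K, ∑ k' ∈ range K,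
        (z ω ^ k * (starRingEnd ℂ) (z ω) ^ k') * ((starRingEnd ℂ) u ^ k * u ^ k') := funext this
  refine (congrArg (fun f => ∫ ω, f ω ∂m) h2).trans ?_
  rw [integral_finsetSum]
  · refine Finset.sum_congr rfl fun k _ => ?_
    rw [integral_finsetSum]
    · refine Finset.sum_congr rfl fun k' _ => ?_
      rw [integral_mul_const]
      rfl
    · intro k' _
      exact (intble m hz h1 k k').mul_const _
  · intro k _
    refine integrable_finsetSum _ fun k' _ => ?_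
    exact (intble m hz h1 k k').mul_const _

theorem conj_ee (m : Measure Ω) (z : Ω → ℂ) (k k' : ℕ) :
    ∫ ω, (starRingEnd ℂ) (z ω) ^ k * z ω ^ k' ∂m = (starRingEnd ℂ) (ee m z k k') := by
  rw [ee, ← integral_conj]
  refine integral_congr_ae (Filter.Eventually.of_forall fun ω => ?_)
  simp only [map_mul, map_pow, Complex.conj_conj]

theorem int_GG (m : Measure Ω) [IsProbabilityMeasure m] {z : Ω → ℂ} (hz : Measurable z)
    (h1 : ∀ ω, ‖z ω‖ = 1) (K : ℕ) :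
    ∫ ω, GG m z K (z ω) ∂m = ∑ k ∈ range K, ∑ k' ∈ range K, ‖ee m z k k'‖ ^ 2 := by
  have h : ((∫ ω, GG m z K (z ω) ∂m : ℝ) : ℂ) =
      ((∑ k ∈ range K, ∑ k' ∈ range K, ‖ee m z k k'‖ ^ 2 : ℝ) : ℂ) := by
    rw [← integral_complex_ofReal]
    have h2 : (fun ω => ((GG m z K (z ω) : ℝ) : ℂ)) =
        fun ω => ∑ k ∈ range K, ∑ k' ∈ range K,
          ee m z k k' * ((starRingEnd ℂ) (z ω) ^ k * z ω ^ k') := funext fun ω => GG_eq m hz h1 K _
    refine (congrArg (fun f => ∫ ω, f ω ∂m) h2).trans ?_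
    have hi : ∀ k k' : ℕ, Integrable (fun ω => (starRingEnd ℂ) (z ω) ^ k * z ω ^ k') m := by
      intro k k'
      refine (intble m hz h1 k' k).congr (Filter.Eventually.of_forall fun ω => ?_)
      exact mul_comm _ _
    rw [integral_finsetSum]
    · push_cast
      refine Finset.sum_congr rfl fun k _ => ?_
      rw [integral_finsetSum]
      · refine Finset.sum_congr rfl fun k' _ => ?_
        rw [integral_const_mul, conj_ee, Complex.mul_conj']
      · intro k' _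
        exact (hi k k').const_mul _
    · intro k _
      refine integrable_finsetSum _ fun k' _ => ?_
      exact (hi k k').const_mul _
  exact_mod_cast h

theorem GG_bound (m : Measure Ω) [IsProbabilityMeasure m] {z : Ω → ℂ}
    (h1 : ∀ ω, ‖z ω‖ = 1) (K : ℕ) {u : ℂ} (hu : ‖u‖ = 1) (ω : Ω) :
    ‖(‖∑ k ∈ range K, (z ω * (starRingEnd ℂ) u) ^ k‖ ^ 2 : ℝ)‖ ≤ (K : ℝ) ^ 2 := by
  rw [norm_pow, norm_norm]
  refine pow_le_pow_left₀ (norm_nonneg _) ?_ 2
  refine (norm_sum_le _ _).trans ?_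
  have : ∀ k ∈ range K, ‖(z ω * (starRingEnd ℂ) u) ^ k‖ ≤ 1 := by
    intro k _
    simp [h1 ω, hu]
  refine (Finset.sum_le_sum this).trans ?_
  simp

theorem GG_meas {z : Ω → ℂ} (hz : Measurable z) (K : ℕ) (u : ℂ) :
    Measurable (fun ω => ‖∑ k ∈ range K, (z ω * (starRingEnd ℂ) u) ^ k‖ ^ 2) := by
  refine Measurable.pow_const (Measurable.norm ?_) 2
  exact Finset.measurable_fun_sum _ fun k _ => (hz.mul_const _).pow_const k

theorem GG_lower (m : Measure Ω) [IsProbabilityMeasure m] {z : Ω → ℂ} (hz : Measurable z)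
    (h1 : ∀ ω, ‖z ω‖ = 1) (K : ℕ) {d : ℂ} (hd : ‖d‖ = 1) :
    (K : ℝ) ^ 2 * m.real (z ⁻¹' {d}) ≤ GG m z K d := by
  have hi : Integrable (fun ω => ‖∑ k ∈ range K, (z ω * (starRingEnd ℂ) d) ^ k‖ ^ 2) m :=
    Integrable.of_bound (C := (K : ℝ) ^ 2) (GG_meas hz K d).aestronglyMeasurable
      (Filter.Eventually.of_forall fun ω => GG_bound m h1 K hd ω)
  have hm : MeasurableSet (z ⁻¹' {d}) := hz (measurableSet_singleton d)
  have h2 : ∫ ω in z ⁻¹' {d}, ‖∑ k ∈ range K, (z ω * (starRingEnd ℂ) d) ^ k‖ ^ 2 ∂m ≤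
      GG m z K d := by
    refine setIntegral_le_integral hi (Filter.Eventually.of_forall fun ω => ?_)
    exact sq_nonneg _
  refine le_trans (le_of_eq ?_) h2
  have h3 : ∫ ω in z ⁻¹' {d}, ‖∑ k ∈ range K, (z ω * (starRingEnd ℂ) d) ^ k‖ ^ 2 ∂m =
      ∫ ω in z ⁻¹' {d}, (K : ℝ) ^ 2 ∂m := by
    refine setIntegral_congr_fun hm fun ω hω => ?_
    have hω' : z ω = d := hω
    have h4 : d * (starRingEnd ℂ) d = 1 := by
      rw [Complex.mul_conj', hd]
      simp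
    simp only [hω', h4, one_pow, Finset.sum_const, Finset.card_range, nsmul_eq_mul, mul_one]
    rw [Complex.norm_natCast]
  rw [h3, setIntegral_const, smul_eq_mul]
  ring

theorem int_GG_lower (m : Measure Ω) [IsProbabilityMeasure m] {z : Ω → ℂ} (hz : Measurable z)
    (h1 : ∀ ω, ‖z ω‖ = 1) (K : ℕ) (D : Finset ℂ) :
    (K : ℝ) ^ 2 * ∑ d ∈ D, m.real (z ⁻¹' {d}) ^ 2 ≤ ∫ ω, GG m z K (z ω) ∂m := by
  have hG0 : ∀ u, 0 ≤ GG m z K u := fun u => integral_nonneg fun ω => sq_nonneg _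
  have hGb : ∀ u, ‖u‖ = 1 → GG m z K u ≤ (K : ℝ) ^ 2 := by
    intro u hu
    have := norm_integral_le_of_norm_le_const (μ := m)
      (Filter.Eventually.of_forall fun ω => GG_bound m h1 K hu ω)
    rw [probReal_univ, mul_one] at this
    exact (le_abs_self _).trans this
  have hGm : Measurable (fun ω => GG m z K (z ω)) := by
    have h2 : Measurable (fun u => GG m z K u) := by
      have h3 : (fun u => GG m z K u) = fun u => (∑ k ∈ range K, ∑ k' ∈ range K,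
          ee m z k k' * ((starRingEnd ℂ) u ^ k * u ^ k')).re := by
        funext u
        rw [← GG_eq m hz h1 K u, Complex.ofReal_re]
      rw [h3]
      refine Continuous.measurable ?_
      refine Complex.continuous_re.comp ?_
      refine continuous_finsetSum _ fun k _ => continuous_finsetSum _ fun k' _ => ?_
      refine continuous_const.mul ((Complex.continuous_conj.pow k).mul (continuous_id.pow k'))
    exact h2.comp hz
  have hi : Integrable (fun ω => GG m z K (z ω)) m := by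
    refine Integrable.of_bound (C := (K : ℝ) ^ 2) hGm.aestronglyMeasurable
      (Filter.Eventually.of_forall fun ω => ?_)
    rw [Real.norm_of_nonneg (hG0 _)]
    exact hGb _ (h1 ω)
  have hsub : ∫ ω in ⋃ d ∈ D, z ⁻¹' {d}, GG m z K (z ω) ∂m ≤ ∫ ω, GG m z K (z ω) ∂m :=
    setIntegral_le_integral hi (Filter.Eventually.of_forall fun ω => hG0 _)
  refine le_trans ?_ hsub
  rw [integral_biUnion_finset]
  · rw [Finset.mul_sum]
    refine Finset.sum_le_sum fun d _ => ?_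
    have h3 : ∫ ω in z ⁻¹' {d}, GG m z K (z ω) ∂m = ∫ ω in z ⁻¹' {d}, GG m z K d ∂m := by
      refine setIntegral_congr_fun (hz (measurableSet_singleton d)) fun ω hω => ?_
      have hω' : z ω = d := hω
      simp only [hω']
    rw [h3, setIntegral_const, smul_eq_mul]
    by_cases hd : ‖d‖ = 1
    · have := mul_le_mul_of_nonneg_left (GG_lower m hz h1 K hd) (measureReal_nonneg (μ := m)
        (s := z ⁻¹' {d}))
      calc (K : ℝ) ^ 2 * m.real (z ⁻¹' {d}) ^ 2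
          = m.real (z ⁻¹' {d}) * ((K : ℝ) ^ 2 * m.real (z ⁻¹' {d})) := by ring
        _ ≤ _ := this
    · have h4 : z ⁻¹' {d} = ∅ := by
        ext ω
        simp only [Set.mem_preimage, Set.mem_singleton_iff, Set.mem_empty_iff_false, iff_false]
        intro h
        exact hd (h ▸ h1 ω)
      rw [h4]
      simp
  · intro d _
    exact hz (measurableSet_singleton d)
  · intro d _ d' _ hne
    refine Set.disjoint_left.2 fun ω h2 h3 => ?_
    have h2' : z ω = d := h2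
    have h3' : z ω = d' := h3
    exact hne (h2'.symm.trans h3')
  · intro d _
    exact hi.integrableOn

theorem ee_off (m : Measure Ω) {z : Ω → ℂ}
    (h1 : ∀ ω, ‖z ω‖ = 1) (k j : ℕ) :
    ‖ee m z (k + j) k‖ = ‖∫ ω, z ω ^ j ∂m‖ ∧ ‖ee m z k (k + j)‖ = ‖∫ ω, z ω ^ j ∂m‖ := by
  have hc : ∀ ω, z ω * (starRingEnd ℂ) (z ω) = 1 := by
    intro ω
    rw [Complex.mul_conj', h1 ω]
    simp
  have hA : ee m z (k + j) k = ∫ ω, z ω ^ j ∂m := by
    rw [ee]
    refine integral_congr_ae (Filter.Eventually.of_forall fun ω => ?_)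
    show z ω ^ (k + j) * (starRingEnd ℂ) (z ω) ^ k = z ω ^ j
    rw [pow_add, mul_right_comm, ← mul_pow, hc, one_pow, one_mul]
  have hB : ee m z k (k + j) = (starRingEnd ℂ) (ee m z (k + j) k) := by
    rw [← conj_ee, ee]
    refine integral_congr_ae (Filter.Eventually.of_forall fun ω => ?_)
    exact mul_comm _ _
  refine ⟨by rw [hA], ?_⟩
  rw [hB, hA]
  exact RCLike.norm_conj _

theorem ee_diag (m : Measure Ω) [IsProbabilityMeasure m] {z : Ω → ℂ}
    (h1 : ∀ ω, ‖z ω‖ = 1) (k : ℕ) : ‖ee m z k k‖ ≤ 1 := by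
  have := norm_integral_le_of_norm_le_const (μ := m) (C := 1)
      (f := fun ω => z ω ^ k * (starRingEnd ℂ) (z ω) ^ k)
      (Filter.Eventually.of_forall fun ω => by simp [h1 ω])
  rw [probReal_univ, mul_one] at this
  exact this

theorem sum_sq_lower (m : Measure Ω) [IsProbabilityMeasure m] {z : Ω → ℂ} (hz : Measurable z)
    (D : Finset ℂ) {q : ℝ} (hq : 0 < q)
    (hD : q ≤ m.real (z ⁻¹' (D : Set ℂ))) {M : ℕ} (hM : D.card ≤ M) :
    q ^ 2 ≤ M * ∑ d ∈ D, m.real (z ⁻¹' {d}) ^ 2 := by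
  have h2 : m.real (z ⁻¹' (D : Set ℂ)) = ∑ d ∈ D, m.real (z ⁻¹' {d}) := by
    have h3 : z ⁻¹' (D : Set ℂ) = ⋃ d ∈ D, z ⁻¹' {d} := by
      ext ω
      simp
    rw [h3, measureReal_biUnion_finset]
    · intro d _ d' _ hne
      refine Set.disjoint_left.2 fun ω h2 h3 => ?_
      have h2' : z ω = d := h2
      have h3' : z ω = d' := h3
      exact hne (h2'.symm.trans h3')
    · intro d _
      exact hz (measurableSet_singleton d)
  rw [h2] at hD
  have h4 := sq_sum_le_card_mul_sum_sq (s := D) (f := fun d => m.real (z ⁻¹' {d}))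
  calc q ^ 2 ≤ (∑ d ∈ D, m.real (z ⁻¹' {d})) ^ 2 := pow_le_pow_left₀ hq.le hD 2
    _ ≤ D.card * ∑ d ∈ D, m.real (z ⁻¹' {d}) ^ 2 := h4
    _ ≤ M * ∑ d ∈ D, m.real (z ⁻¹' {d}) ^ 2 := by
      refine mul_le_mul_of_nonneg_right (by exact_mod_cast hM) ?_
      exact Finset.sum_nonneg fun d _ => sq_nonneg _

theorem row_le (m : Measure Ω) [IsProbabilityMeasure m] {z : Ω → ℂ}
    (h1 : ∀ ω, ‖z ω‖ = 1) (L k : ℕ) (hk : k < L + 1) :
    ∑ k' ∈ range (L + 1), ‖ee m z k k'‖ ^ 2 ≤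
      1 + 2 * ∑ l ∈ Finset.Icc 1 L, ‖∫ ω, z ω ^ l ∂m‖ ^ 2 := by
  have hle : ∀ k' ∈ range (L + 1), ‖ee m z k k'‖ ^ 2 ≤ (if k = k' then 1 else 0) +
      ((if k' < k then ‖∫ ω, z ω ^ (k - k') ∂m‖ ^ 2 else 0) +
        (if k < k' then ‖∫ ω, z ω ^ (k' - k) ∂m‖ ^ 2 else 0)) := by
    intro k' _
    rcases lt_trichotomy k k' with h | h | h
    · obtain ⟨j, rfl⟩ := Nat.exists_eq_add_of_le h.le
      rw [(ee_off m h1 k j).2, if_neg (by omega), if_neg (by omega), if_pos h,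
        Nat.add_sub_cancel_left]
      simp
    · subst h
      rw [if_pos rfl, if_neg (lt_irrefl _)]
      have h3 : ‖ee m z k k‖ ^ 2 ≤ 1 := pow_le_one₀ (norm_nonneg _) (ee_diag m h1 k)
      simpa using h3
    · obtain ⟨j, rfl⟩ := Nat.exists_eq_add_of_le h.le
      rw [(ee_off m h1 k' j).1, if_neg (by omega), if_pos h, if_neg (by omega),
        Nat.add_sub_cancel_left]
      simp
  refine (Finset.sum_le_sum hle).trans ?_
  rw [Finset.sum_add_distrib, Finset.sum_add_distrib]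
  have e1 : ∑ k' ∈ range (L + 1), (if k = k' then (1 : ℝ) else 0) = 1 := by
    rw [Finset.sum_ite_eq, if_pos (Finset.mem_range.2 hk)]
  have e2 : ∑ k' ∈ range (L + 1), (if k' < k then ‖∫ ω, z ω ^ (k - k') ∂m‖ ^ 2 else 0) ≤
      ∑ l ∈ Finset.Icc 1 L, ‖∫ ω, z ω ^ l ∂m‖ ^ 2 := by
    rw [← Finset.sum_filter]
    have hinj : Set.InjOn (fun k' => k - k') ((range (L + 1)).filter (fun k' => k' < k) : Finset ℕ) := by
      intro a ha b hb hab
      have ha' := (Finset.mem_filter.1 (Finset.mem_coe.1 ha)).2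
      have hb' := (Finset.mem_filter.1 (Finset.mem_coe.1 hb)).2
      have hab' : k - a = k - b := hab
      omega
    have h5 := Finset.sum_image (f := fun l => ‖∫ ω, z ω ^ l ∂m‖ ^ 2) hinj
    refine h5.symm.le.trans ?_
    refine Finset.sum_le_sum_of_subset_of_nonneg ?_ fun _ _ _ => sq_nonneg _
    intro l hl
    obtain ⟨a, ha, rfl⟩ := Finset.mem_image.1 hl
    have ha' := Finset.mem_filter.1 ha
    have := Finset.mem_range.1 ha'.1
    have ha2 := ha'.2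
    rw [Finset.mem_Icc]
    omega
  have e3 : ∑ k' ∈ range (L + 1), (if k < k' then ‖∫ ω, z ω ^ (k' - k) ∂m‖ ^ 2 else 0) ≤
      ∑ l ∈ Finset.Icc 1 L, ‖∫ ω, z ω ^ l ∂m‖ ^ 2 := by
    rw [← Finset.sum_filter]
    have hinj : Set.InjOn (fun k' => k' - k) ((range (L + 1)).filter (fun k' => k < k') : Finset ℕ) := by
      intro a ha b hb hab
      have ha' := (Finset.mem_filter.1 (Finset.mem_coe.1 ha)).2
      have hb' := (Finset.mem_filter.1 (Finset.mem_coe.1 hb)).2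
      have hab' : a - k = b - k := hab
      omega
    have h5 := Finset.sum_image (f := fun l => ‖∫ ω, z ω ^ l ∂m‖ ^ 2) hinj
    refine h5.symm.le.trans ?_
    refine Finset.sum_le_sum_of_subset_of_nonneg ?_ fun _ _ _ => sq_nonneg _
    intro l hl
    obtain ⟨a, ha, rfl⟩ := Finset.mem_image.1 hl
    have ha' := Finset.mem_filter.1 ha
    have := Finset.mem_range.1 ha'.1
    have ha2 := ha'.2
    rw [Finset.mem_Icc]
    omega
  rw [e1]
  linarith

theorem main_sum (m : Measure Ω) [IsProbabilityMeasure m] {z : Ω → ℂ} (hz : Measurable z)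
    (h1 : ∀ ω, ‖z ω‖ = 1) (D : Finset ℂ) {q : ℝ} (hq : 0 < q)
    (hD : q ≤ m.real (z ⁻¹' (D : Set ℂ))) {M L : ℕ} (hM : D.card ≤ M)
    (hL : 2 * (M : ℝ) ≤ q ^ 2 * L) :
    1 / 2 ≤ ∑ l ∈ Finset.Icc 1 L, ‖∫ ω, z ω ^ l ∂m‖ ^ 2 := by
  have hA := sum_sq_lower m hz D hq hD hM
  have hq2 : 0 < q ^ 2 := by positivity
  have hM0 : 0 < M := by
    rcases Nat.eq_zero_or_pos M with h | h
    · exfalso
      rw [h] at hA
      simp only [Nat.cast_zero, zero_mul] at hA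
      exact absurd hA (not_le.2 hq2)
    · exact h
  have hM0' : (0 : ℝ) < M := by exact_mod_cast hM0
  have hB := int_GG_lower m hz h1 (L + 1) D
  rw [int_GG m hz h1 (L + 1)] at hB
  set S := ∑ l ∈ Finset.Icc 1 L, ‖∫ ω, z ω ^ l ∂m‖ ^ 2 with hS
  have hC : ∑ k ∈ range (L + 1), ∑ k' ∈ range (L + 1), ‖ee m z k k'‖ ^ 2 ≤
      ((L + 1 : ℕ) : ℝ) * (1 + 2 * S) := by
    refine (Finset.sum_le_sum fun k hk => row_le m h1 L k (Finset.mem_range.1 hk)).trans ?_
    rw [Finset.sum_const, Finset.card_range, nsmul_eq_mul]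
  have h6 := hB.trans hC
  set K : ℝ := ((L + 1 : ℕ) : ℝ) with hK
  have hK1 : K = L + 1 := by rw [hK]; push_cast; ring
  have hK0 : 0 < K := by rw [hK1]; positivity
  have h7 : K * (K * ∑ d ∈ D, m.real (z ⁻¹' {d}) ^ 2) ≤ K * (1 + 2 * S) := by
    calc K * (K * ∑ d ∈ D, m.real (z ⁻¹' {d}) ^ 2) =
        K ^ 2 * ∑ d ∈ D, m.real (z ⁻¹' {d}) ^ 2 := by ring
      _ ≤ _ := h6
  have h8 : K * ∑ d ∈ D, m.real (z ⁻¹' {d}) ^ 2 ≤ 1 + 2 * S := le_of_mul_le_mul_left h7 hK0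
  have h9 : K * q ^ 2 ≤ M * (1 + 2 * S) := by
    calc K * q ^ 2 ≤ K * (M * ∑ d ∈ D, m.real (z ⁻¹' {d}) ^ 2) :=
          mul_le_mul_of_nonneg_left hA hK0.le
      _ = M * (K * ∑ d ∈ D, m.real (z ⁻¹' {d}) ^ 2) := by ring
      _ ≤ M * (1 + 2 * S) := mul_le_mul_of_nonneg_left h8 hM0'.le
  have h10 : (M : ℝ) * 2 ≤ M * (1 + 2 * S) := by
    refine le_trans ?_ h9
    rw [hK1]
    nlinarith
  have h11 : 2 ≤ 1 + 2 * S := le_of_mul_le_mul_left h10 hM0'
  linarith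

end Coll

theorem collision_sum {Ω : Type} [MeasurableSpace Ω] (m : Measure Ω) [IsProbabilityMeasure m]
    {z : Ω → ℂ} (hz : Measurable z) (h1 : ∀ᵐ ω ∂m, ‖z ω‖ = 1) (D : Finset ℂ) {q : ℝ}
    (hq : 0 < q) (hD : q ≤ m.real (z ⁻¹' (D : Set ℂ))) {M L : ℕ} (hM : D.card ≤ M)
    (hL : 2 * (M : ℝ) ≤ q ^ 2 * L) :
    1 / 2 ≤ ∑ l ∈ Finset.Icc 1 L, ‖∫ ω, z ω ^ l ∂m‖ ^ 2 := by
  classical
  set y : Ω → ℂ := fun ω => if ‖z ω‖ = 1 then z ω else 1 with hy
  have hym : Measurable y :=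
    Measurable.ite (measurableSet_eq_fun hz.norm measurable_const) hz measurable_const
  have hy1 : ∀ ω, ‖y ω‖ = 1 := by
    intro ω
    simp only [hy]
    split_ifs with h
    · exact h
    · simp
  have hyz : ∀ᵐ ω ∂m, y ω = z ω := by
    filter_upwards [h1] with ω h
    simp only [hy, if_pos h]
  have hD2 : m.real (z ⁻¹' (D : Set ℂ)) = m.real (y ⁻¹' (D : Set ℂ)) := by
    refine measureReal_congr ?_
    filter_upwards [hyz] with ω h
    show (z ω ∈ (D : Set ℂ)) = (y ω ∈ (D : Set ℂ))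
    rw [h]
  rw [hD2] at hD
  have hl3 := Coll.main_sum m hym hy1 D hq hD hM hL
  have h3 : ∀ l, ∫ ω, y ω ^ l ∂m = ∫ ω, z ω ^ l ∂m := by
    intro l
    refine integral_congr_ae ?_
    filter_upwards [hyz] with ω h
    simp only [h]
  simp only [h3] at hl3
  exact hl3

end Vale.Agent.P099.R2.H525
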