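import Mathlib

set_option autoImplicit false

namespace Vale.Agent.P099.R2.H525

/-- Uniform boundedness for summable sequences against bounded sequences. -/
theorem bs_one {ι : Type} (b : ι → ℕ → ℂ) (C : ι → ℝ) (hb : ∀ i k, ‖b i k‖ ≤ C i)
    (h : ∀ x : ℕ → ℂ, Summable (fun k => ‖x k‖) → ∃ K : ℝ, ∀ i, ‖∑' k, x k * b i k‖ ≤ K) :
    ∃ K : ℝ, ∀ i k, ‖b i k‖ ≤ K := by
  classical
  have hsum : ∀ x : lp (fun _ : ℕ => ℂ) 1, Summable (fun k => ‖x k‖) := by
    intro x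
    have := (memℓp_gen_iff (p := 1) (by norm_num)).1 (lp.memℓp x)
    simpa using this
  have hnorm : ∀ x : lp (fun _ : ℕ => ℂ) 1, ‖x‖ = ∑' k, ‖x k‖ := by
    intro x
    rw [lp.norm_eq_tsum_rpow (by norm_num) x]
    simp
  have hs : ∀ i (x : lp (fun _ : ℕ => ℂ) 1), Summable (fun k => x k * b i k) := by
    intro i x
    refine Summable.of_norm_bounded ((hsum x).mul_right (C i)) (fun k => ?_)
    rw [norm_mul]
    exact mul_le_mul_of_nonneg_left (hb i k) (norm_nonneg _)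
  let L : ι → lp (fun _ : ℕ => ℂ) 1 →L[ℂ] ℂ := fun i => LinearMap.mkContinuous
    { toFun := fun x => ∑' k, x k * b i k
      map_add' := by
        intro x y
        rw [← (hs i x).tsum_add (hs i y)]
        congr 1
        ext k
        rw [lp.coeFn_add, Pi.add_apply]
        ring
      map_smul' := by
        intro c x
        rw [RingHom.id_apply, smul_eq_mul, ← tsum_mul_left]
        congr 1
        ext k
        rw [lp.coeFn_smul, Pi.smul_apply, smul_eq_mul]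
        ring } (C i) (by
      intro x
      change ‖∑' k, x k * b i k‖ ≤ C i * ‖x‖
      rw [hnorm x, mul_comm, ← tsum_mul_right]
      refine tsum_of_norm_bounded ((hsum x).mul_right (C i)).hasSum (fun k => ?_)
      rw [norm_mul]
      exact mul_le_mul_of_nonneg_left (hb i k) (norm_nonneg _))
  obtain ⟨K, hK⟩ := banach_steinhaus (g := L) (fun x => h (fun k => x k) (hsum x))
  refine ⟨K, fun i k => ?_⟩
  have h1 : L i (lp.single 1 k (1 : ℂ)) = b i k := by
    change ∑' j, (lp.single 1 k (1 : ℂ) : lp (fun _ : ℕ => ℂ) 1) j * b i j = b i k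
    rw [tsum_eq_single k]
    · simp
    · intro j hj
      simp [lp.single_apply, hj]
  have h2 : ‖(lp.single 1 k (1 : ℂ) : lp (fun _ : ℕ => ℂ) 1)‖ = 1 := by
    rw [lp.norm_single (by norm_num)]
    simp
  calc ‖b i k‖ = ‖L i (lp.single 1 k (1 : ℂ))‖ := by rw [h1]
    _ ≤ ‖L i‖ * ‖(lp.single 1 k (1 : ℂ) : lp (fun _ : ℕ => ℂ) 1)‖ := (L i).le_opNorm _
    _ = ‖L i‖ := by rw [h2, mul_one]
    _ ≤ K := hK i

theorem uniform_bound (B : ℝ → ℕ → ℕ → ℂ) (hB : ∀ t k l, ‖B t k l‖ ≤ 1) (w : ℝ → ℝ)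
    (hw : ∀ t, 0 < w t)
    (h : ∀ x y : ℕ → ℂ, Summable (fun k => ‖x k‖) → Summable (fun l => ‖y l‖) →
      ∃ K : ℝ, ∀ t ≥ (1:ℝ), ‖∑' k, ∑' l, x k * y l * B t k l‖ ≤ K * w t) :
    ∃ K : ℝ, ∀ t ≥ (1:ℝ), ∀ k l, ‖B t k l‖ ≤ K * w t := by
  have step1 : ∀ y : ℕ → ℂ, Summable (fun l => ‖y l‖) → ∃ K : ℝ,
      ∀ (t : {t : ℝ // 1 ≤ t}) (k : ℕ), ‖((w t.1 : ℂ))⁻¹ * ∑' l, y l * B t.1 k l‖ ≤ K := by
    intro y hy
    refine bs_one (ι := {t : ℝ // 1 ≤ t}) (fun t k => ((w t.1 : ℂ))⁻¹ * ∑' l, y l * B t.1 k l)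
      (fun t => (w t.1)⁻¹ * ∑' l, ‖y l‖) ?_ ?_
    · intro t k
      rw [norm_mul, norm_inv, Complex.norm_real, Real.norm_of_nonneg (hw _).le]
      refine mul_le_mul_of_nonneg_left ?_ (inv_nonneg.2 (hw _).le)
      refine tsum_of_norm_bounded hy.hasSum (fun l => ?_)
      rw [norm_mul]
      exact mul_le_of_le_one_right (norm_nonneg _) (hB _ _ _)
    · intro x hx
      obtain ⟨K, hK⟩ := h x y hx hy
      refine ⟨K, fun t => ?_⟩
      have e : (∑' k, x k * (((w t.1 : ℂ))⁻¹ * ∑' l, y l * B t.1 k l)) =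
          ((w t.1 : ℂ))⁻¹ * ∑' k, ∑' l, x k * y l * B t.1 k l := by
        rw [← tsum_mul_left]
        congr 1
        ext k
        have e2 : ∑' l, x k * y l * B t.1 k l = x k * ∑' l, y l * B t.1 k l := by
          rw [← tsum_mul_left]
          congr 1
          ext l
          ring
        rw [e2]
        ring
      rw [e, norm_mul, norm_inv, Complex.norm_real, Real.norm_of_nonneg (hw _).le,
        inv_mul_le_iff₀ (hw _), mul_comm]
      exact hK t.1 t.2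
  obtain ⟨K, hK⟩ := bs_one (ι := {t : ℝ // 1 ≤ t} × ℕ)
    (fun p l => ((w p.1.1 : ℂ))⁻¹ * B p.1.1 p.2 l) (fun p => (w p.1.1)⁻¹)
    (fun p l => by
      rw [norm_mul, norm_inv, Complex.norm_real, Real.norm_of_nonneg (hw _).le]
      exact mul_le_of_le_one_right (inv_nonneg.2 (hw _).le) (hB _ _ _))
    (fun y hy => by
      obtain ⟨K, hK⟩ := step1 y hy
      refine ⟨K, fun p => ?_⟩
      have e : (∑' l, y l * (((w p.1.1 : ℂ))⁻¹ * B p.1.1 p.2 l)) =
          ((w p.1.1 : ℂ))⁻¹ * ∑' l, y l * B p.1.1 p.2 l := by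
        rw [← tsum_mul_left]
        congr 1
        ext l
        ring
      rw [e]
      exact hK p.1 p.2)
  refine ⟨K, fun t ht k l => ?_⟩
  have := hK (⟨t, ht⟩, k) l
  rw [norm_mul, norm_inv, Complex.norm_real, Real.norm_of_nonneg (hw _).le,
    inv_mul_le_iff₀ (hw _), mul_comm] at this
  exact this

end Vale.Agent.P099.R2.H525
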