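import Mathlib

/-! # P099.RateOfMixing: ROW BS (Banach-Steinhaus, twice) -/

namespace Vale.Agent.P099.R2.H525

open scoped ENNReal

/-- the space of absolutely summable sequences -/
abbrev E1 : Type := lp (fun _ : ℕ => ℂ) 1

theorem E1_summable (x : E1) : Summable fun k => ‖x k‖ := by
  have h := (lp.memℓp x).summable (by norm_num)
  simpa using h

theorem E1_norm (x : E1) : ‖x‖ = ∑' k, ‖x k‖ := by
  rw [lp.norm_eq_tsum_rpow (by norm_num)]
  simp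

/-- the inner sums -/
noncomputable def Sy (b : ℕ → ℕ → ℂ) (y : E1) (k : ℕ) : ℂ := ∑' l, y l * b k l

theorem Sy_summable {b : ℕ → ℕ → ℂ} (hb : ∀ k l, ‖b k l‖ ≤ 1) (y : E1) (k : ℕ) :
    Summable fun l => y l * b k l := by
  refine Summable.of_norm_bounded (E1_summable y) fun l => ?_
  rw [norm_mul]
  exact mul_le_of_le_one_right (norm_nonneg _) (hb k l)

theorem Sy_norm {b : ℕ → ℕ → ℂ} (hb : ∀ k l, ‖b k l‖ ≤ 1) (y : E1) (k : ℕ) :
    ‖Sy b y k‖ ≤ ‖y‖ := by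
  rw [E1_norm]
  refine tsum_of_norm_bounded (E1_summable y).hasSum fun l => ?_
  rw [norm_mul]
  exact mul_le_of_le_one_right (norm_nonneg _) (hb k l)

theorem xS_summable {b : ℕ → ℕ → ℂ} (hb : ∀ k l, ‖b k l‖ ≤ 1) (x y : E1) :
    Summable fun k => x k * Sy b y k := by
  refine Summable.of_norm_bounded ((E1_summable x).mul_right ‖y‖) fun k => ?_
  rw [norm_mul]
  exact mul_le_mul_of_nonneg_left (Sy_norm hb y k) (norm_nonneg _)

/-- the bilinear form -/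
noncomputable def bil (b : ℕ → ℕ → ℂ) (hb : ∀ k l, ‖b k l‖ ≤ 1) : E1 →ₗ[ℂ] E1 →ₗ[ℂ] ℂ :=
  LinearMap.mk₂ ℂ (fun x y => ∑' k, x k * Sy b y k)
    (fun x x' y => by
      rw [← (xS_summable hb x y).tsum_add (xS_summable hb x' y)]
      refine tsum_congr fun k => ?_
      rw [lp.coeFn_add, Pi.add_apply, add_mul])
    (fun c x y => by
      rw [smul_eq_mul, ← tsum_mul_left]
      refine tsum_congr fun k => ?_
      rw [lp.coeFn_smul, Pi.smul_apply, smul_eq_mul, mul_assoc])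
    (fun x y y' => by
      rw [← (xS_summable hb x y).tsum_add (xS_summable hb x y')]
      refine tsum_congr fun k => ?_
      rw [← mul_add]
      congr 1
      unfold Sy
      rw [← (Sy_summable hb y k).tsum_add (Sy_summable hb y' k)]
      refine tsum_congr fun l => ?_
      rw [lp.coeFn_add, Pi.add_apply, add_mul])
    (fun c x y => by
      rw [smul_eq_mul, ← tsum_mul_left]
      refine tsum_congr fun k => ?_
      have : Sy b (c • y) k = c * Sy b y k := by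
        unfold Sy
        rw [← tsum_mul_left]
        refine tsum_congr fun l => ?_
        rw [lp.coeFn_smul, Pi.smul_apply, smul_eq_mul, mul_assoc]
      rw [this]; ring)

theorem bil_apply (b : ℕ → ℕ → ℂ) (hb : ∀ k l, ‖b k l‖ ≤ 1) (x y : E1) :
    bil b hb x y = ∑' k, ∑' l, x k * y l * b k l := by
  show ∑' k, x k * Sy b y k = _
  refine tsum_congr fun k => ?_
  unfold Sy
  rw [← tsum_mul_left]
  refine tsum_congr fun l => ?_
  ring

theorem bil_bound (b : ℕ → ℕ → ℂ) (hb : ∀ k l, ‖b k l‖ ≤ 1) (x y : E1) :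
    ‖bil b hb x y‖ ≤ 1 * ‖x‖ * ‖y‖ := by
  show ‖∑' k, x k * Sy b y k‖ ≤ _
  rw [one_mul, E1_norm x]
  refine tsum_of_norm_bounded ((E1_summable x).hasSum.mul_right ‖y‖) fun k => ?_
  rw [norm_mul]
  exact mul_le_mul_of_nonneg_left (Sy_norm hb y k) (norm_nonneg _)

/-- the continuous bilinear form -/
noncomputable def cbil (b : ℕ → ℕ → ℂ) (hb : ∀ k l, ‖b k l‖ ≤ 1) : E1 →L[ℂ] E1 →L[ℂ] ℂ :=
  (bil b hb).mkContinuous₂ 1 (bil_bound b hb)

theorem uniform_bound (B : ℝ → ℕ → ℕ → ℂ) (hB : ∀ t k l, ‖B t k l‖ ≤ 1) (w : ℝ → ℝ)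
    (hw : ∀ t, 0 < w t)
    (h : ∀ x y : ℕ → ℂ, Summable (fun k => ‖x k‖) → Summable (fun l => ‖y l‖) →
      ∃ K : ℝ, ∀ t ≥ (1:ℝ), ‖∑' k, ∑' l, x k * y l * B t k l‖ ≤ K * w t) :
    ∃ K : ℝ, ∀ t ≥ (1:ℝ), ∀ k l, ‖B t k l‖ ≤ K * w t := by
  let g : {t : ℝ // 1 ≤ t} → E1 →L[ℂ] E1 →L[ℂ] ℂ := fun t =>
    ((w t.1 : ℂ)⁻¹) • cbil (B t.1) (hB t.1)
  have hg : ∀ t x y, g t x y = (w t.1 : ℂ)⁻¹ * ∑' k, ∑' l, x k * y l * B t.1 k l := by
    intro t x y
    rw [← bil_apply (B t.1) (hB t.1)]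
    rfl
  have hnorm : ∀ t x y, ‖g t x y‖ = (w t.1)⁻¹ * ‖∑' k, ∑' l, x k * y l * B t.1 k l‖ := by
    intro t x y
    rw [hg, norm_mul, norm_inv, Complex.norm_real, Real.norm_of_nonneg (hw _).le]
  have h1 : ∀ x : E1, ∃ C, ∀ t, ‖g t x‖ ≤ C := by
    intro x
    refine banach_steinhaus fun y => ?_
    obtain ⟨K, hK⟩ := h x y (E1_summable x) (E1_summable y)
    refine ⟨K, fun t => ?_⟩
    rw [hnorm, inv_mul_le_iff₀ (hw _), mul_comm]
    exact hK t.1 t.2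
  obtain ⟨C, hC⟩ := banach_steinhaus h1
  refine ⟨C, fun t ht k l => ?_⟩
  have h2 := hnorm ⟨t, ht⟩ (lp.single 1 k (1:ℂ)) (lp.single 1 l (1:ℂ))
  have h3 : ∑' k', ∑' l', (lp.single 1 k (1:ℂ) : E1) k' * (lp.single 1 l (1:ℂ) : E1) l' *
      B t k' l' = B t k l := by
    rw [tsum_eq_single k, tsum_eq_single l]
    · simp
    · intro l' hl'
      simp [lp.single_apply, hl']
    · intro k' hk'
      simp [lp.single_apply, hk']
  rw [h3] at h2
  have h4 : ‖g ⟨t, ht⟩ (lp.single 1 k (1:ℂ)) (lp.single 1 l (1:ℂ))‖ ≤ C := by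
    have k1 := (g ⟨t, ht⟩ (lp.single 1 k (1:ℂ))).le_opNorm (lp.single 1 l (1:ℂ))
    have k2 := (g ⟨t, ht⟩).le_opNorm (lp.single 1 k (1:ℂ))
    have n1 : ∀ j : ℕ, ‖(lp.single 1 j (1:ℂ) : E1)‖ = 1 := fun j => by
      rw [lp.norm_single (by norm_num)]; simp
    rw [n1, mul_one] at k1 k2
    exact k1.trans (k2.trans (hC _))
  rw [h2, inv_mul_le_iff₀ (hw _)] at h4
  rwa [mul_comm] at h4

end Vale.Agent.P099.R2.H525
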