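import Mathlib

/-! # P099.RateOfMixing: ROW C, the area of a collar of a segment -/

namespace Vale.Agent.P099.R2.H525

theorem collar_segment (a b : ℂ) : ∃ C : ℝ, 0 ≤ C ∧ ∀ h : ℝ, 0 < h → h ≤ 1 →
    MeasureTheory.volume (Metric.cthickening h (segment ℝ a b)) ≤ ENNReal.ofReal (C * h) := by
  obtain ⟨l, hl⟩ : ∃ l : ℝ, l = ‖b - a‖ := ⟨_, rfl⟩
  have hl0 : 0 ≤ l := by rw [hl]; exact norm_nonneg _
  refine ⟨(l + 3) * (4 * Real.pi), by positivity, fun h h0 h1 => ?_⟩
  obtain ⟨n, hn⟩ : ∃ n : ℕ, n = ⌈l / h⌉₊ + 1 := ⟨_, rfl⟩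
  have hnge : l / h ≤ n := by
    rw [hn]; push_cast
    have := Nat.le_ceil (l / h)
    linarith only [this]
  have hnle : (n : ℝ) ≤ l / h + 2 := by
    rw [hn]; push_cast
    have := (Nat.ceil_lt_add_one (show 0 ≤ l / h by positivity)).le
    linarith only [this]
  have hn1 : 1 ≤ n := by omega
  have hn0 : (0:ℝ) < n := by exact_mod_cast hn1
  let x : ℕ → ℂ := fun j => a + ((j : ℝ) / n) • (b - a)
  have hcov : Metric.cthickening h (segment ℝ a b) ⊆
      ⋃ j ∈ Finset.range (n + 1), Metric.closedBall (x j) (2 * h) := by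
    intro z hz
    have hseg : IsCompact (segment ℝ a b) := by
      rw [segment_eq_image']
      exact isCompact_Icc.image (by fun_prop)
    rw [hseg.cthickening_eq_biUnion_closedBall h0.le] at hz
    obtain ⟨w, hw, hzw⟩ := Set.mem_iUnion₂.1 hz
    rw [segment_eq_image'] at hw
    obtain ⟨t, ht, rfl⟩ := hw
    obtain ⟨j, hj⟩ : ∃ j : ℕ, j = ⌊t * n⌋₊ := ⟨_, rfl⟩
    have hq0 : 0 ≤ t * n := mul_nonneg ht.1 hn0.le
    have hj1 : (j : ℝ) ≤ t * n := by rw [hj]; exact Nat.floor_le hq0
    have hj2 : t * n < j + 1 := by rw [hj]; exact Nat.lt_floor_add_one _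
    have hjn : j < n + 1 := by
      have k1 : (j : ℝ) ≤ n := by nlinarith only [hj1, ht.2, hn0]
      have : j ≤ n := by exact_mod_cast k1
      omega
    refine Set.mem_iUnion₂.2 ⟨j, Finset.mem_range.2 hjn, ?_⟩
    rw [Metric.mem_closedBall] at hzw ⊢
    have k2 : dist (a + t • (b - a)) (x j) ≤ h := by
      have e1 : (a + t • (b - a)) - x j = (t - (j : ℝ) / n) • (b - a) := by
        simp only [x]; rw [sub_smul]; ring
      rw [dist_eq_norm, e1, norm_smul, ← hl, Real.norm_eq_abs]
      have e2 : |t - (j : ℝ) / n| ≤ 1 / n := by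
        have e3 : (j : ℝ) / n ≤ t := by rw [div_le_iff₀ hn0]; exact hj1
        rw [abs_of_nonneg (by linarith only [e3]), sub_le_iff_le_add, ← add_div,
          le_div_iff₀ hn0]
        linarith only [hj2]
      have e4 : 1 / (n : ℝ) * l ≤ h := by
        rw [div_le_iff₀ h0] at hnge
        rw [one_div, inv_mul_le_iff₀ hn0]
        exact hnge
      exact (mul_le_mul_of_nonneg_right e2 hl0).trans e4
    calc dist z (x j) ≤ dist z (a + t • (b - a)) + dist (a + t • (b - a)) (x j) :=
          dist_triangle _ _ _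
      _ ≤ h + h := add_le_add hzw k2
      _ = 2 * h := by ring
  have hball : ∀ j : ℕ, MeasureTheory.volume (Metric.closedBall (x j) (2 * h)) =
      ENNReal.ofReal (4 * Real.pi * h ^ 2) := by
    intro j
    have hpi : (NNReal.pi : ENNReal) = ENNReal.ofReal Real.pi := by
      rw [← NNReal.coe_real_pi, ENNReal.ofReal_coe_nnreal]
    rw [Complex.volume_closedBall, ← ENNReal.ofReal_pow (by positivity), hpi,
      ← ENNReal.ofReal_mul (by positivity)]
    congr 1; ring
  calc MeasureTheory.volume (Metric.cthickening h (segment ℝ a b))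
      ≤ MeasureTheory.volume (⋃ j ∈ Finset.range (n + 1), Metric.closedBall (x j) (2 * h)) :=
        MeasureTheory.measure_mono hcov
    _ ≤ ∑ j ∈ Finset.range (n + 1), MeasureTheory.volume (Metric.closedBall (x j) (2 * h)) :=
        MeasureTheory.measure_biUnion_finset_le _ _
    _ = ∑ j ∈ Finset.range (n + 1), ENNReal.ofReal (4 * Real.pi * h ^ 2) :=
        Finset.sum_congr rfl fun j _ => hball j
    _ = ENNReal.ofReal ((n + 1 : ℝ) * (4 * Real.pi * h ^ 2)) := by
        rw [Finset.sum_const, Finset.card_range, nsmul_eq_mul, ← ENNReal.ofReal_natCast,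
          ← ENNReal.ofReal_mul (by positivity)]
        push_cast
        rfl
    _ ≤ ENNReal.ofReal ((l + 3) * (4 * Real.pi) * h) := by
        apply ENNReal.ofReal_le_ofReal
        have k1 : ((n : ℝ) + 1) * h ≤ l + 3 := by
          have k2 : ((n : ℝ) + 1) * h ≤ (l / h + 3) * h :=
            mul_le_mul_of_nonneg_right (by linarith only [hnle]) h0.le
          have k3 : (l / h + 3) * h = l + 3 * h := by field_simp
          linarith only [k2, k3, h1]
        have k4 : 0 ≤ 4 * Real.pi * h := by positivity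
        nlinarith only [mul_le_mul_of_nonneg_right k1 k4]

end Vale.Agent.P099.R2.H525
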