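import Mathlib

/-! Row C: the area of a collar of a segment. -/

open MeasureTheory Metric Set

namespace Vale.Agent.P099.R2.H525

theorem collar_segment (a b : ℂ) : ∃ C : ℝ, 0 ≤ C ∧ ∀ h : ℝ, 0 < h → h ≤ 1 →
    MeasureTheory.volume (Metric.cthickening h (segment ℝ a b)) ≤ ENNReal.ofReal (C * h) := by
  have hL : 0 ≤ ‖b - a‖ := norm_nonneg _
  refine ⟨4 * Real.pi * (‖b - a‖ + 3), by positivity, ?_⟩
  intro h hh hh1
  obtain ⟨n, hn⟩ : ∃ n : ℕ, n = ⌈‖b - a‖ / h⌉₊ + 1 := ⟨_, rfl⟩
  have hn0 : (0 : ℝ) < n := by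
    rw [hn]
    positivity
  have hn1 : ‖b - a‖ / h ≤ n := by
    rw [hn]
    push_cast
    have := Nat.le_ceil (‖b - a‖ / h)
    linarith
  have hn2 : (n : ℝ) ≤ ‖b - a‖ / h + 2 := by
    rw [hn]
    push_cast
    have := (Nat.ceil_lt_add_one (a := ‖b - a‖ / h) (by positivity)).le
    linarith
  have hLn : ‖b - a‖ / n ≤ h := by
    rw [div_le_iff₀ hh] at hn1
    rw [div_le_iff₀ hn0]
    linarith
  have hcomp : IsCompact (segment ℝ a b) := by
    rw [segment_eq_image_lineMap]
    exact isCompact_Icc.image (AffineMap.lineMap_continuous)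
  have hsub : cthickening h (segment ℝ a b) ⊆
      ⋃ j ∈ Finset.range (n + 1), closedBall (a + ((j : ℝ) / n) • (b - a)) (2 * h) := by
    rw [hcomp.cthickening_eq_biUnion_closedBall hh.le]
    intro x hx
    obtain ⟨y, hy, hxy⟩ := mem_iUnion₂.1 hx
    rw [segment_eq_image'] at hy
    obtain ⟨t, ht, rfl⟩ := hy
    refine mem_iUnion₂.2 ⟨⌊t * n⌋₊, ?_, ?_⟩
    · rw [Finset.mem_range]
      have h1 : ⌊t * n⌋₊ ≤ n := by
        refine Nat.floor_le_of_le ?_
        have := mul_le_mul_of_nonneg_right ht.2 hn0.le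
        linarith
      omega
    · rw [mem_closedBall] at hxy ⊢
      have h2 : dist (a + t • (b - a)) (a + ((⌊t * n⌋₊ : ℝ) / n) • (b - a)) ≤ h := by
        rw [dist_add_left, dist_eq_norm, ← sub_smul, norm_smul, Real.norm_eq_abs]
        have h3 : |t - (⌊t * n⌋₊ : ℝ) / n| ≤ 1 / n := by
          have h4 : (⌊t * n⌋₊ : ℝ) ≤ t * n := Nat.floor_le (mul_nonneg ht.1 hn0.le)
          have h5 : t * n < ⌊t * n⌋₊ + 1 := Nat.lt_floor_add_one _
          have h6 : t - (⌊t * n⌋₊ : ℝ) / n = (t * n - ⌊t * n⌋₊) / n := by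
            field_simp
          rw [h6, abs_div, abs_of_pos hn0, abs_of_nonneg (by linarith)]
          exact div_le_div_of_nonneg_right (by linarith) hn0.le
        calc |t - (⌊t * n⌋₊ : ℝ) / n| * ‖b - a‖ ≤ 1 / n * ‖b - a‖ :=
              mul_le_mul_of_nonneg_right h3 hL
          _ = ‖b - a‖ / n := by ring
          _ ≤ h := hLn
      calc dist x (a + ((⌊t * n⌋₊ : ℝ) / n) • (b - a))
          ≤ dist x (a + t • (b - a)) +
            dist (a + t • (b - a)) (a + ((⌊t * n⌋₊ : ℝ) / n) • (b - a)) := dist_triangle _ _ _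
        _ ≤ 2 * h := by linarith
  calc volume (cthickening h (segment ℝ a b))
      ≤ volume (⋃ j ∈ Finset.range (n + 1),
          closedBall (a + ((j : ℝ) / n) • (b - a)) (2 * h)) := measure_mono hsub
    _ ≤ ∑ j ∈ Finset.range (n + 1),
          volume (closedBall (a + ((j : ℝ) / n) • (b - a)) (2 * h)) :=
        measure_biUnion_finset_le _ _
    _ = ∑ j ∈ Finset.range (n + 1), ENNReal.ofReal (Real.pi * (2 * h) ^ 2) := by
        refine Finset.sum_congr rfl fun j _ => ?_
        rw [Complex.volume_closedBall, ← ENNReal.ofReal_pow (by positivity), mul_comm,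
          ENNReal.ofReal_mul Real.pi_pos.le]
        congr 1
        rw [← NNReal.coe_real_pi, ENNReal.ofReal_coe_nnreal]
    _ = ENNReal.ofReal ((n + 1 : ℕ) * (Real.pi * (2 * h) ^ 2)) := by
        rw [Finset.sum_const, Finset.card_range, nsmul_eq_mul,
          ENNReal.ofReal_mul (p := ((n + 1 : ℕ) : ℝ)) (by positivity), ENNReal.ofReal_natCast]
    _ ≤ ENNReal.ofReal (4 * Real.pi * (‖b - a‖ + 3) * h) := by
        refine ENNReal.ofReal_le_ofReal ?_
        push_cast
        have h7 : ((n : ℝ) + 1) * h ≤ ‖b - a‖ + 3 := by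
          have h8 : ((n : ℝ) + 1) * h ≤ (‖b - a‖ / h + 3) * h :=
            mul_le_mul_of_nonneg_right (by linarith) hh.le
          have h9 : (‖b - a‖ / h + 3) * h = ‖b - a‖ + 3 * h := by field_simp
          linarith
        have h10 : ((n : ℝ) + 1) * (Real.pi * (2 * h) ^ 2) =
            4 * Real.pi * (((n : ℝ) + 1) * h) * h := by ring
        rw [h10]
        have := Real.pi_pos
        gcongr

end Vale.Agent.P099.R2.H525
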