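import Vale.Agent.P099.R2.H525.Prob
import Vale.Agent.P099.R2.H525.C_helper69

set_option linter.all false

open MeasureTheory Set Filter Topology

namespace Vale.Agent.P099.R2.H525

open Vale.Agent.P099 Vale.Agent.P099T
open Vale.Agent.P099.R2.H278 (inner measurable_inner flow_straight ae_Q ae_unit)

variable {N : ℕ} (T : PolygonalTable N)

lemma collar_sub {h : ℝ} : {x | x ∈ T.Q ∧ x ∉ inner T h} ⊆
    ⋃ i, Metric.cthickening h (segment ℝ (T.a i) (T.b i)) := by
  rintro x ⟨hx, hx2⟩
  have hne : T.Q ≠ univ := by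
    intro h0
    have := T.isBounded
    rw [h0] at this
    exact NormedSpace.unbounded_univ ℝ ℂ this
  obtain ⟨y, hy, hy2⟩ := exists_mem_frontier_infDist_compl_eq_dist hx hne
  rw [T.frontier_eq] at hy
  obtain ⟨i, hi⟩ := mem_iUnion.1 hy
  refine mem_iUnion.2 ⟨i, ?_⟩
  have h3 : dist x y ≤ h := by
    rw [← hy2]
    exact not_lt.1 hx2
  exact Metric.mem_cthickening_of_dist_le x y h _ hi h3

theorem collar : ∃ C : ℝ, 0 < C ∧ ∀ h : ℝ, 0 < h → h ≤ 1 →
    T.mu.real {p | p.1 ∉ inner T h} ≤ C * h := by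
  choose c hc hv using fun i => collar_segment (T.a i) (T.b i)
  set V : ℝ := (volume T.Q).toReal with hV
  have hVpos : 0 < V := ENNReal.toReal_pos T.volume_Q_pos.ne' T.volume_Q_lt_top.ne
  refine ⟨V⁻¹ * (∑ i, c i) + 1, by
    have : 0 ≤ V⁻¹ * ∑ i, c i := mul_nonneg (inv_nonneg.2 hVpos.le)
      (Finset.sum_nonneg fun i _ => hc i)
    linarith, fun h h0 h1 => ?_⟩
  have e1 : T.mu.real {p | p.1 ∉ inner T h} =
      (ProbabilityTheory.cond volume T.Q).real (inner T h)ᶜ := by
    have hmp : MeasurePreserving Prod.fst T.mu (ProbabilityTheory.cond volume T.Q) := by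
      unfold PolygonalTable.mu
      exact measurePreserving_fst
    have := hmp.measureReal_preimage (measurable_inner T h).compl.nullMeasurableSet
    rw [← this]
    rfl
  have e4 : (ProbabilityTheory.cond volume T.Q).real (inner T h)ᶜ =
      V⁻¹ * volume.real (T.Q ∩ (inner T h)ᶜ) := by
    rw [measureReal_def, ProbabilityTheory.cond_apply T.isOpen.measurableSet, ENNReal.toReal_mul,
      ENNReal.toReal_inv]
    rfl
  rw [e1, e4]
  have e2 : volume.real (T.Q ∩ (inner T h)ᶜ) ≤ (∑ i, c i) * h := by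
    have h3 : volume (T.Q ∩ (inner T h)ᶜ) ≤ ENNReal.ofReal ((∑ i, c i) * h) := by
      calc volume (T.Q ∩ (inner T h)ᶜ)
          ≤ volume (⋃ i, Metric.cthickening h (segment ℝ (T.a i) (T.b i))) :=
            measure_mono (collar_sub T)
        _ ≤ ∑ i, volume (Metric.cthickening h (segment ℝ (T.a i) (T.b i))) :=
            measure_iUnion_fintype_le _ _
        _ ≤ ∑ i, ENNReal.ofReal (c i * h) := Finset.sum_le_sum fun i _ => hv i h h0 h1
        _ = ENNReal.ofReal ((∑ i, c i) * h) := by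
            rw [← ENNReal.ofReal_sum_of_nonneg fun i _ => mul_nonneg (hc i) h0.le,
              Finset.sum_mul]
    exact ENNReal.toReal_le_of_le_ofReal
      (mul_nonneg (Finset.sum_nonneg fun i _ => hc i) h0.le) h3
  have h5 := mul_le_mul_of_nonneg_left e2 (inv_nonneg.2 hVpos.le)
  nlinarith

end Vale.Agent.P099.R2.H525
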