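import Mathlib
import Vale.Agent.P099.Defs

open MeasureTheory Set Filter Topology

namespace Vale.Agent.P099.R2.H525

theorem pow_lip {u v : ℂ} (hu : ‖u‖ = 1) (hv : ‖v‖ = 1) (n : ℕ) :
    ‖u ^ n - v ^ n‖ ≤ n * ‖u - v‖ := by
  induction n with
  | zero => simp
  | succ n ih =>
    have e : u ^ (n + 1) - v ^ (n + 1) = u ^ n * (u - v) + (u ^ n - v ^ n) * v := by ring
    calc ‖u ^ (n + 1) - v ^ (n + 1)‖ = ‖u ^ n * (u - v) + (u ^ n - v ^ n) * v‖ := by rw [e]
      _ ≤ ‖u ^ n * (u - v)‖ + ‖(u ^ n - v ^ n) * v‖ := norm_add_le _ _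
      _ = ‖u - v‖ + ‖u ^ n - v ^ n‖ := by
        rw [norm_mul, norm_mul, norm_pow, hu, hv, one_pow, one_mul, mul_one]
      _ ≤ ‖u - v‖ + n * ‖u - v‖ := by gcongr
      _ = ((n + 1 : ℕ) : ℝ) * ‖u - v‖ := by push_cast; ring

theorem term_le {u : ℂ} (hu : ‖u‖ = 1) (a : ℂ) (k : ℕ) :
    ‖a * (u ^ (k + 1) / ((k : ℂ) + 1))‖ ≤ ‖a‖ := by
  have h : ‖((k : ℂ) + 1)‖ = (k : ℝ) + 1 := by
    have : ((k : ℂ) + 1) = (((k : ℝ) + 1 : ℝ) : ℂ) := by push_cast; rfl
    rw [this, Complex.norm_real, Real.norm_of_nonneg (by positivity)]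
  rw [norm_mul, norm_div, norm_pow, hu, one_pow, h]
  have h1 : 1 / ((k : ℝ) + 1) ≤ 1 := by
    rw [div_le_one (by positivity)]
    have := Nat.cast_nonneg (α := ℝ) k
    linarith
  calc ‖a‖ * (1 / ((k : ℝ) + 1)) ≤ ‖a‖ * 1 := by gcongr
    _ = ‖a‖ := mul_one _

theorem summable_term {x : ℕ → ℂ} (hx : Summable fun k => ‖x k‖) {u : ℂ} (hu : ‖u‖ = 1) :
    Summable fun k : ℕ => x k * (u ^ (k + 1) / ((k : ℂ) + 1)) :=
  Summable.of_norm_bounded hx fun k => term_le hu (x k) k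

theorem lipF (x : ℕ → ℂ) (hx : Summable fun k => ‖x k‖) :
    ∃ K : NNReal, LipschitzOnWith K (fun u : ℂ => ∑' k, x k * (u ^ (k+1) / (k+1)))
      (Metric.sphere 0 1) := by
  refine ⟨⟨∑' k, ‖x k‖, tsum_nonneg fun _ => norm_nonneg _⟩, ?_⟩
  refine LipschitzOnWith.of_dist_le_mul fun u hu v hv => ?_
  have hu' : ‖u‖ = 1 := mem_sphere_zero_iff_norm.1 hu
  have hv' : ‖v‖ = 1 := mem_sphere_zero_iff_norm.1 hv
  rw [dist_eq_norm, dist_eq_norm]
  change ‖∑' k : ℕ, x k * (u ^ (k + 1) / ((k : ℂ) + 1)) -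
    ∑' k : ℕ, x k * (v ^ (k + 1) / ((k : ℂ) + 1))‖ ≤ (∑' k, ‖x k‖) * ‖u - v‖
  rw [← (summable_term hx hu').tsum_sub (summable_term hx hv'), ← tsum_mul_right]
  have hb : ∀ k : ℕ, ‖x k * (u ^ (k + 1) / ((k : ℂ) + 1)) -
      x k * (v ^ (k + 1) / ((k : ℂ) + 1))‖ ≤ ‖x k‖ * ‖u - v‖ := by
    intro k
    have h : ‖((k : ℂ) + 1)‖ = (k : ℝ) + 1 := by
      have : ((k : ℂ) + 1) = (((k : ℝ) + 1 : ℝ) : ℂ) := by push_cast; rfl
      rw [this, Complex.norm_real, Real.norm_of_nonneg (by positivity)]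
    have hk : (0 : ℝ) < (k : ℝ) + 1 := by positivity
    rw [← mul_sub, ← sub_div, norm_mul, norm_div, h]
    have h1 : ‖u ^ (k + 1) - v ^ (k + 1)‖ / ((k : ℝ) + 1) ≤ ‖u - v‖ := by
      rw [div_le_iff₀ hk]
      have := pow_lip hu' hv' (k + 1)
      push_cast at this
      linarith
    gcongr
  have hs : Summable fun k => ‖x k‖ * ‖u - v‖ := hx.mul_right _
  exact tsum_of_norm_bounded hs.hasSum hb

theorem exp_norm (θ : ℝ) : ‖Complex.exp (θ * Complex.I)‖ = 1 := Complex.norm_exp_ofReal_mul_I θ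

theorem meas_exp : Measurable fun θ : ℝ => Complex.exp (θ * Complex.I) := by fun_prop

theorem prob_nu : IsProbabilityMeasure Vale.Agent.P099.nu := by
  have : IsProbabilityMeasure (ProbabilityTheory.cond volume (Ioc (-Real.pi) Real.pi)) := by
    refine ProbabilityTheory.cond_isProbabilityMeasure_of_finite ?_ ?_
    · rw [Real.volume_Ioc]
      have := Real.pi_pos
      simp only [sub_neg_eq_add, ne_eq, ENNReal.ofReal_eq_zero, not_le]
      positivity
    · rw [Real.volume_Ioc]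
      exact ENNReal.ofReal_ne_top
  exact Measure.isProbabilityMeasure_map meas_exp.aemeasurable

theorem ae_norm : ∀ᵐ u ∂Vale.Agent.P099.nu, ‖u‖ = 1 := by
  rw [Vale.Agent.P099.nu]
  rw [ae_map_iff meas_exp.aemeasurable (measurableSet_eq_fun (by fun_prop) measurable_const)]
  exact Filter.Eventually.of_forall exp_norm

theorem integral_pow (n : ℕ) : ∫ u, u ^ (n + 1) ∂Vale.Agent.P099.nu = 0 := by
  rw [Vale.Agent.P099.nu, integral_map meas_exp.aemeasurable
    (by exact (continuous_pow (n + 1)).aestronglyMeasurable), ProbabilityTheory.cond,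
    integral_smul_measure]
  have hpi : -Real.pi ≤ Real.pi := by have := Real.pi_pos; linarith
  rw [← intervalIntegral.integral_of_le hpi]
  have e : ∀ θ : ℝ, Complex.exp (θ * Complex.I) ^ (n + 1) =
      Complex.exp (((n + 1 : ℕ) * Complex.I) * θ) := by
    intro θ
    rw [← Complex.exp_nat_mul]
    congr 1
    push_cast
    ring
  simp only [e]
  have hc : ((n + 1 : ℕ) * Complex.I : ℂ) ≠ 0 :=
    mul_ne_zero (Nat.cast_ne_zero.2 (Nat.succ_ne_zero n)) Complex.I_ne_zero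
  rw [integral_exp_mul_complex hc]
  have h1 : Complex.exp (((n + 1 : ℕ) * Complex.I) * ((Real.pi : ℝ) : ℂ)) =
      Complex.exp (((n + 1 : ℕ) * Complex.I) * ((-Real.pi : ℝ) : ℂ)) := by
    rw [← e, ← e]
    congr 1
    rw [Complex.exp_pi_mul_I]
    push_cast
    rw [neg_mul, Complex.exp_neg, Complex.exp_pi_mul_I]
    norm_num
  rw [h1, sub_self, zero_div, smul_zero]

theorem meanF (x : ℕ → ℂ) (hx : Summable fun k => ‖x k‖) :
    ∫ u, (∑' k, x k * (u ^ (k+1) / (k+1))) ∂Vale.Agent.P099.nu = 0 := by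
  have := prob_nu
  have hm : ∀ k : ℕ, AEStronglyMeasurable (fun u : ℂ => x k * (u ^ (k + 1) / ((k : ℂ) + 1)))
      Vale.Agent.P099.nu := fun k => by
    have : Continuous fun u : ℂ => x k * (u ^ (k + 1) / ((k : ℂ) + 1)) := by fun_prop
    exact this.aestronglyMeasurable
  have hi : ∀ k : ℕ, Integrable (fun u : ℂ => x k * (u ^ (k + 1) / ((k : ℂ) + 1)))
      Vale.Agent.P099.nu := fun k => by
    refine Integrable.mono' (integrable_const ‖x k‖) (hm k) ?_
    filter_upwards [ae_norm] with u hu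
    exact term_le hu (x k) k
  have hs : Summable fun k : ℕ => ∫ u, ‖x k * (u ^ (k + 1) / ((k : ℂ) + 1))‖
      ∂Vale.Agent.P099.nu := by
    refine Summable.of_nonneg_of_le (fun k => integral_nonneg fun _ => norm_nonneg _)
      (fun k => ?_) hx
    have h1 : ∫ u, ‖x k * (u ^ (k + 1) / ((k : ℂ) + 1))‖ ∂Vale.Agent.P099.nu ≤
        ∫ _u, ‖x k‖ ∂Vale.Agent.P099.nu := by
      refine integral_mono_ae (hi k).norm (integrable_const _) ?_
      filter_upwards [ae_norm] with u hu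
      exact term_le hu (x k) k
    rw [integral_const, probReal_univ, one_smul] at h1
    exact h1
  have h := hasSum_integral_of_summable_integral_norm hi hs
  have h0 : ∀ k : ℕ, ∫ u, x k * (u ^ (k + 1) / ((k : ℂ) + 1)) ∂Vale.Agent.P099.nu = 0 := by
    intro k
    rw [integral_const_mul, integral_div, integral_pow, zero_div, mul_zero]
  simp only [h0] at h
  exact h.unique hasSum_zero

end Vale.Agent.P099.R2.H525
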