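import Vale.Agent.P099.R2.H525.Few
import Vale.Agent.P099.R2.H525.RowLM_helper665
import Vale.Agent.P099.H184.PT.Main

set_option linter.all false

open MeasureTheory Set Filter Topology

namespace Vale.Agent.P099.R2.H525

open Vale.Agent.P099 Vale.Agent.P099T
open Vale.Agent.P099.R2.H278 (inner measurable_inner flow_straight ae_Q ae_unit)

/-- the nearly invariant function of the direction -/
noncomputable def FF (w : ℂ) (L : ℕ) (u : ℂ) : ℂ := u ^ L + w * (starRingEnd ℂ u) ^ L

lemma FF_le {w : ℂ} (hw : ‖w‖ = 1) {L : ℕ} {u : ℂ} (hu : ‖u‖ = 1) : ‖FF w L u‖ ≤ 2 := by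
  unfold FF
  refine (norm_add_le _ _).trans ?_
  rw [norm_mul, norm_pow, norm_pow, RCLike.norm_conj, hu, hw]
  norm_num

lemma reach_F {N : ℕ} {c : Fin N → ℂ} (hc : ∀ i, ‖c i‖ = 1) (i0 : Fin N) {L : ℕ} {e : ℝ}
    (he : ∀ i, ‖c i ^ L - c i0 ^ L‖ ≤ e) {n : ℕ} {u v : ℂ} (h : Reach c n u v) :
    ‖u‖ = 1 → ‖v‖ = 1 ∧ ‖FF (c i0 ^ L) L v - FF (c i0 ^ L) L u‖ ≤ n * (2 * e) := by
  have he0 : 0 ≤ e := le_trans (norm_nonneg _) (he i0)
  induction h with
  | refl u => intro hu; simp [hu]
  | stay h ih =>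
    intro hu
    refine ⟨(ih hu).1, (ih hu).2.trans ?_⟩
    push_cast
    nlinarith
  | @step n u v i h ih =>
    intro hu
    obtain ⟨h1, h2⟩ := ih hu
    refine ⟨by rw [norm_mul, RCLike.norm_conj, hc i, h1, one_mul], ?_⟩
    have hcc : (starRingEnd ℂ) (c i) * c i = 1 := by
      rw [← Complex.normSq_eq_conj_mul_self, Complex.normSq_eq_norm_sq, hc i]; norm_num
    have e1 : FF (c i0 ^ L) L (c i * (starRingEnd ℂ) v) - FF (c i0 ^ L) L v =
        (c i ^ L - c i0 ^ L) * ((starRingEnd ℂ) v) ^ L -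
        (c i ^ L - c i0 ^ L) * (((starRingEnd ℂ) (c i)) ^ L * v ^ L) := by
      unfold FF
      rw [map_mul, Complex.conj_conj, mul_pow, mul_pow]
      have h3 : (starRingEnd ℂ) (c i) ^ L * c i ^ L = 1 := by rw [← mul_pow, hcc, one_pow]
      linear_combination (v ^ L) * h3
    have e2 : ‖FF (c i0 ^ L) L (c i * (starRingEnd ℂ) v) - FF (c i0 ^ L) L v‖ ≤ 2 * e := by
      rw [e1]
      refine (norm_sub_le _ _).trans ?_
      rw [norm_mul, norm_mul, norm_mul, norm_pow, norm_pow, norm_pow, RCLike.norm_conj,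
        RCLike.norm_conj, h1, hc i]
      have := he i
      simp only [one_pow, mul_one]
      linarith
    calc ‖FF (c i0 ^ L) L (c i * (starRingEnd ℂ) v) - FF (c i0 ^ L) L u‖
        ≤ ‖FF (c i0 ^ L) L (c i * (starRingEnd ℂ) v) - FF (c i0 ^ L) L v‖ +
          ‖FF (c i0 ^ L) L v - FF (c i0 ^ L) L u‖ := norm_sub_le_norm_sub_add_norm_sub _ _ _
      _ ≤ 2 * e + n * (2 * e) := add_le_add e2 h2
      _ = (n + 1 : ℕ) * (2 * e) := by push_cast; ring

variable {N : ℕ} (T : PolygonalTable N)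

/-- abstract form: nearly invariant functions have correlation at least one -/
theorem abs_core {Ω : Type} [MeasurableSpace Ω] (m : Measure Ω) [IsProbabilityMeasure m]
    {z v : Ω → ℂ} (hz : Measurable z) (hv : Measurable v) (h1 : ∀ᵐ ω ∂m, ‖z ω‖ = 1)
    (h2 : ∀ᵐ ω ∂m, ‖v ω‖ = 1) {w : ℂ} (hw : ‖w‖ = 1) {L : ℕ}
    (h0 : ∫ ω, v ω ^ (2 * L) ∂m = 0)
    (hG : 15 / 16 ≤ m.real {ω | ‖FF w L (z ω) - FF w L (v ω)‖ ≤ 1 / 4}) :
    1 / 2 ≤ ‖∫ ω, z ω ^ L * (starRingEnd ℂ (v ω)) ^ L ∂m‖ + ‖∫ ω, z ω ^ L * v ω ^ L ∂m‖ := by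
  have hcv : Measurable fun ω => starRingEnd ℂ (v ω) := Complex.continuous_conj.measurable.comp hv
  have hcz : Measurable fun ω => starRingEnd ℂ (z ω) := Complex.continuous_conj.measurable.comp hz
  have hFz : Measurable fun ω => FF w L (z ω) := by unfold FF; fun_prop
  have hFv : Measurable fun ω => FF w L (v ω) := by unfold FF; fun_prop
  set A := ∫ ω, z ω ^ L * (starRingEnd ℂ (v ω)) ^ L ∂m with hA
  set B := ∫ ω, z ω ^ L * v ω ^ L ∂m with hB
  have iA : Integrable (fun ω => z ω ^ L * (starRingEnd ℂ (v ω)) ^ L) m := by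
    refine Integrable.of_bound (by fun_prop) 1 ?_
    filter_upwards [h1, h2] with ω a b
    rw [norm_mul, norm_pow, norm_pow, RCLike.norm_conj, a, b]; norm_num
  have iB : Integrable (fun ω => z ω ^ L * v ω ^ L) m := by
    refine Integrable.of_bound (by fun_prop) 1 ?_
    filter_upwards [h1, h2] with ω a b
    rw [norm_mul, norm_pow, norm_pow, a, b]; norm_num
  have iA' : Integrable (fun ω => starRingEnd ℂ (z ω ^ L * (starRingEnd ℂ (v ω)) ^ L)) m := by
    refine Integrable.of_bound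
      (Complex.continuous_conj.measurable.comp (by fun_prop)).aestronglyMeasurable 1 ?_
    filter_upwards [h1, h2] with ω a b
    rw [RCLike.norm_conj, norm_mul, norm_pow, norm_pow, RCLike.norm_conj, a, b]; norm_num
  have iB' : Integrable (fun ω => starRingEnd ℂ (z ω ^ L * v ω ^ L)) m := by
    refine Integrable.of_bound
      (Complex.continuous_conj.measurable.comp (by fun_prop)).aestronglyMeasurable 1 ?_
    filter_upwards [h1, h2] with ω a b
    rw [RCLike.norm_conj, norm_mul, norm_pow, norm_pow, a, b]; norm_num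
  have hww : starRingEnd ℂ w * w = 1 := by
    rw [← Complex.normSq_eq_conj_mul_self, Complex.normSq_eq_norm_sq, hw]; norm_num
  have hI : ∫ ω, FF w L (z ω) * starRingEnd ℂ (FF w L (v ω)) ∂m =
      A + starRingEnd ℂ w * B + w * starRingEnd ℂ B + starRingEnd ℂ A := by
    have e : ∀ ω, FF w L (z ω) * starRingEnd ℂ (FF w L (v ω)) =
        z ω ^ L * (starRingEnd ℂ (v ω)) ^ L + starRingEnd ℂ w * (z ω ^ L * v ω ^ L) +
        w * starRingEnd ℂ (z ω ^ L * v ω ^ L) +
        starRingEnd ℂ (z ω ^ L * (starRingEnd ℂ (v ω)) ^ L) := by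
      intro ω
      unfold FF
      simp only [map_add, map_mul, map_pow, Complex.conj_conj]
      linear_combination ((starRingEnd ℂ) (z ω) ^ L * v ω ^ L) * hww
    simp only [e]
    have j1 : Integrable (fun ω => z ω ^ L * (starRingEnd ℂ (v ω)) ^ L +
        starRingEnd ℂ w * (z ω ^ L * v ω ^ L)) m := iA.add (iB.const_mul _)
    have j2 : Integrable (fun ω => z ω ^ L * (starRingEnd ℂ (v ω)) ^ L +
        starRingEnd ℂ w * (z ω ^ L * v ω ^ L) + w * starRingEnd ℂ (z ω ^ L * v ω ^ L)) m :=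
      j1.add (iB'.const_mul _)
    rw [integral_add j2 iA', integral_add j1 (iB'.const_mul _),
      integral_add iA (iB.const_mul _), integral_const_mul, integral_const_mul, integral_conj,
      integral_conj]
  have iF : Integrable (fun ω => FF w L (z ω) * starRingEnd ℂ (FF w L (v ω))) m := by
    refine Integrable.of_bound (C := 4)
      (hFz.mul (Complex.continuous_conj.measurable.comp hFv)).aestronglyMeasurable ?_
    filter_upwards [h1, h2] with ω a b
    rw [norm_mul, RCLike.norm_conj]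
    have h3 := FF_le hw (L := L) a
    have h4 := FF_le hw (L := L) b
    nlinarith [norm_nonneg (FF w L (z ω)), norm_nonneg (FF w L (v ω))]
  -- the diagonal
  have iV : Integrable (fun ω => v ω ^ (2 * L)) m := by
    refine Integrable.of_bound (by fun_prop) 1 ?_
    filter_upwards [h2] with ω b
    rw [norm_pow, b]; norm_num
  have hD : ∫ ω, ‖FF w L (v ω)‖ ^ 2 ∂m = 2 := by
    have e : (fun ω => ‖FF w L (v ω)‖ ^ 2) =ᵐ[m]
        fun ω => 2 + 2 * (starRingEnd ℂ w * v ω ^ (2 * L)).re := by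
      filter_upwards [h2] with ω b
      have hvv : starRingEnd ℂ (v ω) * v ω = 1 := by
        rw [← Complex.normSq_eq_conj_mul_self, Complex.normSq_eq_norm_sq, b]; norm_num
      have hvL : (starRingEnd ℂ (v ω)) ^ L * v ω ^ L = 1 := by rw [← mul_pow, hvv, one_pow]
      have h5 : ((‖FF w L (v ω)‖ ^ 2 : ℝ) : ℂ) = 2 + (starRingEnd ℂ w * v ω ^ (2 * L) +
          starRingEnd ℂ (starRingEnd ℂ w * v ω ^ (2 * L))) := by
        rw [← Complex.normSq_eq_norm_sq, Complex.normSq_eq_conj_mul_self]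
        unfold FF
        simp only [map_add, map_mul, map_pow, Complex.conj_conj]
        rw [two_mul L, pow_add, pow_add]
        linear_combination (1 + starRingEnd ℂ w * w) * hvL + hww
      rw [Complex.add_conj] at h5
      have h6 := congrArg Complex.re h5
      rw [Complex.ofReal_re] at h6
      rw [h6]
      simp
    rw [integral_congr_ae e]
    have iW : Integrable (fun ω => 2 * (starRingEnd ℂ w * v ω ^ (2 * L)).re) m :=
      ((iV.const_mul (starRingEnd ℂ w)).re).const_mul 2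
    rw [integral_add (integrable_const _) iW, integral_const_mul]
    have h7 : ∫ ω, (starRingEnd ℂ w * v ω ^ (2 * L)).re ∂m = 0 := by
      have h8 : ∫ ω, (starRingEnd ℂ w * v ω ^ (2 * L)).re ∂m =
          (∫ ω, starRingEnd ℂ w * v ω ^ (2 * L) ∂m).re :=
        integral_re (iV.const_mul (starRingEnd ℂ w))
      rw [h8, integral_const_mul, h0, mul_zero]
      rfl
    rw [h7]
    simp
  -- lower bound
  set G : Set Ω := {ω | ‖FF w L (z ω) - FF w L (v ω)‖ ≤ 1 / 4} with hGdef
  have hGm : MeasurableSet G := measurableSet_le (hFz.sub hFv).norm measurable_const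
  have hGc : m.real Gᶜ ≤ 1 / 16 := by
    rw [probReal_compl_eq_one_sub hGm]
    linarith
  have iD : Integrable (fun ω => ‖FF w L (v ω)‖ ^ 2) m := by
    refine Integrable.of_bound (C := 4) (hFv.norm.pow_const 2).aestronglyMeasurable ?_
    filter_upwards [h2] with ω b
    rw [Real.norm_eq_abs, abs_of_nonneg (by positivity)]
    have h4 := FF_le hw (L := L) b
    nlinarith [norm_nonneg (FF w L (v ω))]
  have iG : Integrable (Gᶜ.indicator fun _ : Ω => (8 : ℝ)) m :=
    (integrable_const _).indicator hGm.compl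
  have hlow : 1 ≤ (∫ ω, FF w L (z ω) * starRingEnd ℂ (FF w L (v ω)) ∂m).re := by
    have h8 : ∫ ω, (FF w L (z ω) * starRingEnd ℂ (FF w L (v ω))).re ∂m =
        (∫ ω, FF w L (z ω) * starRingEnd ℂ (FF w L (v ω)) ∂m).re := integral_re iF
    rw [← h8]
    have h9 : ∫ ω, (‖FF w L (v ω)‖ ^ 2 - 1 / 2 - Gᶜ.indicator (fun _ => (8 : ℝ)) ω) ∂m ≤
        ∫ ω, (FF w L (z ω) * starRingEnd ℂ (FF w L (v ω))).re ∂m := by
      refine integral_mono_ae ((iD.sub (integrable_const _)).sub iG) iF.re ?_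
      filter_upwards [h1, h2] with ω a b
      have h3 := FF_le hw (L := L) a
      have h4 := FF_le hw (L := L) b
      have h5 : (FF w L (z ω) * starRingEnd ℂ (FF w L (v ω))).re = ‖FF w L (v ω)‖ ^ 2 +
          ((FF w L (z ω) - FF w L (v ω)) * starRingEnd ℂ (FF w L (v ω))).re := by
        rw [sub_mul, Complex.sub_re, Complex.mul_conj (FF w L (v ω)), Complex.ofReal_re,
          Complex.normSq_eq_norm_sq]
        ring
      have h6 : |((FF w L (z ω) - FF w L (v ω)) * starRingEnd ℂ (FF w L (v ω))).re| ≤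
          ‖FF w L (z ω) - FF w L (v ω)‖ * 2 := by
        refine (Complex.abs_re_le_norm _).trans ?_
        rw [norm_mul, RCLike.norm_conj]
        exact mul_le_mul_of_nonneg_left h4 (norm_nonneg _)
      by_cases hg : ω ∈ G
      · rw [indicator_of_notMem (notMem_compl_iff.2 hg)]
        have h7 : ‖FF w L (z ω) - FF w L (v ω)‖ ≤ 1 / 4 := hg
        change _ ≤ (FF w L (z ω) * starRingEnd ℂ (FF w L (v ω))).re
        rw [h5]
        have := (abs_le.1 h6).1
        linarith
      · rw [indicator_of_mem hg]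
        have h7 : ‖FF w L (z ω) - FF w L (v ω)‖ ≤ 4 := (norm_sub_le _ _).trans (by linarith)
        change _ ≤ (FF w L (z ω) * starRingEnd ℂ (FF w L (v ω))).re
        rw [h5]
        have := (abs_le.1 h6).1
        linarith
    have j3 : Integrable (fun ω => ‖FF w L (v ω)‖ ^ 2 - 1 / 2) m := iD.sub (integrable_const _)
    rw [integral_sub j3 iG, integral_sub iD (integrable_const _), hD,
      integral_indicator hGm.compl] at h9
    simp only [integral_const, probReal_univ, smul_eq_mul, one_mul,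
      measureReal_restrict_apply_univ] at h9
    linarith
  have h10 : ‖∫ ω, FF w L (z ω) * starRingEnd ℂ (FF w L (v ω)) ∂m‖ ≤ 2 * (‖A‖ + ‖B‖) := by
    rw [hI]
    calc _ ≤ ‖A‖ + ‖starRingEnd ℂ w * B‖ + ‖w * starRingEnd ℂ B‖ + ‖starRingEnd ℂ A‖ := by
          refine (norm_add_le _ _).trans (add_le_add_left ?_ _)
          refine (norm_add_le _ _).trans (add_le_add_left ?_ _)
          exact norm_add_le _ _
      _ = 2 * (‖A‖ + ‖B‖) := by
          rw [norm_mul, norm_mul, RCLike.norm_conj, RCLike.norm_conj, RCLike.norm_conj, hw]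
          ring
  have h11 := (Complex.re_le_norm (∫ ω, FF w L (z ω) * starRingEnd ℂ (FF w L (v ω)) ∂m))
  linarith

end Vale.Agent.P099.R2.H525
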