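import Mathlib

namespace Vale.Agent.P099.R2.H525

theorem dirichlet_aux (x y : ℝ) :
    ‖Complex.exp (2 * Real.pi * x * Complex.I) - Complex.exp (2 * Real.pi * y * Complex.I)‖ ≤
      2 * Real.pi * |x - y| := by
  have h1 : Complex.exp (2 * Real.pi * x * Complex.I) =
      Complex.exp (2 * Real.pi * y * Complex.I) *
        Complex.exp (Complex.I * ((2 * Real.pi * (x - y) : ℝ) : ℂ)) := by
    rw [← Complex.exp_add]
    congr 1
    push_cast
    ring
  have h2 : ‖Complex.exp (2 * Real.pi * y * Complex.I)‖ = 1 := by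
    have : (2 * Real.pi * y * Complex.I : ℂ) = ((2 * Real.pi * y : ℝ) : ℂ) * Complex.I := by
      push_cast
      ring
    rw [this, Complex.norm_exp_ofReal_mul_I]
  have h3 : Complex.exp (2 * Real.pi * x * Complex.I) - Complex.exp (2 * Real.pi * y * Complex.I) =
      Complex.exp (2 * Real.pi * y * Complex.I) *
        (Complex.exp (Complex.I * ((2 * Real.pi * (x - y) : ℝ) : ℂ)) - 1) := by
    rw [h1]
    ring
  rw [h3, norm_mul, h2, one_mul]
  refine (Real.norm_exp_I_mul_ofReal_sub_one_le (x := 2 * Real.pi * (x - y))).trans ?_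
  rw [Real.norm_eq_abs, abs_mul, abs_of_pos (by positivity)]

theorem dirichlet_pow (z : ℂ) (hz : ‖z‖ = 1) (j : ℕ) :
    z ^ j = Complex.exp (2 * Real.pi * (Int.fract (Complex.arg z / (2 * Real.pi) * j) : ℝ) *
      Complex.I) := by
  have h1 : z = Complex.exp (Complex.arg z * Complex.I) := by
    have := Complex.norm_mul_exp_arg_mul_I z
    rw [hz, Complex.ofReal_one, one_mul] at this
    exact this.symm
  have h2 : z ^ j = Complex.exp (j * (Complex.arg z * Complex.I)) := by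
    rw [Complex.exp_nat_mul, ← h1]
  rw [h2, Complex.exp_eq_exp_iff_exists_int]
  refine ⟨⌊Complex.arg z / (2 * Real.pi) * j⌋, ?_⟩
  have h3 : (Int.fract (Complex.arg z / (2 * Real.pi) * j) : ℝ) =
      Complex.arg z / (2 * Real.pi) * j - ⌊Complex.arg z / (2 * Real.pi) * j⌋ := rfl
  rw [h3]
  have hpi : (Real.pi : ℂ) ≠ 0 := by exact_mod_cast Real.pi_ne_zero
  push_cast
  field_simp
  ring

theorem dirichlet {N : ℕ} (d : Fin N → ℂ) (hd : ∀ i, ‖d i‖ = 1) (Q : ℕ) (hQ : 1 ≤ Q) :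
    ∃ L : ℕ, 1 ≤ L ∧ L ≤ Q ^ N ∧ ∀ i, ‖d i ^ L - 1‖ ≤ 2 * Real.pi / Q := by
  have hQ0 : (0 : ℝ) < Q := by exact_mod_cast hQ
  have hlt : ∀ x : ℝ, ⌊(Q : ℝ) * Int.fract x⌋₊ < Q := by
    intro x
    rw [Nat.floor_lt (by have := Int.fract_nonneg x; positivity)]
    have := Int.fract_lt_one x
    nlinarith
  let F : Fin (Q ^ N + 1) → (Fin N → Fin Q) := fun j i =>
    ⟨⌊(Q : ℝ) * Int.fract (Complex.arg (d i) / (2 * Real.pi) * ((j : ℕ) : ℝ))⌋₊, hlt _⟩
  have hcard : Fintype.card (Fin N → Fin Q) < Fintype.card (Fin (Q ^ N + 1)) := by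
    simp
  obtain ⟨a, b, hab, hF⟩ := Fintype.exists_ne_map_eq_of_card_lt F hcard
  have main : ∀ a b : Fin (Q ^ N + 1), (a : ℕ) < b → F a = F b →
      ∃ L : ℕ, 1 ≤ L ∧ L ≤ Q ^ N ∧ ∀ i, ‖d i ^ L - 1‖ ≤ 2 * Real.pi / Q := by
    intro a b hlt' hF'
    refine ⟨b - a, by omega, by have := b.isLt; omega, fun i => ?_⟩
    have h1 : d i ^ (a : ℕ) * (d i ^ ((b : ℕ) - a) - 1) = d i ^ (b : ℕ) - d i ^ (a : ℕ) := by
      rw [mul_sub, ← pow_add, mul_one]
      congr 2
      omega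
    have h2 : ‖d i ^ ((b : ℕ) - a) - 1‖ = ‖d i ^ (b : ℕ) - d i ^ (a : ℕ)‖ := by
      rw [← h1, norm_mul, norm_pow, hd i, one_pow, one_mul]
    rw [h2, dirichlet_pow _ (hd i), dirichlet_pow _ (hd i)]
    refine (dirichlet_aux _ _).trans ?_
    set u := Int.fract (Complex.arg (d i) / (2 * Real.pi) * ((a : ℕ) : ℝ)) with hu
    set v := Int.fract (Complex.arg (d i) / (2 * Real.pi) * ((b : ℕ) : ℝ)) with hv
    have h3 : ⌊(Q : ℝ) * u⌋₊ = ⌊(Q : ℝ) * v⌋₊ := congrArg Fin.val (congrFun hF' i)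
    have hu0 : 0 ≤ (Q : ℝ) * u := by have := Int.fract_nonneg (Complex.arg (d i) / (2 * Real.pi) * ((a : ℕ) : ℝ)); positivity
    have hv0 : 0 ≤ (Q : ℝ) * v := by have := Int.fract_nonneg (Complex.arg (d i) / (2 * Real.pi) * ((b : ℕ) : ℝ)); positivity
    have h4 := Nat.floor_le hu0
    have h5 := Nat.floor_le hv0
    have h6 := Nat.lt_floor_add_one ((Q : ℝ) * u)
    have h7 := Nat.lt_floor_add_one ((Q : ℝ) * v)
    rw [h3] at h4 h6
    have h8 : |v - u| ≤ 1 / Q := by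
      rw [abs_le]
      constructor
      · rw [neg_le_iff_add_nonneg, ← sub_nonneg]
        have : 0 ≤ (Q : ℝ) * (v - u + 1 / Q) := by
          have e : (Q : ℝ) * (v - u + 1 / Q) = Q * v - Q * u + 1 := by
            field_simp
          rw [e]
          linarith
        have := nonneg_of_mul_nonneg_right this hQ0
        linarith
      · rw [le_div_iff₀ hQ0]
        linarith
    calc 2 * Real.pi * |v - u| ≤ 2 * Real.pi * (1 / Q) :=
          mul_le_mul_of_nonneg_left h8 (by positivity)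
      _ = 2 * Real.pi / Q := by ring
  rcases lt_or_gt_of_ne (fun h : (a : ℕ) = b => hab (Fin.ext h)) with h | h
  · exact main a b h hF
  · exact main b a h hF.symm

end Vale.Agent.P099.R2.H525
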