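import Mathlib

set_option autoImplicit false

namespace Vale.Agent.P099.R2.H525

theorem dirichlet {N : ℕ} (d : Fin N → ℂ) (hd : ∀ i, ‖d i‖ = 1) (Q : ℕ) (hQ : 1 ≤ Q) :
    ∃ L : ℕ, 1 ≤ L ∧ L ≤ Q ^ N ∧ ∀ i, ‖d i ^ L - 1‖ ≤ 2 * Real.pi / Q := by
  have hQ0 : (0 : ℝ) < Q := by exact_mod_cast hQ
  set α : Fin N → ℝ := fun i => Complex.arg (d i) / (2 * Real.pi) with hα
  have hdα : ∀ (i : Fin N) (n : ℕ), d i ^ n = Complex.exp (2 * Real.pi * Complex.I * (n * α i)) := by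
    intro i n
    have h1 : d i = Complex.exp (Complex.arg (d i) * Complex.I) := by
      have := Complex.norm_mul_exp_arg_mul_I (d i)
      rw [hd i] at this
      simpa using this.symm
    have hpi : (Real.pi : ℂ) ≠ 0 := by exact_mod_cast Real.pi_ne_zero
    conv_lhs => rw [h1]
    rw [← Complex.exp_nat_mul]
    congr 1
    simp only [hα]
    push_cast
    field_simp
  -- boxes
  have hfr : ∀ x : ℝ, ⌊(Q : ℝ) * Int.fract x⌋₊ < Q := by
    intro x
    rw [Nat.floor_lt (by have := Int.fract_nonneg x; positivity)]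
    have := Int.fract_lt_one x
    nlinarith
  set f : Fin (Q ^ N + 1) → (Fin N → Fin Q) := fun n i =>
    ⟨⌊(Q : ℝ) * Int.fract ((n : ℕ) * α i)⌋₊, hfr _⟩ with hf
  obtain ⟨a, b, hab, hfab⟩ := Fintype.exists_ne_map_eq_of_card_lt f (by simp)
  have key : ∀ a b : Fin (Q ^ N + 1), (a : ℕ) < (b : ℕ) → f a = f b →
      ∃ L : ℕ, 1 ≤ L ∧ L ≤ Q ^ N ∧ ∀ i, ‖d i ^ L - 1‖ ≤ 2 * Real.pi / Q := by
    intro a b hlt hfe
    refine ⟨(b : ℕ) - a, by omega, by have := b.2; omega, ?_⟩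
    intro i
    have h2 : ⌊(Q : ℝ) * Int.fract ((a : ℕ) * α i)⌋₊ = ⌊(Q : ℝ) * Int.fract ((b : ℕ) * α i)⌋₊ := by
      have := congrArg Fin.val (congrFun hfe i)
      simpa [hf] using this
    set u := Int.fract (((a : ℕ) : ℝ) * α i) with hu
    set v := Int.fract (((b : ℕ) : ℝ) * α i) with hv
    have hu0 : 0 ≤ u := Int.fract_nonneg _
    have hv0 : 0 ≤ v := Int.fract_nonneg _
    have h3 : |v - u| ≤ 1 / Q := by
      have a1 := Nat.floor_le (show 0 ≤ (Q : ℝ) * u by positivity)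
      have a2 := Nat.lt_floor_add_one ((Q : ℝ) * u)
      have b1 := Nat.floor_le (show 0 ≤ (Q : ℝ) * v by positivity)
      have b2 := Nat.lt_floor_add_one ((Q : ℝ) * v)
      rw [h2] at a1 a2
      rw [abs_le]
      constructor
      · rw [neg_le, neg_sub, le_div_iff₀ hQ0]
        nlinarith
      · rw [le_div_iff₀ hQ0]
        nlinarith
    have h4 : (((b : ℕ) - (a : ℕ) : ℕ) : ℝ) * α i =
        (v - u) + ((⌊((b : ℕ) : ℝ) * α i⌋ - ⌊((a : ℕ) : ℝ) * α i⌋ : ℤ) : ℝ) := by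
      rw [Nat.cast_sub hlt.le, hu, hv, Int.fract, Int.fract]
      push_cast
      ring
    have h5 : d i ^ ((b : ℕ) - (a : ℕ)) =
        Complex.exp (Complex.I * ((2 * Real.pi * (v - u) : ℝ) : ℂ)) := by
      rw [hdα]
      have h6 : (2 * Real.pi * Complex.I * ((((b : ℕ) - (a : ℕ) : ℕ) : ℂ) * (α i : ℂ))) =
          Complex.I * ((2 * Real.pi * (v - u) : ℝ) : ℂ) +
            ((⌊((b : ℕ) : ℝ) * α i⌋ - ⌊((a : ℕ) : ℝ) * α i⌋ : ℤ) : ℂ) *
              (2 * Real.pi * Complex.I) := by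
        have h7 : ((((b : ℕ) - (a : ℕ) : ℕ) : ℂ) * (α i : ℂ)) =
            (((((b : ℕ) - (a : ℕ) : ℕ) : ℝ) * α i : ℝ) : ℂ) := by push_cast; ring
        rw [h7, h4]
        push_cast
        ring
      rw [h6, Complex.exp_add, Complex.exp_int_mul_two_pi_mul_I, mul_one]
    rw [h5]
    calc ‖Complex.exp (Complex.I * ((2 * Real.pi * (v - u) : ℝ) : ℂ)) - 1‖
        ≤ ‖2 * Real.pi * (v - u)‖ := Real.norm_exp_I_mul_ofReal_sub_one_le
      _ = 2 * Real.pi * |v - u| := by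
          rw [Real.norm_eq_abs, abs_mul, abs_of_pos (by positivity : (0:ℝ) < 2 * Real.pi)]
      _ ≤ 2 * Real.pi * (1 / Q) := by
          have := Real.pi_pos
          gcongr
      _ = 2 * Real.pi / Q := by ring
  rcases lt_or_gt_of_ne (fun h => hab (Fin.ext h) : (a : ℕ) ≠ (b : ℕ)) with h | h
  · exact key a b h hfab
  · exact key b a h hfab.symm

end Vale.Agent.P099.R2.H525
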