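import Mathlib

/-!
# P099 : simultaneous Dirichlet approximation on the torus
-/

namespace Vale.Agent.P099.R2.H525

theorem dirichlet {N : ℕ} (d : Fin N → ℂ) (hd : ∀ i, ‖d i‖ = 1) (Q : ℕ) (hQ : 1 ≤ Q) :
    ∃ L : ℕ, 1 ≤ L ∧ L ≤ Q ^ N ∧ ∀ i, ‖d i ^ L - 1‖ ≤ 2 * Real.pi / Q := by
  set θ : Fin N → ℝ := fun i => Complex.arg (d i) / (2 * Real.pi) with hθ
  have hQ0 : (0 : ℝ) < Q := by exact_mod_cast hQ
  have hfl : ∀ x : ℝ, ⌊(Q : ℝ) * Int.fract x⌋₊ < Q := by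
    intro x
    rw [Nat.floor_lt (mul_nonneg hQ0.le (Int.fract_nonneg x))]
    calc (Q : ℝ) * Int.fract x < Q * 1 := mul_lt_mul_of_pos_left (Int.fract_lt_one x) hQ0
      _ = Q := mul_one _
  let f : ℕ → (Fin N → Fin Q) := fun j i => ⟨⌊(Q : ℝ) * Int.fract (j * θ i)⌋₊, hfl _⟩
  have hcard : (Finset.univ : Finset (Fin N → Fin Q)).card <
      (Finset.range (Q ^ N + 1)).card := by
    simp
  obtain ⟨a, ha, b, hb, hab, hf⟩ := Finset.exists_ne_map_eq_of_card_lt_of_maps_to hcard (f := f)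
    (fun _ _ => Finset.mem_coe.2 (Finset.mem_univ _))
  wlog h : a < b generalizing a b
  · exact this b hb a ha hab.symm hf.symm (by omega)
  rw [Finset.mem_range] at hb
  refine ⟨b - a, by omega, by omega, fun i => ?_⟩
  have h1 : ⌊(Q : ℝ) * Int.fract (a * θ i)⌋₊ = ⌊(Q : ℝ) * Int.fract (b * θ i)⌋₊ :=
    congrArg Fin.val (congrFun hf i)
  set x := Int.fract ((a : ℝ) * θ i) with hx
  set y := Int.fract ((b : ℝ) * θ i) with hy
  have h2 : |y - x| ≤ 1 / Q := by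
    have a1 := Nat.floor_le (mul_nonneg hQ0.le (Int.fract_nonneg ((a : ℝ) * θ i)))
    have a2 := Nat.lt_floor_add_one ((Q : ℝ) * x)
    have b1 := Nat.floor_le (mul_nonneg hQ0.le (Int.fract_nonneg ((b : ℝ) * θ i)))
    have b2 := Nat.lt_floor_add_one ((Q : ℝ) * y)
    rw [← hx] at a1
    rw [← hy] at b1
    rw [h1] at a1 a2
    rw [le_div_iff₀ hQ0]
    have h3 : |y - x| * Q = |(Q : ℝ) * y - Q * x| := by
      rw [← mul_sub, abs_mul, abs_of_pos hQ0, mul_comm]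
    rw [h3, abs_le]
    constructor <;> linarith
  have hpi := Real.pi_pos
  have h4 : d i ^ (b - a) = Complex.exp (Complex.I * ((2 * Real.pi * (y - x) : ℝ) : ℂ)) := by
    have e1 : d i = Complex.exp (Complex.arg (d i) * Complex.I) := by
      have h5 := Complex.norm_mul_exp_arg_mul_I (d i)
      rw [hd i, Complex.ofReal_one, one_mul] at h5
      exact h5.symm
    have e2 : ((b - a : ℕ) : ℝ) * Complex.arg (d i) =
        2 * Real.pi * (y - x) + 2 * Real.pi * (⌊(b : ℝ) * θ i⌋ - ⌊(a : ℝ) * θ i⌋ : ℤ) := by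
      have e3 : y = (b : ℝ) * θ i - ⌊(b : ℝ) * θ i⌋ := rfl
      have e4 : x = (a : ℝ) * θ i - ⌊(a : ℝ) * θ i⌋ := rfl
      have e5 : Complex.arg (d i) = 2 * Real.pi * θ i := by
        rw [hθ]; field_simp
      rw [e3, e4, e5, Nat.cast_sub h.le]
      push_cast
      ring
    have e6 : d i ^ (b - a) =
        Complex.exp ((((b - a : ℕ) : ℝ) * Complex.arg (d i) : ℝ) * Complex.I) := by
      conv_lhs => rw [e1]
      rw [← Complex.exp_nat_mul]
      congr 1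
      push_cast
      ring
    rw [e6, e2]
    have e7 : (((2 * Real.pi * (y - x) +
        2 * Real.pi * (⌊(b : ℝ) * θ i⌋ - ⌊(a : ℝ) * θ i⌋ : ℤ) : ℝ)) : ℂ) * Complex.I =
        Complex.I * ((2 * Real.pi * (y - x) : ℝ) : ℂ) +
          ((⌊(b : ℝ) * θ i⌋ - ⌊(a : ℝ) * θ i⌋ : ℤ) : ℂ) * (2 * Real.pi * Complex.I) := by
      push_cast
      ring
    rw [e7, Complex.exp_add, Complex.exp_int_mul_two_pi_mul_I, mul_one]
  rw [h4]
  refine (Real.norm_exp_I_mul_ofReal_sub_one_le).trans ?_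
  rw [Real.norm_eq_abs, abs_mul, abs_of_pos (by positivity : (0 : ℝ) < 2 * Real.pi)]
  calc 2 * Real.pi * |y - x| ≤ 2 * Real.pi * (1 / Q) :=
        mul_le_mul_of_nonneg_left h2 (by positivity)
    _ = 2 * Real.pi / Q := by ring

end Vale.Agent.P099.R2.H525
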