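import Mathlib

/-! # P099.RateOfMixing: ROW D -/

namespace Vale.Agent.P099.R2.H525

inductive Reach {N : ℕ} (c : Fin N → ℂ) : ℕ → ℂ → ℂ → Prop
  | refl (u : ℂ) : Reach c 0 u u
  | stay {n : ℕ} {u v : ℂ} : Reach c n u v → Reach c (n + 1) u v
  | step {n : ℕ} {u v : ℂ} (i : Fin N) : Reach c n u v →
      Reach c (n + 1) u (c i * (starRingEnd ℂ) v)

/-- the product with exponents `m` -/
noncomputable def pr {N : ℕ} (c : Fin (N + 1) → ℂ) (m : Fin N → ℤ) : ℂ :=
  ∏ j : Fin N, (c j.succ / c 0) ^ (m j)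

theorem conj_unit {z : ℂ} (hz : ‖z‖ = 1) : (starRingEnd ℂ) z = z⁻¹ := by
  rw [Complex.inv_def, Complex.normSq_eq_norm_sq, hz]; simp

theorem pr_norm {N : ℕ} (c : Fin (N + 1) → ℂ) (hc : ∀ i, ‖c i‖ = 1) (m : Fin N → ℤ) :
    ‖pr c m‖ = 1 := by
  unfold pr
  rw [norm_prod]
  refine Finset.prod_eq_one fun j _ => ?_
  rw [norm_zpow, norm_div, hc, hc]; simp

theorem pr_inv {N : ℕ} (c : Fin (N + 1) → ℂ) (m : Fin N → ℤ) : (pr c m)⁻¹ = pr c (-m) := by
  unfold pr
  rw [← Finset.prod_inv_distrib]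
  refine Finset.prod_congr rfl fun j _ => ?_
  rw [Pi.neg_apply, zpow_neg]

theorem pr_add {N : ℕ} (c : Fin (N + 1) → ℂ) (hc : ∀ i, ‖c i‖ = 1) (m k : Fin N → ℤ) :
    pr c (m + k) = pr c m * pr c k := by
  unfold pr
  rw [← Finset.prod_mul_distrib]
  refine Finset.prod_congr rfl fun j _ => ?_
  rw [Pi.add_apply, zpow_add₀]
  intro h
  have := congrArg norm h
  rw [norm_div, hc, hc] at this
  simp at this

/-- the quotient `c i / c 0` is a product -/
theorem exists_pr {N : ℕ} (c : Fin (N + 1) → ℂ) (hc : ∀ i, ‖c i‖ = 1) (i : Fin (N + 1)) :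
    ∃ k : Fin N → ℤ, (∀ j, |k j| ≤ 1) ∧ pr c k = c i / c 0 := by
  classical
  have h0 : c 0 ≠ 0 := by
    intro h; have := hc 0; rw [h] at this; simp at this
  refine Fin.cases ⟨0, by simp, ?_⟩ (fun j => ⟨Pi.single j 1, ?_, ?_⟩) i
  · simp [pr, div_self h0]
  · intro l
    by_cases h : l = j
    · subst h; simp
    · rw [Pi.single_eq_of_ne h]; simp
  · unfold pr
    rw [Finset.prod_eq_single j]
    · simp
    · intro l _ hl
      rw [Pi.single_eq_of_ne hl]; simp
    · intro h; exact absurd (Finset.mem_univ j) h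

theorem reach_form {N : ℕ} (c : Fin (N + 1) → ℂ) (hc : ∀ i, ‖c i‖ = 1) {n : ℕ} {u v : ℂ}
    (h : Reach c n u v) : ∃ m : Fin N → ℤ, (∀ j, |m j| ≤ n) ∧
      (v = pr c m * u ∨ v = c 0 * pr c m * (starRingEnd ℂ) u) := by
  have h0 : c 0 ≠ 0 := by
    intro h; have := hc 0; rw [h] at this; simp at this
  induction h with
  | refl u => exact ⟨0, by simp, Or.inl (by simp [pr])⟩
  | stay _ ih =>
    obtain ⟨m, hm, hv⟩ := ih
    exact ⟨m, fun j => (hm j).trans (by push_cast; linarith), hv⟩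
  | step i _ ih =>
    obtain ⟨m, hm, hv⟩ := ih
    obtain ⟨k, hk, hki⟩ := exists_pr c hc i
    refine ⟨k + -m, fun j => ?_, ?_⟩
    · rw [Pi.add_apply, Pi.neg_apply]
      have h1 := abs_add_le (k j) (-m j)
      rw [abs_neg] at h1
      have h2 := hk j
      have h3 := hm j
      push_cast
      linarith
    · have hci : c i = c 0 * pr c k := by rw [hki]; field_simp
      rcases hv with hv | hv
      · right
        rw [hv, map_mul, conj_unit (pr_norm c hc m), pr_inv, pr_add c hc, hci]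
        ring
      · left
        rw [hv, map_mul, map_mul, conj_unit (pr_norm c hc m), pr_inv, conj_unit (hc 0),
          Complex.conj_conj, pr_add c hc, hci]
        field_simp

theorem words {N : ℕ} (c : Fin (N + 1) → ℂ) (hc : ∀ i, ‖c i‖ = 1) (n : ℕ) :
    ∃ D E : Finset ℂ, D.card ≤ (2 * n + 1) ^ N ∧ E.card ≤ (2 * n + 1) ^ N ∧
      ∀ u v : ℂ, ‖u‖ = 1 → Reach c n u v →
        v * (starRingEnd ℂ) u ∈ D ∨ v * u ∈ E := by
  classical
  let S : Finset (Fin N → ℤ) := Fintype.piFinset (fun _ => Finset.Icc (-(n : ℤ)) n)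
  have hS : S.card = (2 * n + 1) ^ N := by
    rw [Fintype.card_piFinset_const, Int.card_Icc]
    congr 1
    omega
  refine ⟨S.image (pr c), S.image (fun m => c 0 * pr c m), ?_, ?_, ?_⟩
  · exact Finset.card_image_le.trans hS.le
  · exact Finset.card_image_le.trans hS.le
  · intro u v hu h
    obtain ⟨m, hm, hv⟩ := reach_form c hc h
    have hmS : m ∈ S := by
      rw [Fintype.mem_piFinset]
      intro j
      rw [Finset.mem_Icc]
      exact abs_le.1 (hm j)
    have huu : u * (starRingEnd ℂ) u = 1 := by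
      rw [Complex.mul_conj, Complex.normSq_eq_norm_sq, hu]; simp
    rcases hv with hv | hv
    · left
      rw [hv, mul_assoc, huu, mul_one]
      exact Finset.mem_image_of_mem _ hmS
    · right
      rw [hv, mul_assoc, mul_comm ((starRingEnd ℂ) u), huu, mul_one]
      exact Finset.mem_image_of_mem (fun m => c 0 * pr c m) hmS

theorem refl_eq {v : ℂ} (hv : v ≠ 0) (u : ℂ) :
    (Submodule.span ℝ {v}).reflection u = (v / ‖v‖) ^ 2 * (starRingEnd ℂ) u := by
  rw [Submodule.reflection_singleton_apply]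
  have hn : (‖v‖ : ℂ) ≠ 0 := by exact_mod_cast (norm_ne_zero_iff.2 hv)
  have h1 : (inner ℝ v u : ℝ) = ((starRingEnd ℂ) v * u).re := by
    rw [Complex.inner, mul_comm]
  have h2 : ((((starRingEnd ℂ) v * u).re : ℝ) : ℂ) =
      ((starRingEnd ℂ) v * u + v * (starRingEnd ℂ) u) / 2 := by
    rw [Complex.re_eq_add_conj]; simp
  have h3 : (‖v‖ : ℂ) ^ 2 = v * (starRingEnd ℂ) v := by
    rw [Complex.mul_conj, Complex.normSq_eq_norm_sq]; push_cast; rfl
  have hvc : (starRingEnd ℂ) v ≠ 0 := by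
    intro h; apply hv; simpa using h
  rw [h1, two_smul]
  simp only [Complex.real_smul, RCLike.ofReal_real_eq_id, id_eq]
  push_cast
  rw [h2, div_pow, h3]
  field_simp
  ring

end Vale.Agent.P099.R2.H525
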