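import Mathlib

open Finset

namespace Vale.Agent.P099.R2.H525

/-- numbers which are reached from `u` in at most `n` reflections `z ↦ c i * conj z` -/
inductive Reach {N : ℕ} (c : Fin N → ℂ) : ℕ → ℂ → ℂ → Prop
  | refl (u) : Reach c 0 u u
  | stay {n u v} : Reach c n u v → Reach c (n + 1) u v
  | step {n u v} (i) : Reach c n u v → Reach c (n + 1) u (c i * (starRingEnd ℂ) v)

/-- the products -/
noncomputable def pr {N : ℕ} (c : Fin (N + 1) → ℂ) (m : Fin N → ℤ) : ℂ :=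
  ∏ j : Fin N, (c j.succ / c 0) ^ (m j)

lemma pr_conj {N : ℕ} {c : Fin (N + 1) → ℂ} (hc : ∀ i, ‖c i‖ = 1) (m : Fin N → ℤ) :
    (starRingEnd ℂ) (pr c m) = pr c (-m) := by
  unfold pr
  rw [map_prod]
  refine prod_congr rfl fun j _ => ?_
  have h1 : ‖c j.succ / c 0‖ = 1 := by rw [norm_div, hc, hc, div_one]
  rw [map_zpow₀, Pi.neg_apply, zpow_neg, ← inv_zpow]
  congr 1
  exact (Complex.inv_eq_conj h1).symm

lemma pr_zero {N : ℕ} (c : Fin (N + 1) → ℂ) : pr c 0 = 1 := by simp [pr]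

lemma ne_zero' {N : ℕ} {c : Fin (N + 1) → ℂ} (hc : ∀ i, ‖c i‖ = 1) (i) : c i ≠ 0 := by
  intro h
  have := hc i
  rw [h, norm_zero] at this
  exact zero_ne_one this

lemma pr_single {N : ℕ} {c : Fin (N + 1) → ℂ} (hc : ∀ i, ‖c i‖ = 1) (m : Fin N → ℤ) (j : Fin N) :
    pr c (m + Pi.single j 1) = (c j.succ / c 0) * pr c m := by
  unfold pr
  have h : ∀ k : Fin N, (c k.succ / c 0) ^ ((m + Pi.single j 1 : Fin N → ℤ) k) =
      (c k.succ / c 0) ^ (m k) * (if k = j then c j.succ / c 0 else 1) := by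
    intro k
    have hne : c k.succ / c 0 ≠ 0 := div_ne_zero (ne_zero' hc _) (ne_zero' hc _)
    by_cases hk : k = j
    · subst hk
      rw [Pi.add_apply, Pi.single_eq_same, zpow_add₀ hne, zpow_one, if_pos rfl]
    · rw [Pi.add_apply, Pi.single_eq_of_ne hk, add_zero, if_neg hk, mul_one]
  simp_rw [h]
  rw [prod_mul_distrib, prod_ite_eq' univ j, if_pos (mem_univ j), mul_comm]

/-- the step -/
lemma step_one {N : ℕ} {c : Fin (N + 1) → ℂ} (hc : ∀ i, ‖c i‖ = 1) {n : ℕ} {m : Fin N → ℤ}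
    (hm : ∀ j, |m j| ≤ n) (i : Fin (N + 1)) :
    ∃ m' : Fin N → ℤ, (∀ j, |m' j| ≤ (n + 1 : ℕ)) ∧ c i * (starRingEnd ℂ) (pr c m) = c 0 * pr c m' := by
  rw [pr_conj hc]
  refine Fin.cases ?_ (fun j => ?_) i
  · exact ⟨-m, fun j => by rw [Pi.neg_apply, abs_neg]; have := hm j; push_cast; omega, rfl⟩
  · refine ⟨-m + Pi.single j 1, fun k => ?_, ?_⟩
    · rw [Pi.add_apply, Pi.neg_apply]
      have h1 := hm k
      have h2 : |(Pi.single j 1 : Fin N → ℤ) k| ≤ 1 := by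
        by_cases hk : k = j
        · subst hk; simp
        · simp [Pi.single_eq_of_ne hk]
      calc |-m k + (Pi.single j 1 : Fin N → ℤ) k| ≤ |-m k| + |(Pi.single j 1 : Fin N → ℤ) k| :=
            abs_add_le _ _
        _ ≤ (n + 1 : ℕ) := by rw [abs_neg]; push_cast; omega
    · rw [pr_single hc, ← mul_assoc, mul_div_cancel₀ _ (ne_zero' hc 0)]

/-- the step, second kind -/
lemma step_two {N : ℕ} {c : Fin (N + 1) → ℂ} (hc : ∀ i, ‖c i‖ = 1) {n : ℕ} {m : Fin N → ℤ}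
    (hm : ∀ j, |m j| ≤ n) (i : Fin (N + 1)) :
    ∃ m' : Fin N → ℤ, (∀ j, |m' j| ≤ (n + 1 : ℕ)) ∧
      c i * (starRingEnd ℂ) (c 0 * pr c m) = pr c m' := by
  obtain ⟨m', h1, h2⟩ := step_one hc hm i
  refine ⟨m', h1, ?_⟩
  have h0 : c 0 * (starRingEnd ℂ) (c 0) = 1 := by
    rw [Complex.mul_conj, Complex.normSq_eq_norm_sq, hc]
    simp
  calc c i * (starRingEnd ℂ) (c 0 * pr c m)
      = (starRingEnd ℂ) (c 0) * (c i * (starRingEnd ℂ) (pr c m)) := by rw [map_mul]; ring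
    _ = (c 0 * (starRingEnd ℂ) (c 0)) * pr c m' := by rw [h2]; ring
    _ = pr c m' := by rw [h0, one_mul]

lemma reach_form {N : ℕ} {c : Fin (N + 1) → ℂ} (hc : ∀ i, ‖c i‖ = 1) {n : ℕ} {u v : ℂ}
    (h : Reach c n u v) : ∃ m : Fin N → ℤ, (∀ j, |m j| ≤ n) ∧
      (v = pr c m * u ∨ v = c 0 * pr c m * (starRingEnd ℂ) u) := by
  induction h with
  | refl u => exact ⟨0, fun j => by simp, Or.inl (by rw [pr_zero, one_mul])⟩
  | stay _ ih =>
    obtain ⟨m, h1, h2⟩ := ih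
    exact ⟨m, fun j => by have := h1 j; push_cast; omega, h2⟩
  | step i _ ih =>
    obtain ⟨m, h1, h2⟩ := ih
    rcases h2 with h2 | h2
    · obtain ⟨m', h3, h4⟩ := step_one hc h1 i
      refine ⟨m', h3, Or.inr ?_⟩
      rw [h2, map_mul, ← mul_assoc, h4]
    · obtain ⟨m', h3, h4⟩ := step_two hc h1 i
      refine ⟨m', h3, Or.inl ?_⟩
      rw [h2, map_mul, Complex.conj_conj, ← mul_assoc, h4]

theorem words {N : ℕ} (c : Fin (N + 1) → ℂ) (hc : ∀ i, ‖c i‖ = 1) (n : ℕ) :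
    ∃ D E : Finset ℂ, D.card ≤ (2 * n + 1) ^ N ∧ E.card ≤ (2 * n + 1) ^ N ∧
      ∀ u v : ℂ, ‖u‖ = 1 → Reach c n u v → v * (starRingEnd ℂ) u ∈ D ∨ v * u ∈ E := by
  classical
  set P : Finset (Fin N → ℤ) := Fintype.piFinset (fun _ => Finset.Icc (-(n : ℤ)) n) with hP
  have hcard : P.card = (2 * n + 1) ^ N := by
    rw [hP, Fintype.card_piFinset]
    simp only [Int.card_Icc, prod_const, card_univ, Fintype.card_fin]
    congr 1
    omega
  refine ⟨P.image (pr c), P.image (fun m => c 0 * pr c m), ?_, ?_, fun u v hu h => ?_⟩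
  · exact (card_image_le).trans hcard.le
  · exact (card_image_le).trans hcard.le
  · obtain ⟨m, h1, h2⟩ := reach_form hc h
    have hm : m ∈ P := by
      rw [hP, Fintype.mem_piFinset]
      intro j
      rw [Finset.mem_Icc]
      exact abs_le.1 (h1 j)
    have hu1 : u * (starRingEnd ℂ) u = 1 := by
      rw [Complex.mul_conj, Complex.normSq_eq_norm_sq, hu]
      simp
    rcases h2 with h2 | h2
    · left
      rw [h2, mul_assoc, hu1, mul_one]
      exact mem_image_of_mem _ hm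
    · right
      rw [h2, mul_assoc, mul_comm ((starRingEnd ℂ) u) u, hu1, mul_one]
      exact mem_image.2 ⟨m, hm, rfl⟩

theorem refl_eq {v : ℂ} (hv : v ≠ 0) (u : ℂ) :
    (Submodule.span ℝ {v}).reflection u = (v / ‖v‖) ^ 2 * (starRingEnd ℂ) u := by
  rw [Submodule.reflection_singleton_apply]
  have h0 : (‖v‖ : ℂ) ≠ 0 := by
    rw [Complex.ofReal_ne_zero]
    exact norm_ne_zero_iff.2 hv
  have h1 : ((inner ℝ v u : ℝ) : ℂ) * 2 = v * (starRingEnd ℂ) u + (starRingEnd ℂ) v * u := by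
    rw [Complex.inner]
    apply Complex.ext
    · simp
      ring
    · simp
      ring
  have h2 : (‖v‖ : ℂ) ^ 2 = v * (starRingEnd ℂ) v := by
    rw [Complex.mul_conj, Complex.normSq_eq_norm_sq]
    push_cast
    rfl
  have h3 : (2 • (inner ℝ v u / ((‖v‖ : ℝ) ^ 2)) • v : ℂ) =
      ((inner ℝ v u : ℝ) : ℂ) * 2 / (‖v‖ : ℂ) ^ 2 * v := by
    rw [nsmul_eq_mul, Complex.real_smul]
    push_cast
    ring
  have h4 : (2 • (inner ℝ v u / ((‖v‖ : ℝ) ^ 2)) • v : ℂ) - u =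
      (v / ‖v‖) ^ 2 * (starRingEnd ℂ) u := by
    rw [h3, h1, div_pow]
    field_simp
    rw [h2]
    ring
  exact h4

end Vale.Agent.P099.R2.H525
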