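import Vale.Agent.P099.R2.H525.Collar

set_option linter.all false

open MeasureTheory Set Filter Topology

namespace Vale.Agent.P099.R2.H525

open Vale.Agent.P099 Vale.Agent.P099T
open Vale.Agent.P099.R2.H278 (inner measurable_inner flow_straight ae_Q ae_unit)

variable {N : ℕ} (T : PolygonalTable N)

lemma refl_cc (i : Fin N) (u : ℂ) : T.refl i u = cc T i * (starRingEnd ℂ) u := by
  unfold PolygonalTable.refl cc
  rw [refl_eq (sub_ne_zero.2 (T.ne i).symm)]

/-- with probability at least `15/16` at most `C t` bounces up to time `t` -/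
theorem few : ∃ C : ℝ, 0 < C ∧ ∀ Θ : ℝ → ℂ × ℂ → ℂ × ℂ, PFlow T.mu Θ → T.IsBilliardFlow Θ →
    ∀ t : ℝ, 1 ≤ t → ∃ n : ℕ, (n : ℝ) ≤ C * t ∧
      15 / 16 ≤ T.mu.real {p | Reach (cc T) n p.2 (Θ t p).2} := by
  obtain ⟨C0, hC0, hcol⟩ := collar T
  refine ⟨32 * C0 + 1, by positivity, fun Θ hΘ hb t ht => ?_⟩
  have ht0 : 0 < t := by linarith
  refine ⟨⌈32 * C0 * t⌉₊, ?_, ?_⟩
  · have h1 : (⌈32 * C0 * t⌉₊ : ℝ) < 32 * C0 * t + 1 := Nat.ceil_lt_add_one (by positivity)
    nlinarith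
  set n : ℕ := ⌈32 * C0 * t⌉₊ with hn
  set H : ℕ → Set (ℂ × ℂ) := fun m0 => {p | ∀ m ≥ m0, ∀ j < m,
      Turn T (Θ (j * (t / m)) p).2 (Θ ((j + 1 : ℕ) * (t / m)) p).2} with hH
  have hmono : Monotone H := fun a b hab p hp m hm => hp m (le_trans hab hm)
  have hU : T.mu (⋃ m, H m) = 1 := by
    rw [← measure_univ (μ := T.mu)]
    refine measure_congr ?_
    filter_upwards [fine T hΘ hb ht0.le] with p hp
    apply propext
    constructor
    · intro _
      trivial
    · intro _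
      obtain ⟨m0, hm0⟩ := hp
      exact mem_iUnion.2 ⟨m0, hm0⟩
  rw [hmono.measure_iUnion] at hU
  have h78 : (ENNReal.ofReal (31 / 32)) < ⨆ m, T.mu (H m) := by
    rw [hU, ← ENNReal.ofReal_one]
    exact (ENNReal.ofReal_lt_ofReal_iff (by norm_num)).2 (by norm_num)
  obtain ⟨m1, hm1⟩ := lt_iSup_iff.1 h78
  have hm1' : 31 / 32 < T.mu.real (H m1) := by
    rw [measureReal_def]
    exact (ENNReal.ofReal_lt_iff_lt_toReal (by norm_num) (measure_ne_top _ _)).1 hm1
  set m : ℕ := max m1 ⌈t⌉₊ with hm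
  have hm_t : t ≤ m := le_trans (Nat.le_ceil t) (by exact_mod_cast le_max_right _ _)
  have hmpos : (0 : ℝ) < m := lt_of_lt_of_le ht0 hm_t
  set h : ℝ := t / m with hh
  have hh0 : 0 < h := div_pos ht0 hmpos
  have hh1 : h ≤ 1 := (div_le_one hmpos).2 hm_t
  have hmh : (m : ℝ) * h = t := by rw [hh]; field_simp
  -- Markov
  have hmark : T.mu.real {p | 32 * C0 * t ≤ (bad T Θ h m p : ℝ)} ≤ 1 / 32 := by
    have hint : Integrable (fun p => (bad T Θ h m p : ℝ)) T.mu := by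
      refine Integrable.of_bound (measurable_bad T hΘ h m).aestronglyMeasurable (m : ℝ) ?_
      refine Eventually.of_forall fun p => ?_
      rw [Real.norm_eq_abs, abs_of_nonneg (Nat.cast_nonneg _)]
      have : bad T Θ h m p ≤ m := by
        classical
        unfold bad
        calc _ ≤ ∑ j ∈ Finset.range m, 1 := Finset.sum_le_sum fun j _ => by split_ifs <;> omega
          _ = m := by simp
      exact_mod_cast this
    have h1 := mul_meas_ge_le_integral_of_nonneg (μ := T.mu)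
      (f := fun p => (bad T Θ h m p : ℝ)) (Eventually.of_forall fun p => Nat.cast_nonneg _)
      hint (32 * C0 * t)
    rw [integral_bad T hΘ] at h1
    have h2 : (m : ℝ) * T.mu.real {p | p.1 ∉ inner T h} ≤ C0 * t := by
      calc (m : ℝ) * T.mu.real {p | p.1 ∉ inner T h} ≤ m * (C0 * h) :=
            mul_le_mul_of_nonneg_left (hcol h hh0 hh1) hmpos.le
        _ = C0 * t := by rw [← hmh]; ring
    have h3 : 0 < C0 * t := by positivity
    have h4 : (32 * (C0 * t)) * T.mu.real {p | 32 * C0 * t ≤ (bad T Θ h m p : ℝ)} ≤ C0 * t := by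
      refine le_trans (le_of_eq ?_) (h1.trans h2)
      ring
    have h5 : T.mu.real {p | 32 * C0 * t ≤ (bad T Θ h m p : ℝ)} * (32 * (C0 * t)) ≤ C0 * t := by
      rw [mul_comm]; exact h4
    rw [← le_div_iff₀ (by positivity)] at h5
    refine h5.trans (le_of_eq ?_)
    field_simp
  -- the good set
  have hA : ∀ᵐ p ∂T.mu, Θ 0 p = p ∧ ∀ j : ℕ, (Θ (j * h) p).1 ∈ inner T h →
      (Θ ((j + 1 : ℕ) * h) p).2 = (Θ (j * h) p).2 := by
    have h1 : ∀ᵐ p ∂T.mu, ∀ j : ℕ, (Θ (j * h) p).1 ∈ inner T h →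
        (Θ ((j + 1 : ℕ) * h) p).2 = (Θ (j * h) p).2 := by
      refine ae_all_iff.2 fun j => ?_
      filter_upwards [at_inner T hΘ hb (j * h) hh0.le] with p hp h2
      rw [← hp h2]
      congr 2
      push_cast
      ring
    filter_upwards [hΘ.zero, h1] with p h2 h3
    exact ⟨h2, h3⟩
  have hA0 : T.mu.real {p | ¬ (Θ 0 p = p ∧ ∀ j : ℕ, (Θ (j * h) p).1 ∈ inner T h →
      (Θ ((j + 1 : ℕ) * h) p).2 = (Θ (j * h) p).2)} = 0 := by
    rw [measureReal_def, ae_iff.1 hA, ENNReal.toReal_zero]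
  have hsub : H m1 ⊆ {p | Reach (cc T) n p.2 (Θ t p).2} ∪
      ({p | ¬ (Θ 0 p = p ∧ ∀ j : ℕ, (Θ (j * h) p).1 ∈ inner T h →
        (Θ ((j + 1 : ℕ) * h) p).2 = (Θ (j * h) p).2)} ∪
      {p | 32 * C0 * t ≤ (bad T Θ h m p : ℝ)}) := by
    intro p hp
    by_cases h1 : (Θ 0 p = p ∧ ∀ j : ℕ, (Θ (j * h) p).1 ∈ inner T h →
      (Θ ((j + 1 : ℕ) * h) p).2 = (Θ (j * h) p).2)
    · by_cases h2 : 32 * C0 * t ≤ (bad T Θ h m p : ℝ)
      · exact Or.inr (Or.inr h2)
      · left
        have h3 := reach_grid (T := T) (refl_cc T) (h := h) h1.1 m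
          (fun j hj => hp m (le_max_left _ _) j hj) (fun j _ => h1.2 j)
        rw [hmh] at h3
        refine reach_mono ?_ h3
        have h4 : (bad T Θ h m p : ℝ) < n := lt_of_lt_of_le (not_le.1 h2) (Nat.le_ceil _)
        exact_mod_cast h4.le
    · exact Or.inr (Or.inl h1)
  have h9 := (measureReal_mono (μ := T.mu) hsub (measure_ne_top _ _)).trans
    ((measureReal_union_le _ _).trans (add_le_add_right (measureReal_union_le _ _) _))
  rw [hA0] at h9
  linarith

end Vale.Agent.P099.R2.H525
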