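import Vale.Agent.P099.R2.H525.GEN_helper16

set_option autoImplicit false

open MeasureTheory

namespace Vale.Agent.P099.R2.H525

theorem ser_eq (x : ℕ → ℂ) (u : ℂ) :
    ∑' k, x k * (u ^ (k+1) / ((k+1).factorial : ℂ)) =
      ∑' k, (x k / (k.factorial : ℂ)) * (u ^ (k+1) / (k+1)) := by
  congr 1
  ext k
  have h1 : ((k.factorial : ℕ) : ℂ) ≠ 0 := Nat.cast_ne_zero.2 (Nat.factorial_ne_zero k)
  have h2 : ((k : ℂ) + 1) ≠ 0 := Nat.cast_add_one_ne_zero k
  rw [Nat.factorial_succ]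
  push_cast
  field_simp

theorem sum_fact (x : ℕ → ℂ) (hx : Summable fun k => ‖x k‖) :
    Summable fun k => ‖x k / (k.factorial : ℂ)‖ := by
  refine Summable.of_nonneg_of_le (fun _ => norm_nonneg _) (fun k => ?_) hx
  rw [norm_div, Complex.norm_natCast]
  exact div_le_self (norm_nonneg _) (by exact_mod_cast Nat.factorial_pos k)

theorem entire (x : ℕ → ℂ) (hx : Summable fun k => ‖x k‖) :
    Differentiable ℂ (fun u : ℂ => ∑' k, x k * (u ^ (k+1) / ((k+1).factorial : ℂ))) := by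
  intro u
  have h := Complex.differentiableOn_tsum_of_summable_norm (U := Metric.ball (0 : ℂ) (‖u‖ + 1))
    (F := fun k (u : ℂ) => x k * (u ^ (k+1) / ((k+1).factorial : ℂ)))
    (u := fun k => ‖x k‖ * Real.exp (‖u‖ + 1)) (hx.mul_right _)
    (fun k => by fun_prop) Metric.isOpen_ball (fun k w hw => by
      rw [norm_mul, norm_div, norm_pow, Complex.norm_natCast]
      refine mul_le_mul_of_nonneg_left ?_ (norm_nonneg _)
      have h1 : ‖w‖ ≤ ‖u‖ + 1 := (mem_ball_zero_iff.1 hw).le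
      have h2 : (‖w‖) ^ (k+1) / ((k+1).factorial : ℝ) ≤ (‖u‖ + 1) ^ (k+1) / ((k+1).factorial : ℝ) := by
        gcongr
      exact h2.trans (Real.pow_div_factorial_le_exp _ (by positivity) _))
  exact (h u (by rw [mem_ball_zero_iff]; linarith)).differentiableAt
    (Metric.isOpen_ball.mem_nhds (by rw [mem_ball_zero_iff]; linarith))

theorem gen_half_fact {Ω : Type} [MeasurableSpace Ω] (m : Measure Ω) [IsProbabilityMeasure m]
    (z : ℝ → Ω → ℂ) (u : Ω → ℂ) (hz : ∀ t, Measurable (z t)) (hu : Measurable u)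
    (h1 : ∀ t, ∀ᵐ ω ∂m, ‖z t ω‖ = 1) (h2 : ∀ᵐ ω ∂m, ‖u ω‖ = 1) (w : ℝ → ℝ) (hw : ∀ t, 0 < w t)
    (h : ∀ x y : ℕ → ℂ, Summable (fun k => ‖x k‖) → Summable (fun l => ‖y l‖) →
      ∃ K : ℝ, ∀ t ≥ (1:ℝ), ‖∫ ω, (∑' k, x k * (z t ω ^ (k+1) / ((k+1).factorial : ℂ))) *
        (∑' l, y l * (u ω ^ (l+1) / ((l+1).factorial : ℂ))) ∂m‖ ≤ K * w t) :
    ∃ K : ℝ, ∀ t ≥ (1:ℝ), ∀ L : ℕ, 1 ≤ L →
      ‖∫ ω, z t ω ^ L * (u ω) ^ L ∂m‖ ≤ K * (L.factorial : ℝ) ^ 2 * w t := by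
  have hI : ∀ t (k l : ℕ), ‖∫ ω, z t ω ^ (k+1) * u ω ^ (l+1) ∂m‖ ≤ 1 := by
    intro t k l
    have := norm_integral_le_of_norm_le_const (μ := m)
      (f := fun ω => z t ω ^ (k+1) * u ω ^ (l+1)) (C := 1) (by
        filter_upwards [h1 t, h2] with ω e1 e2
        rw [norm_mul, norm_pow, norm_pow, e1, e2, one_pow, one_pow, one_mul])
    simpa using this
  obtain ⟨K, hK⟩ := uniform_bound
    (fun t k l => (∫ ω, z t ω ^ (k+1) * u ω ^ (l+1) ∂m) /
      (((k+1).factorial : ℂ) * ((l+1).factorial : ℂ)))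
    (fun t k l => by
      have h3 : (1 : ℝ) ≤ ((k+1).factorial : ℝ) := by exact_mod_cast Nat.factorial_pos (k+1)
      have h4 : (1 : ℝ) ≤ ((l+1).factorial : ℝ) := by exact_mod_cast Nat.factorial_pos (l+1)
      rw [norm_div, norm_mul, Complex.norm_natCast, Complex.norm_natCast,
        div_le_one (by positivity)]
      refine (hI t k l).trans ?_
      nlinarith)
    w hw (fun x y hx hy => by
      obtain ⟨K, hK⟩ := h x y hx hy
      refine ⟨K, fun t ht => ?_⟩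
      have e := int_series m (hz t) hu (h1 t) h2 (fun k => x k / (k.factorial : ℂ))
        (fun l => y l / (l.factorial : ℂ)) (sum_fact x hx) (sum_fact y hy)
      have := hK t ht
      simp only [ser_eq] at this
      rw [e] at this
      have e2 : (∑' k, ∑' l, x k * y l * ((∫ ω, z t ω ^ (k+1) * u ω ^ (l+1) ∂m) /
          (((k+1).factorial : ℂ) * ((l+1).factorial : ℂ)))) =
          ∑' k, ∑' l, (x k / (k.factorial : ℂ)) * (y l / (l.factorial : ℂ)) *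
            ((∫ ω, z t ω ^ (k+1) * u ω ^ (l+1) ∂m) / ((k+1) * (l+1))) := by
        congr 1
        ext k
        congr 1
        ext l
        have a1 : ((k.factorial : ℕ) : ℂ) ≠ 0 := Nat.cast_ne_zero.2 (Nat.factorial_ne_zero k)
        have a2 : ((k : ℂ) + 1) ≠ 0 := Nat.cast_add_one_ne_zero k
        have a3 : ((l.factorial : ℕ) : ℂ) ≠ 0 := Nat.cast_ne_zero.2 (Nat.factorial_ne_zero l)
        have a4 : ((l : ℂ) + 1) ≠ 0 := Nat.cast_add_one_ne_zero l
        rw [Nat.factorial_succ, Nat.factorial_succ]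
        push_cast
        field_simp
      rw [e2]
      exact this)
  refine ⟨K, fun t ht L hL => ?_⟩
  obtain ⟨k, rfl⟩ : ∃ k, L = k + 1 := ⟨L - 1, by omega⟩
  have := hK t ht k k
  have h3 : (0 : ℝ) < ((k+1).factorial : ℝ) := by exact_mod_cast Nat.factorial_pos (k+1)
  rw [norm_div, norm_mul, Complex.norm_natCast, div_le_iff₀ (by positivity)] at this
  calc _ ≤ _ := this
    _ = _ := by ring

theorem gen_analytic {Ω : Type} [MeasurableSpace Ω] (m : Measure Ω) [IsProbabilityMeasure m]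
    (z : ℝ → Ω → ℂ) (v : Ω → ℂ) (hz : ∀ t, Measurable (z t)) (hv : Measurable v)
    (h1 : ∀ t, ∀ᵐ ω ∂m, ‖z t ω‖ = 1) (h2 : ∀ᵐ ω ∂m, ‖v ω‖ = 1) (w : ℝ → ℝ) (hw : ∀ t, 0 < w t)
    (h : ∀ f g : ℂ → ℂ, AnalyticOnNhd ℝ f Set.univ → AnalyticOnNhd ℝ g Set.univ →
      ∃ K : ℝ, ∀ t ≥ (1:ℝ), ‖∫ ω, f (z t ω) * g (v ω) ∂m -
        (∫ u, f u ∂Vale.Agent.P099.nu) * ∫ u, g u ∂Vale.Agent.P099.nu‖ ≤ K * w t) :
    ∃ K : ℝ, ∀ t ≥ (1:ℝ), ∀ L : ℕ, 1 ≤ L →
      ‖∫ ω, z t ω ^ L * (starRingEnd ℂ (v ω)) ^ L ∂m‖ + ‖∫ ω, z t ω ^ L * v ω ^ L ∂m‖ ≤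
        K * (L.factorial : ℝ) ^ 2 * w t := by
  have han : ∀ x : ℕ → ℂ, (Summable fun k => ‖x k‖) →
      AnalyticOnNhd ℝ (fun u : ℂ => ∑' k, x k * (u ^ (k+1) / ((k+1).factorial : ℂ))) Set.univ :=
    fun x hx u _ => ((entire x hx).analyticAt u).restrictScalars
  have hmean : ∀ x : ℕ → ℂ, (Summable fun k => ‖x k‖) →
      ∫ u, (∑' k, x k * (u ^ (k+1) / ((k+1).factorial : ℂ))) ∂Vale.Agent.P099.nu = 0 := by
    intro x hx
    simp only [ser_eq]
    exact meanF _ (sum_fact x hx)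
  obtain ⟨K1, hK1⟩ := gen_half_fact m z (fun ω => starRingEnd ℂ (v ω)) hz
    (Complex.continuous_conj.measurable.comp hv) h1 (by
      filter_upwards [h2] with ω e
      rw [RCLike.norm_conj, e]) w hw (fun x y hx hy => by
      obtain ⟨K, hK⟩ := h (fun u : ℂ => ∑' k, x k * (u ^ (k+1) / ((k+1).factorial : ℂ)))
        (fun u : ℂ => ∑' l, y l * ((starRingEnd ℂ u) ^ (l+1) / ((l+1).factorial : ℂ))) (han x hx)
        (fun u _ => by
          have a1 : AnalyticAt ℝ (fun u : ℂ => starRingEnd ℂ u) u :=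
            (Complex.conjCLE.toContinuousLinearMap).analyticAt u
          exact (han y hy (starRingEnd ℂ u) (Set.mem_univ _)).comp_of_eq a1 rfl)
      refine ⟨K, fun t ht => ?_⟩
      have := hK t ht
      rw [hmean x hx, zero_mul, sub_zero] at this
      exact this)
  obtain ⟨K2, hK2⟩ := gen_half_fact m z v hz hv h1 h2 w hw (fun x y hx hy => by
      obtain ⟨K, hK⟩ := h _ _ (han x hx) (han y hy)
      refine ⟨K, fun t ht => ?_⟩
      have := hK t ht
      rw [hmean x hx, zero_mul, sub_zero] at this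
      exact this)
  refine ⟨K1 + K2, fun t ht L hL => ?_⟩
  have e1 := hK1 t ht L hL
  have e2 := hK2 t ht L hL
  linarith

end Vale.Agent.P099.R2.H525
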