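import Mathlib

/-! # P099, RateOfMixing, row INT -/

namespace Vale.Agent.P099.R2.H525

open MeasureTheory

theorem int_series {Ω : Type} [MeasurableSpace Ω] (m : Measure Ω) [IsProbabilityMeasure m]
    {z w : Ω → ℂ} (hz : Measurable z) (hw : Measurable w) (h1 : ∀ᵐ ω ∂m, ‖z ω‖ = 1)
    (h2 : ∀ᵐ ω ∂m, ‖w ω‖ = 1) (x y : ℕ → ℂ) (hx : Summable fun k => ‖x k‖)
    (hy : Summable fun l => ‖y l‖) :
    ∫ ω, (∑' k, x k * (z ω ^ (k+1) / (k+1))) * (∑' l, y l * (w ω ^ (l+1) / (l+1))) ∂m =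
      ∑' k, ∑' l, x k * y l * ((∫ ω, z ω ^ (k+1) * w ω ^ (l+1) ∂m) / ((k+1) * (l+1))) := by
  -- the terms
  have hnk : ∀ k : ℕ, ‖((k : ℂ) + 1)‖ = k + 1 := fun k => by
    rw [show ((k : ℂ) + 1) = ((k + 1 : ℝ) : ℂ) by push_cast; ring, Complex.norm_real,
      Real.norm_of_nonneg (by positivity)]
  have hb : ∀ (a : ℂ) (k : ℕ), ‖a‖ = 1 → ‖a ^ (k+1) / ((k : ℂ)+1)‖ ≤ 1 := fun a k ha => by
    rw [norm_div, norm_pow, ha, one_pow, hnk]
    rw [div_le_one (by positivity)]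
    have : (0 : ℝ) ≤ k := k.cast_nonneg
    linarith
  let F : ℕ × ℕ → Ω → ℂ := fun p ω =>
    (x p.1 * (z ω ^ (p.1+1) / (p.1+1))) * (y p.2 * (w ω ^ (p.2+1) / (p.2+1)))
  have hFm : ∀ p, AEStronglyMeasurable (F p) m := fun p => by
    apply Measurable.aestronglyMeasurable
    exact ((((hz.pow_const _).div_const _).const_mul _)).mul
      ((((hw.pow_const _).div_const _).const_mul _))
  have hFb : ∀ p, ∀ᵐ ω ∂m, ‖F p ω‖ ≤ ‖x p.1‖ * ‖y p.2‖ := fun p => by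
    filter_upwards [h1, h2] with ω e1 e2
    change ‖(x p.1 * (z ω ^ (p.1+1) / (p.1+1))) * (y p.2 * (w ω ^ (p.2+1) / (p.2+1)))‖ ≤ _
    rw [norm_mul, norm_mul, norm_mul]
    have i1 := hb (z ω) p.1 e1
    have i2 := hb (w ω) p.2 e2
    have j1 : ‖x p.1‖ * ‖z ω ^ (p.1+1) / ((p.1 : ℂ)+1)‖ ≤ ‖x p.1‖ :=
      mul_le_of_le_one_right (norm_nonneg _) i1
    have j2 : ‖y p.2‖ * ‖w ω ^ (p.2+1) / ((p.2 : ℂ)+1)‖ ≤ ‖y p.2‖ :=
      mul_le_of_le_one_right (norm_nonneg _) i2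
    exact mul_le_mul j1 j2 (by positivity) (norm_nonneg _)
  have hxy : Summable fun p : ℕ × ℕ => ‖x p.1‖ * ‖y p.2‖ :=
    hx.mul_of_nonneg hy (fun _ => norm_nonneg _) (fun _ => norm_nonneg _)
  have hFi : ∀ p, Integrable (F p) m := fun p =>
    Integrable.of_bound (hFm p) _ (hFb p)
  have hFn : Summable fun p => ∫ ω, ‖F p ω‖ ∂m := by
    refine Summable.of_nonneg_of_le (fun p => integral_nonneg fun _ => norm_nonneg _) (fun p => ?_)
      hxy
    calc ∫ ω, ‖F p ω‖ ∂m ≤ ∫ _, ‖x p.1‖ * ‖y p.2‖ ∂m :=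
          integral_mono_ae (hFi p).norm (integrable_const _) (hFb p)
      _ = ‖x p.1‖ * ‖y p.2‖ := by simp
  have hsum := hasSum_integral_of_summable_integral_norm hFi hFn
  -- the product of the two series
  have hprod : ∀ᵐ ω ∂m, (∑' k, x k * (z ω ^ (k+1) / (k+1))) *
      (∑' l, y l * (w ω ^ (l+1) / (l+1))) = ∑' p, F p ω := by
    filter_upwards [h1, h2] with ω e1 e2
    have s1 : Summable fun k => ‖x k * (z ω ^ (k+1) / (k+1))‖ :=
      Summable.of_nonneg_of_le (fun _ => norm_nonneg _) (fun k => by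
        rw [norm_mul]; exact mul_le_of_le_one_right (norm_nonneg _) (hb _ _ e1)) hx
    have s2 : Summable fun l => ‖y l * (w ω ^ (l+1) / (l+1))‖ :=
      Summable.of_nonneg_of_le (fun _ => norm_nonneg _) (fun k => by
        rw [norm_mul]; exact mul_le_of_le_one_right (norm_nonneg _) (hb _ _ e2)) hy
    exact tsum_mul_tsum_of_summable_norm s1 s2
  rw [integral_congr_ae hprod, ← hsum.tsum_eq]
  have hI : ∀ p : ℕ × ℕ, ∫ ω, F p ω ∂m = x p.1 * y p.2 *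
      ((∫ ω, z ω ^ (p.1+1) * w ω ^ (p.2+1) ∂m) / ((p.1+1) * (p.2+1))) := fun p => by
    rw [← integral_div, ← integral_const_mul]
    apply integral_congr_ae
    filter_upwards with ω
    change (x p.1 * (z ω ^ (p.1+1) / (p.1+1))) * (y p.2 * (w ω ^ (p.2+1) / (p.2+1))) = _
    have n1 : ((p.1 : ℂ) + 1) ≠ 0 := by exact_mod_cast Nat.succ_ne_zero p.1
    have n2 : ((p.2 : ℂ) + 1) ≠ 0 := by exact_mod_cast Nat.succ_ne_zero p.2
    field_simp
  rw [(hsum.summable).tsum_prod]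
  · simp only [hI]
end Vale.Agent.P099.R2.H525
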