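import Vale.Agent.P099.R2.H525.BS_helper16
import Vale.Agent.P099.R2.H525.INT_helper54
import Vale.Agent.P099.R2.H525.RowLM_helper665

set_option autoImplicit false

open MeasureTheory

namespace Vale.Agent.P099.R2.H525

theorem gen_half {Ω : Type} [MeasurableSpace Ω] (m : Measure Ω) [IsProbabilityMeasure m]
    (z : ℝ → Ω → ℂ) (u : Ω → ℂ) (hz : ∀ t, Measurable (z t)) (hu : Measurable u)
    (h1 : ∀ t, ∀ᵐ ω ∂m, ‖z t ω‖ = 1) (h2 : ∀ᵐ ω ∂m, ‖u ω‖ = 1) (w : ℝ → ℝ) (hw : ∀ t, 0 < w t)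
    (h : ∀ x y : ℕ → ℂ, Summable (fun k => ‖x k‖) → Summable (fun l => ‖y l‖) →
      ∃ K : ℝ, ∀ t ≥ (1:ℝ), ‖∫ ω, (∑' k, x k * (z t ω ^ (k+1) / (k+1))) *
        (∑' l, y l * (u ω ^ (l+1) / (l+1))) ∂m‖ ≤ K * w t) :
    ∃ K : ℝ, ∀ t ≥ (1:ℝ), ∀ L : ℕ, 1 ≤ L →
      ‖∫ ω, z t ω ^ L * (u ω) ^ L ∂m‖ ≤ K * L ^ 2 * w t := by
  have hn : ∀ k : ℕ, ‖((k : ℂ) + 1)‖ = (k : ℝ) + 1 := by
    intro k
    rw [show ((k : ℂ) + 1) = (((k : ℝ) + 1 : ℝ) : ℂ) by push_cast; rfl, Complex.norm_real,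
      Real.norm_of_nonneg (by positivity)]
  have hI : ∀ t (k l : ℕ), ‖∫ ω, z t ω ^ (k+1) * u ω ^ (l+1) ∂m‖ ≤ 1 := by
    intro t k l
    have := norm_integral_le_of_norm_le_const (μ := m)
      (f := fun ω => z t ω ^ (k+1) * u ω ^ (l+1)) (C := 1) (by
        filter_upwards [h1 t, h2] with ω e1 e2
        rw [norm_mul, norm_pow, norm_pow, e1, e2, one_pow, one_pow, one_mul])
    simpa using this
  obtain ⟨K, hK⟩ := uniform_bound
    (fun t k l => (∫ ω, z t ω ^ (k+1) * u ω ^ (l+1) ∂m) / (((k : ℂ)+1) * ((l : ℂ)+1)))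
    (fun t k l => by
      rw [norm_div, norm_mul, hn, hn, div_le_one (by positivity)]
      refine (hI t k l).trans ?_
      have h3 : (0 : ℝ) ≤ k := k.cast_nonneg
      have h4 : (0 : ℝ) ≤ l := l.cast_nonneg
      nlinarith)
    w hw (fun x y hx hy => by
      obtain ⟨K, hK⟩ := h x y hx hy
      refine ⟨K, fun t ht => ?_⟩
      have e := int_series m (hz t) hu (h1 t) h2 x y hx hy
      have := hK t ht
      rw [e] at this
      exact this)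
  refine ⟨K, fun t ht L hL => ?_⟩
  obtain ⟨k, rfl⟩ : ∃ k, L = k + 1 := ⟨L - 1, by omega⟩
  have := hK t ht k k
  rw [norm_div, norm_mul, hn, div_le_iff₀ (by positivity)] at this
  push_cast
  linarith

theorem gen {Ω : Type} [MeasurableSpace Ω] (m : Measure Ω) [IsProbabilityMeasure m]
    (z : ℝ → Ω → ℂ) (v : Ω → ℂ) (hz : ∀ t, Measurable (z t)) (hv : Measurable v)
    (h1 : ∀ t, ∀ᵐ ω ∂m, ‖z t ω‖ = 1) (h2 : ∀ᵐ ω ∂m, ‖v ω‖ = 1) (w : ℝ → ℝ) (hw : ∀ t, 0 < w t)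
    (h : ∀ f g : ℂ → ℂ, (∃ K, LipschitzOnWith K f (Metric.sphere 0 1)) →
      (∃ K, LipschitzOnWith K g (Metric.sphere 0 1)) →
      ∃ K : ℝ, ∀ t ≥ (1:ℝ), ‖∫ ω, f (z t ω) * g (v ω) ∂m -
        (∫ u, f u ∂Vale.Agent.P099.nu) * ∫ u, g u ∂Vale.Agent.P099.nu‖ ≤ K * w t) :
    ∃ K : ℝ, ∀ t ≥ (1:ℝ), ∀ L : ℕ, 1 ≤ L →
      ‖∫ ω, z t ω ^ L * (starRingEnd ℂ (v ω)) ^ L ∂m‖ + ‖∫ ω, z t ω ^ L * v ω ^ L ∂m‖ ≤
        K * L ^ 2 * w t := by
  obtain ⟨K1, hK1⟩ := gen_half m z (fun ω => starRingEnd ℂ (v ω)) hz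
    (Complex.continuous_conj.measurable.comp hv) h1 (by
      filter_upwards [h2] with ω e
      rw [RCLike.norm_conj, e]) w hw (fun x y hx hy => by
      obtain ⟨Ky, hKy⟩ := lipF y hy
      obtain ⟨K, hK⟩ := h (fun u : ℂ => ∑' k, x k * (u ^ (k+1) / (k+1)))
        (fun u : ℂ => ∑' l, y l * ((starRingEnd ℂ u) ^ (l+1) / (l+1))) (lipF x hx)
        ⟨Ky, by
          refine LipschitzOnWith.of_dist_le_mul fun a ha b hb => ?_
          have e := hKy.dist_le_mul (starRingEnd ℂ a) (by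
            rw [mem_sphere_zero_iff_norm, RCLike.norm_conj]
            exact mem_sphere_zero_iff_norm.1 ha) (starRingEnd ℂ b) (by
            rw [mem_sphere_zero_iff_norm, RCLike.norm_conj]
            exact mem_sphere_zero_iff_norm.1 hb)
          rw [dist_eq_norm (starRingEnd ℂ a), ← map_sub, RCLike.norm_conj, ← dist_eq_norm] at e
          exact e⟩
      refine ⟨K, fun t ht => ?_⟩
      have := hK t ht
      rw [meanF x hx, zero_mul, sub_zero] at this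
      exact this)
  obtain ⟨K2, hK2⟩ := gen_half m z v hz hv h1 h2 w hw (fun x y hx hy => by
      obtain ⟨K, hK⟩ := h (fun u : ℂ => ∑' k, x k * (u ^ (k+1) / (k+1)))
        (fun u : ℂ => ∑' l, y l * (u ^ (l+1) / (l+1))) (lipF x hx) (lipF y hy)
      refine ⟨K, fun t ht => ?_⟩
      have := hK t ht
      rw [meanF x hx, zero_mul, sub_zero] at this
      exact this)
  refine ⟨K1 + K2, fun t ht L hL => ?_⟩
  have e1 := hK1 t ht L hL
  have e2 := hK2 t ht L hL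
  linarith

end Vale.Agent.P099.R2.H525
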