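import Vale.Agent.P099.Defs

open Complex

namespace Vale.Agent.P099.R2.H525

/-- isosceles triangles -/
theorem iso {a : ℝ} (ha : a ∈ Set.Ioo (0:ℝ) (1/2)) (hi : Irrational a) :
    ∃ T : Vale.Agent.P099.Triangle, T.IsIrrational ∧ ∀ (i : Fin 3) (L : ℕ) (k : ℤ),
      ‖(((T.P (i + 2) - T.P (i + 1)) / (‖T.P (i + 2) - T.P (i + 1)‖ : ℂ)) ^ 2) ^ L -
        (((T.P (0 + 2) - T.P (0 + 1)) / (‖T.P (0 + 2) - T.P (0 + 1)‖ : ℂ)) ^ 2) ^ L‖ ≤
          4 * Real.pi * |a * L - k| := by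
  have hpi := Real.pi_pos
  set θ : ℝ := Real.pi * a with hθ
  have h0 : 0 < θ := mul_pos hpi ha.1
  have h1 : θ < Real.pi / 2 := by
    rw [hθ]
    have := ha.2
    nlinarith
  have hcos : 0 < Real.cos θ := Real.cos_pos_of_mem_Ioo ⟨by linarith, h1⟩
  have hsin : 0 < Real.sin θ := Real.sin_pos_of_mem_Ioo ⟨h0, by linarith⟩
  set r : ℝ := (2 * Real.cos θ)⁻¹ with hr
  have hr0 : 0 < r := by positivity
  have hrc : r * (2 * Real.cos θ) = 1 := inv_mul_cancel₀ (by positivity)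
  set z : ℂ := (r : ℂ) * exp (θ * I) with hz
  have hexp : exp (θ * I) = (Real.cos θ : ℂ) + Real.sin θ * I := by
    rw [exp_mul_I, ofReal_cos, ofReal_sin]
  have him : z.im = r * Real.sin θ := by
    rw [hz, hexp, mul_add, add_im, ← ofReal_mul, ofReal_im, zero_add, ← mul_assoc, ← ofReal_mul,
      mul_I_im, ofReal_re]
  have himne : z.im ≠ 0 := by
    rw [him]; positivity
  have hz1 : z - 1 = -((r : ℂ) * exp (-(θ * I))) := by
    have e1 : (1 : ℂ) = (r : ℂ) * (exp (θ * I) + exp (-(θ * I))) := by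
      have e2 : exp (θ * I) + exp (-(θ * I)) = 2 * (Real.cos θ : ℂ) := by
        rw [ofReal_cos, Complex.cos]
        rw [← neg_mul]
        ring
      rw [e2]
      exact_mod_cast hrc.symm
    rw [hz]
    linear_combination -e1
  have hnz : ‖z‖ = r := by
    rw [hz, norm_mul, norm_exp_ofReal_mul_I, mul_one, norm_real, Real.norm_of_nonneg hr0.le]
  have hne : exp (-(θ * I)) = exp (((-θ : ℝ) : ℂ) * I) := by
    congr 1
    push_cast
    ring
  have hnz1 : ‖z - 1‖ = r := by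
    rw [hz1, norm_neg, norm_mul, hne, norm_exp_ofReal_mul_I, mul_one, norm_real,
      Real.norm_of_nonneg hr0.le]
  have hrC : (r : ℂ) ≠ 0 := by exact_mod_cast hr0.ne'
  have hind : AffineIndependent ℝ (![0, 1, z] : Fin 3 → ℂ) := by
    rw [affineIndependent_iff_not_collinear_set]
    intro hcol
    rw [collinear_iff_of_mem (p₀ := (0 : ℂ)) (by simp)] at hcol
    obtain ⟨v, hv⟩ := hcol
    obtain ⟨r1, h3⟩ := hv 1 (by simp)
    obtain ⟨r2, h4⟩ := hv z (by simp)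
    simp only [vadd_eq_add, add_zero, real_smul] at h3 h4
    have h5 : r1 * v.im = 0 := by
      have := congrArg Complex.im h3
      simp at this
      simpa using this
    have h6 : r1 ≠ 0 := by
      rintro rfl
      simp at h3
    have h7 : v.im = 0 := by
      rcases mul_eq_zero.1 h5 with h | h
      · exact absurd h h6
      · exact h
    have h8 := congrArg Complex.im h4
    simp [h7] at h8
    exact himne h8
  have d0 : ((z - 1) / ((‖z - 1‖ : ℝ) : ℂ)) ^ 2 = exp (((-(2 * θ) : ℝ) : ℂ) * I) := by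
    rw [hnz1, hz1, neg_div, mul_div_cancel_left₀ _ hrC, neg_sq, ← exp_nat_mul]
    congr 1
    push_cast
    ring
  have d1 : ((0 - z) / ((‖0 - z‖ : ℝ) : ℂ)) ^ 2 = exp (((2 * θ : ℝ) : ℂ) * I) := by
    rw [zero_sub, norm_neg, hnz, hz, neg_div, mul_div_cancel_left₀ _ hrC, neg_sq, ← exp_nat_mul]
    congr 1
    push_cast
    ring
  have d2 : (((1 : ℂ) - 0) / ((‖(1 : ℂ) - 0‖ : ℝ) : ℂ)) ^ 2 = 1 := by simp
  have hle : ∀ x : ℝ, ‖exp ((x : ℂ) * I) - 1‖ ≤ |x| := by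
    intro x
    rw [mul_comm]
    exact Real.norm_exp_I_mul_ofReal_sub_one_le
  refine ⟨⟨![0, 1, z], hind⟩, ⟨0, ?_⟩, ?_⟩
  · have e1 : EuclideanGeometry.angle (1 : ℂ) 0 z = θ := by
      rw [EuclideanGeometry.angle]
      simp only [vsub_eq_sub, sub_zero]
      have hz0 : z ≠ 0 := by
        intro h
        rw [h] at himne
        simp at himne
      rw [Complex.angle_one_left hz0]
      rw [hz, exp_mul_I, arg_mul_cos_add_sin_mul_I hr0 ⟨by linarith, by linarith⟩,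
        abs_of_pos h0]
    have e2 : (EuclideanGeometry.angle ((![0, 1, z] : Fin 3 → ℂ) (0 + 1)) ((![0, 1, z] : Fin 3 → ℂ) 0)
        ((![0, 1, z] : Fin 3 → ℂ) (0 + 2))) = θ := e1
    show Irrational (EuclideanGeometry.angle ((![0, 1, z] : Fin 3 → ℂ) (0 + 1))
      ((![0, 1, z] : Fin 3 → ℂ) 0) ((![0, 1, z] : Fin 3 → ℂ) (0 + 2)) / Real.pi)
    rw [e2, hθ, mul_div_cancel_left₀ _ hpi.ne']
    exact hi
  · intro i L k
    have q0 : (((![0, 1, z] : Fin 3 → ℂ) (0 + 2) - (![0, 1, z] : Fin 3 → ℂ) (0 + 1)) /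
        ((‖(![0, 1, z] : Fin 3 → ℂ) (0 + 2) - (![0, 1, z] : Fin 3 → ℂ) (0 + 1)‖ : ℝ) : ℂ)) ^ 2 =
        exp (((-(2 * θ) : ℝ) : ℂ) * I) := d0
    show ‖((((![0, 1, z] : Fin 3 → ℂ) (i + 2) - (![0, 1, z] : Fin 3 → ℂ) (i + 1)) /
        ((‖(![0, 1, z] : Fin 3 → ℂ) (i + 2) - (![0, 1, z] : Fin 3 → ℂ) (i + 1)‖ : ℝ) : ℂ)) ^ 2) ^ L
      - ((((![0, 1, z] : Fin 3 → ℂ) (0 + 2) - (![0, 1, z] : Fin 3 → ℂ) (0 + 1)) /
        ((‖(![0, 1, z] : Fin 3 → ℂ) (0 + 2) - (![0, 1, z] : Fin 3 → ℂ) (0 + 1)‖ : ℝ) : ℂ)) ^ 2) ^ L‖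
      ≤ _
    rw [q0]
    have hper : ∀ (x : ℝ) (m : ℤ), exp ((x : ℂ) * I) = exp (((x - 2 * Real.pi * m : ℝ) : ℂ) * I) := by
      intro x m
      rw [exp_eq_exp_iff_exists_int]
      refine ⟨m, ?_⟩
      push_cast
      ring
    have hcommon : ∀ x : ℝ, ‖exp (((2 * θ * L * x : ℝ) : ℂ) * I) * 1 - 1‖ = ‖exp (((2 * θ * L * x : ℝ) : ℂ) * I) - 1‖ := by
      intro x; rw [mul_one]
    have habs : 0 ≤ |a * L - k| := abs_nonneg _
    fin_cases i
    · have : (((![0, 1, z] : Fin 3 → ℂ) (0 + 2) - (![0, 1, z] : Fin 3 → ℂ) (0 + 1)) /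
        ((‖(![0, 1, z] : Fin 3 → ℂ) (0 + 2) - (![0, 1, z] : Fin 3 → ℂ) (0 + 1)‖ : ℝ) : ℂ)) ^ 2 =
        exp (((-(2 * θ) : ℝ) : ℂ) * I) := d0
      simp only [Fin.zero_eta]
      rw [this, sub_self, norm_zero]
      positivity
    · have q1 : (((![0, 1, z] : Fin 3 → ℂ) (1 + 2) - (![0, 1, z] : Fin 3 → ℂ) (1 + 1)) /
        ((‖(![0, 1, z] : Fin 3 → ℂ) (1 + 2) - (![0, 1, z] : Fin 3 → ℂ) (1 + 1)‖ : ℝ) : ℂ)) ^ 2 =
        exp (((2 * θ : ℝ) : ℂ) * I) := d1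
      simp only [Fin.mk_one]
      rw [q1, ← exp_nat_mul, ← exp_nat_mul]
      have e1 : exp ((L : ℂ) * (((2 * θ : ℝ) : ℂ) * I)) - exp ((L : ℂ) * (((-(2 * θ) : ℝ) : ℂ) * I)) =
          exp (((-(2 * θ * L) : ℝ) : ℂ) * I) * (exp (((4 * θ * L : ℝ) : ℂ) * I) - 1) := by
        rw [mul_sub, mul_one, ← exp_add]
        congr 1
        · congr 1
          push_cast
          ring
        · congr 1
          push_cast
          ring
      rw [e1, norm_mul, norm_exp_ofReal_mul_I, one_mul, hper _ (2 * k)]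
      refine (hle _).trans (le_of_eq ?_)
      rw [hθ]
      have e2 : 4 * (Real.pi * a) * L - 2 * Real.pi * ((2 * k : ℤ) : ℝ) =
          4 * Real.pi * (a * L - k) := by
        push_cast
        ring
      rw [e2, abs_mul, abs_of_pos (by positivity)]
    · have q2 : (((![0, 1, z] : Fin 3 → ℂ) (2 + 2) - (![0, 1, z] : Fin 3 → ℂ) (2 + 1)) /
        ((‖(![0, 1, z] : Fin 3 → ℂ) (2 + 2) - (![0, 1, z] : Fin 3 → ℂ) (2 + 1)‖ : ℝ) : ℂ)) ^ 2 =
        1 := d2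
      have e0 : (⟨2, by norm_num⟩ : Fin 3) = 2 := rfl
      simp only [Fin.reduceFinMk]
      rw [q2, one_pow, ← exp_nat_mul, norm_sub_rev]
      have e1 : exp ((L : ℂ) * (((-(2 * θ) : ℝ) : ℂ) * I)) = exp (((-(2 * θ * L) : ℝ) : ℂ) * I) := by
        congr 1
        push_cast
        ring
      rw [e1, hper _ (-k)]
      refine (hle _).trans ?_
      rw [hθ]
      have e2 : -(2 * (Real.pi * a) * L) - 2 * Real.pi * ((-k : ℤ) : ℝ) =
          -(2 * Real.pi * (a * L - k)) := by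
        push_cast
        ring
      rw [e2, abs_neg, abs_mul, abs_of_pos (by positivity)]
      nlinarith

end Vale.Agent.P099.R2.H525
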