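import Mathlib

/-! # P099, RateOfMixing, row PSI -/

namespace Vale.Agent.P099.R2.H525

theorem super (ψ : ℕ → ℝ) (hψ : ∀ n, 0 < ψ n) : ∃ a ∈ Set.Ioo (0:ℝ) (1/2), Irrational a ∧
    ∀ n : ℕ, ∃ L ≥ n, 1 ≤ L ∧ ∃ k : ℤ, |a * L - k| < ψ L := by
  let U : ℕ → Set ℝ := fun n => {a | ∃ L ≥ n, 1 ≤ L ∧ ∃ k : ℤ, |a * L - k| < ψ L}
  have hUo : ∀ n, IsOpen (U n) := by
    intro n
    have : U n = ⋃ (L : ℕ) (_ : L ≥ n) (_ : 1 ≤ L) (k : ℤ), {a : ℝ | |a * L - k| < ψ L} := by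
      ext a
      simp only [U, Set.mem_setOf_eq, Set.mem_iUnion, exists_prop]
    rw [this]
    refine isOpen_iUnion fun L => isOpen_iUnion fun _ => isOpen_iUnion fun _ =>
      isOpen_iUnion fun k => ?_
    exact isOpen_lt (by fun_prop) continuous_const
  have hUd : ∀ n, Dense (U n) := by
    intro n
    refine (Rat.denseRange_cast (𝕜 := ℝ)).mono ?_
    rintro _ ⟨q, rfl⟩
    refine ⟨q.den * (n + 1), ?_, ?_, q.num * (n + 1), ?_⟩
    · have := q.pos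
      nlinarith
    · exact Nat.mul_pos q.pos (Nat.succ_pos n)
    · have h1 : (q : ℝ) * q.den = q.num := by
        have := Rat.mul_den_eq_num q
        exact_mod_cast this
      have h2 : (q : ℝ) * ((q.den * (n + 1) : ℕ) : ℝ) - ((q.num * ((n : ℤ) + 1) : ℤ) : ℝ) = 0 := by
        push_cast
        rw [← mul_assoc, h1]
        ring
      rw [h2, abs_zero]
      exact hψ _
  have h1 : Dense (⋂ n, U n) := dense_iInter_of_isOpen hUo hUd
  have h2 : IsGδ (⋂ n, U n) := IsGδ.iInter_of_isOpen hUo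
  have h3 : Dense ((⋂ n, U n) ∩ {x : ℝ | Irrational x}) :=
    h1.inter_of_Gδ h2 IsGδ.setOf_irrational dense_irrational
  obtain ⟨a, ha, ha'⟩ := h3.exists_mem_open isOpen_Ioo
    (⟨1/4, by norm_num, by norm_num⟩ : (Set.Ioo (0:ℝ) (1/2)).Nonempty)
  exact ⟨a, ha', ha.2, fun n => Set.mem_iInter.1 ha.1 n⟩

end Vale.Agent.P099.R2.H525
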