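import Vale.Agent.P099.R2.H525.Core
import Vale.Agent.P099.R2.H525.GEN_helper16
import Vale.Agent.P099.R2.H525.GENA_helper16
import Vale.Agent.P099.R2.H525.DIR_helper737
import Vale.Agent.P099.R2.H525.PSI_helper54
import Vale.Agent.P099.R2.H525.ISO_helper399
import Vale.Agent.P099.R2.H278.Tri

set_option linter.all false

open MeasureTheory Set Filter Topology

namespace Vale.Agent.P099.R2.H525

open Vale.Agent.P099 Vale.Agent.P099T

variable {N : ℕ}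

theorem exists_theta (T : PolygonalTable N) : ∃ Θ : ℝ → ℂ × ℂ → ℂ × ℂ, PFlow T.mu Θ ∧
    T.IsBilliardFlow Θ ∧ ∀ Φ : ℝ → ℂ × ℂ → ℂ × ℂ, T.IsBilliardFlow Φ →
      ∀ t, ∀ᵐ p ∂T.mu, Φ t p = Θ t p := by
  obtain ⟨S, hS1, hS2, X, h⟩ := exists_cut T
  let _ : MeasurableSpace S := ⊤
  have : MeasurableSingletonClass S := ⟨fun _ => trivial⟩
  obtain ⟨Ψ, Θ, -, -, hΘ, hbΘ, -, huniq⟩ := h.exists_flow
  exact ⟨Θ, hΘ, hbΘ, huniq⟩

/-- correlation of two characters of the direction, both parities -/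
noncomputable def chi (T : PolygonalTable N) (Φ : ℝ → ℂ × ℂ → ℂ × ℂ) (L : ℕ) (t : ℝ) : ℝ :=
  ‖∫ p, (Φ t p).2 ^ L * (starRingEnd ℂ p.2) ^ L ∂T.mu‖ + ‖∫ p, (Φ t p).2 ^ L * p.2 ^ L ∂T.mu‖

lemma chi_congr {T : PolygonalTable N} {Φ Θ : ℝ → ℂ × ℂ → ℂ × ℂ} {t : ℝ}
    (h : ∀ᵐ p ∂T.mu, Φ t p = Θ t p) (L : ℕ) : chi T Φ L t = chi T Θ L t := by
  unfold chi
  congr 2
  · refine integral_congr_ae ?_
    filter_upwards [h] with p hp
    rw [hp]
  · refine integral_congr_ae ?_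
    filter_upwards [h] with p hp
    rw [hp]

lemma mp_snd (T : PolygonalTable N) : MeasurePreserving Prod.snd T.mu nu := by
  unfold PolygonalTable.mu
  exact measurePreserving_snd

theorem core (T : PolygonalTable N) (i0 : Fin N) : ∃ c : ℝ, 0 < c ∧
    ∀ Φ : ℝ → ℂ × ℂ → ℂ × ℂ, T.IsBilliardFlow Φ → ∀ t : ℝ, 1 ≤ t → ∀ L : ℕ, 1 ≤ L → ∀ e : ℝ,
      (∀ i, ‖cc T i ^ L - cc T i0 ^ L‖ ≤ e) → e * t ≤ c → 1 / 2 ≤ chi T Φ L t := by
  obtain ⟨C, hC, hfew⟩ := few T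
  refine ⟨1 / (8 * C), by positivity, fun Φ hΦ t ht L hL e he het => ?_⟩
  obtain ⟨Θ, hΘ, hb, hu⟩ := exists_theta T
  rw [chi_congr (hu Φ hΦ t) L]
  obtain ⟨n, hn, hpr⟩ := hfew Θ hΘ hb t ht
  have he0 : 0 ≤ e := le_trans (norm_nonneg _) (he i0)
  have hmt : Measurable (Θ t) := (hΘ.mp t).measurable
  have hun : ∀ᵐ p ∂T.mu, ‖p.2‖ = 1 := Vale.Agent.P099.R2.H278.ae_unit T
  have hut : ∀ᵐ p ∂T.mu, ‖(Θ t p).2‖ = 1 := (hΘ.mp t).quasiMeasurePreserving.ae hun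
  have h0 : ∫ p, p.2 ^ (2 * L) ∂T.mu = 0 := by
    have h1 : ∫ u, u ^ (2 * L) ∂(T.mu.map Prod.snd) = ∫ p, p.2 ^ (2 * L) ∂T.mu :=
      integral_map measurable_snd.aemeasurable (by fun_prop)
    rw [← h1, (mp_snd T).map_eq]
    have h2 := integral_pow (2 * L - 1)
    rwa [show 2 * L - 1 + 1 = 2 * L by omega] at h2
  have hw : ‖cc T i0 ^ L‖ = 1 := by rw [norm_pow, norm_cc, one_pow]
  refine abs_core T.mu hmt.snd measurable_snd hut hun hw h0 (hpr.trans ?_)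
  refine ENNReal.toReal_mono (measure_ne_top _ _) (measure_mono_ae ?_)
  filter_upwards [hun] with p hp hr
  have h3 := (reach_F (norm_cc T) i0 he hr hp).2
  refine h3.trans ?_
  have h4 : (n : ℝ) * (2 * e) ≤ C * t * (2 * e) := mul_le_mul_of_nonneg_right hn (by linarith)
  have h5 : C * t * (2 * e) = 2 * C * (e * t) := by ring
  have h6 : 2 * C * (e * t) ≤ 2 * C * (1 / (8 * C)) := mul_le_mul_of_nonneg_left het (by positivity)
  have h7 : 2 * C * (1 / (8 * C)) = 1 / 4 := by field_simp; norm_num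
  linarith

lemma pos_N (T : PolygonalTable N) : 0 < N := by
  rcases Nat.eq_zero_or_pos N with h | h
  · exfalso
    subst h
    have hne : T.Q ≠ univ := by
      intro h0
      have := T.isBounded
      rw [h0] at this
      exact NormedSpace.unbounded_univ ℝ ℂ this
    have h1 : (frontier T.Q).Nonempty := nonempty_frontier_iff.2 ⟨T.isConnected.nonempty, hne⟩
    rw [T.frontier_eq] at h1
    obtain ⟨x, hx⟩ := h1
    obtain ⟨i, -⟩ := mem_iUnion.1 hx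
    exact i.elim0
  · exact h

/-- (1) no decay at frequencies at most `C t ^ (N - 1)` -/
theorem nodecay (T : PolygonalTable N) : ∃ C : ℝ, 0 < C ∧
    ∀ Φ : ℝ → ℂ × ℂ → ℂ × ℂ, T.IsBilliardFlow Φ → ∀ t : ℝ, 1 ≤ t →
      ∃ L : ℕ, 1 ≤ L ∧ (L : ℝ) ≤ C * t ^ (N - 1) ∧ 1 / 2 ≤ chi T Φ L t := by
  have hN := pos_N T
  obtain ⟨M, rfl⟩ : ∃ M, N = M + 1 := ⟨N - 1, by omega⟩
  obtain ⟨c, hc, hcore⟩ := core T 0
  have hpi := Real.pi_pos
  refine ⟨(2 * Real.pi / c + 1) ^ M, by positivity, fun Φ hΦ t ht => ?_⟩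
  set Q : ℕ := ⌈2 * Real.pi * t / c⌉₊ with hQ
  have ht0 : 0 < t := by linarith
  have hx : 0 < 2 * Real.pi * t / c := by positivity
  have hQ1 : 1 ≤ Q := Nat.ceil_pos.2 hx
  have hQ0 : (0 : ℝ) < Q := by exact_mod_cast hQ1
  have hne0 : cc T 0 ≠ 0 := by
    intro h
    have := norm_cc T 0
    rw [h, norm_zero] at this
    exact zero_ne_one this
  obtain ⟨L, hL1, hL2, hL3⟩ := dirichlet (fun i : Fin M => cc T i.succ / cc T 0)
    (fun i => by rw [norm_div, norm_cc, norm_cc, div_one]) Q hQ1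
  refine ⟨L, hL1, ?_, ?_⟩
  · have h1 : (L : ℝ) ≤ (Q : ℝ) ^ M := by exact_mod_cast hL2
    have h2 : (Q : ℝ) ≤ (2 * Real.pi / c + 1) * t := by
      have h3 : (Q : ℝ) < 2 * Real.pi * t / c + 1 := Nat.ceil_lt_add_one hx.le
      have h4 : 2 * Real.pi * t / c = 2 * Real.pi / c * t := by ring
      rw [h4] at h3
      nlinarith
    rw [Nat.add_sub_cancel, ← mul_pow]
    exact h1.trans (pow_le_pow_left₀ hQ0.le h2 M)
  · refine hcore Φ hΦ t ht L hL1 (2 * Real.pi / Q) (fun i => ?_) ?_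
    · refine Fin.cases ?_ (fun j => ?_) i
      · rw [sub_self, norm_zero]
        positivity
      · have h5 : cc T j.succ ^ L - cc T 0 ^ L =
            cc T 0 ^ L * ((cc T j.succ / cc T 0) ^ L - 1) := by
          rw [div_pow]
          field_simp
        rw [h5, norm_mul, norm_pow, norm_cc, one_pow, one_mul]
        exact hL3 j
    · have h6 : 2 * Real.pi * t / c ≤ Q := Nat.le_ceil _
      rw [div_le_iff₀ hc] at h6
      rw [div_mul_eq_mul_div, div_le_iff₀ hQ0]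
      linarith

/-- covariance of two functions of the direction -/
noncomputable def corr (m : Measure (ℂ × ℂ)) (Φ : ℝ → ℂ × ℂ → ℂ × ℂ) (f g : ℂ → ℂ) (t : ℝ) : ℂ :=
  ∫ p, f (Φ t p).2 * g p.2 ∂m - (∫ u, f u ∂nu) * ∫ u, g u ∂nu

/-- Lipschitz on the unit circle -/
def Lip (f : ℂ → ℂ) : Prop := ∃ K, LipschitzOnWith K f (Metric.sphere 0 1)

theorem gen_table (T : PolygonalTable N) {Φ : ℝ → ℂ × ℂ → ℂ × ℂ} (hΦ : T.IsBilliardFlow Φ)
    (w : ℝ → ℝ) (hw : ∀ t, 0 < w t)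
    (h : ∀ f g : ℂ → ℂ, Lip f → Lip g → ∃ K : ℝ, ∀ t ≥ (1 : ℝ), ‖corr T.mu Φ f g t‖ ≤ K * w t) :
    ∃ K : ℝ, ∀ t ≥ (1 : ℝ), ∀ L : ℕ, 1 ≤ L → chi T Φ L t ≤ K * L ^ 2 * w t := by
  obtain ⟨Θ, hΘ, hb, hu⟩ := exists_theta T
  have hun : ∀ᵐ p ∂T.mu, ‖p.2‖ = 1 := Vale.Agent.P099.R2.H278.ae_unit T
  obtain ⟨K, hK⟩ := gen T.mu (fun t p => (Θ t p).2) (fun p => p.2)
    (fun t => (hΘ.mp t).measurable.snd) measurable_snd
    (fun t => (hΘ.mp t).quasiMeasurePreserving.ae hun) hun w hw (fun f g hf hg => by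
      obtain ⟨K, hK⟩ := h f g hf hg
      refine ⟨K, fun t ht => ?_⟩
      have h1 := hK t ht
      unfold corr at h1
      have h2 : ∫ p, f (Φ t p).2 * g p.2 ∂T.mu = ∫ p, f (Θ t p).2 * g p.2 ∂T.mu := by
        refine integral_congr_ae ?_
        filter_upwards [hu Φ hΦ t] with p hp
        rw [hp]
      rw [h2] at h1
      exact h1)
  refine ⟨K, fun t ht L hL => ?_⟩
  rw [chi_congr (hu Φ hΦ t) L]
  exact hK t ht L hL

/-- (2) power rates -/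
theorem power_rate (T : PolygonalTable N) {Φ : ℝ → ℂ × ℂ → ℂ × ℂ} (hΦ : T.IsBilliardFlow Φ)
    (a : ℝ) (h : ∀ f g : ℂ → ℂ, Lip f → Lip g → ∃ K : ℝ, ∀ t ≥ (1 : ℝ),
      ‖corr T.mu Φ f g t‖ ≤ K * t ^ (-a)) : a ≤ 2 * (N - 1) := by
  have hN := pos_N T
  obtain ⟨C, hC, hnd⟩ := nodecay T
  obtain ⟨K, hK⟩ := gen_table T hΦ (fun t => (max t 1) ^ (-a)) (fun t => by positivity)
    (fun f g hf hg => by
      obtain ⟨K, hK⟩ := h f g hf hg
      refine ⟨K, fun t ht => ?_⟩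
      rw [max_eq_left ht]
      exact hK t ht)
  by_contra hcon
  have hcon' : 2 * ((N : ℝ) - 1) < a := not_le.1 hcon
  have hK' : ∀ t : ℝ, 1 ≤ t → t ^ (a - 2 * ((N : ℝ) - 1)) ≤ 2 * |K| * C ^ 2 := by
    intro t ht
    have ht0 : 0 < t := by linarith
    obtain ⟨L, hL1, hL2, hL3⟩ := hnd Φ hΦ t ht
    have h1 := hK t ht L hL1
    rw [max_eq_left ht] at h1
    have hr : 0 < t ^ (-a) := by positivity
    have h2 : (L : ℝ) ^ 2 ≤ (C * t ^ (N - 1)) ^ 2 := pow_le_pow_left₀ (by positivity) hL2 2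
    have h3 : (1 : ℝ) / 2 ≤ |K| * (C * t ^ (N - 1)) ^ 2 * t ^ (-a) := by
      calc (1 : ℝ) / 2 ≤ K * L ^ 2 * t ^ (-a) := hL3.trans h1
        _ ≤ |K| * L ^ 2 * t ^ (-a) := by
            refine mul_le_mul_of_nonneg_right ?_ hr.le
            exact mul_le_mul_of_nonneg_right (le_abs_self K) (by positivity)
        _ ≤ |K| * (C * t ^ (N - 1)) ^ 2 * t ^ (-a) := by
            refine mul_le_mul_of_nonneg_right ?_ hr.le
            exact mul_le_mul_of_nonneg_left h2 (abs_nonneg K)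
    have h4 : (t ^ (N - 1) : ℝ) = t ^ ((N : ℝ) - 1) := by
      rw [← Real.rpow_natCast t (N - 1), Nat.cast_sub hN, Nat.cast_one]
    rw [h4] at h3
    have h5 : (C * t ^ ((N : ℝ) - 1)) ^ 2 * t ^ (-a) = C ^ 2 * t ^ (-(a - 2 * ((N : ℝ) - 1))) := by
      rw [mul_pow, ← Real.rpow_natCast (t ^ ((N : ℝ) - 1)) 2, ← Real.rpow_mul ht0.le, mul_assoc,
        ← Real.rpow_add ht0]
      congr 2
      push_cast
      ring
    rw [mul_assoc, h5, Real.rpow_neg ht0.le] at h3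
    have h6 : 0 < t ^ (a - 2 * ((N : ℝ) - 1)) := by positivity
    have h7 := mul_le_mul_of_nonneg_right h3 h6.le
    have h8 : |K| * (C ^ 2 * (t ^ (a - 2 * ((N : ℝ) - 1)))⁻¹) * t ^ (a - 2 * ((N : ℝ) - 1)) =
        |K| * C ^ 2 := by
      field_simp
    rw [h8] at h7
    linarith
  have hlim := tendsto_rpow_atTop (y := a - 2 * ((N : ℝ) - 1)) (by linarith)
  obtain ⟨t, ht1, ht2⟩ := ((hlim.eventually_gt_atTop (2 * |K| * C ^ 2)).and
    (eventually_ge_atTop (1 : ℝ))).exists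
  exact absurd (hK' t ht2) (not_le.2 ht1)

/-- real analytic in the whole plane -/
def Ana (f : ℂ → ℂ) : Prop := AnalyticOnNhd ℝ f univ

theorem gen_table_ana (T : PolygonalTable N) {Φ : ℝ → ℂ × ℂ → ℂ × ℂ} (hΦ : T.IsBilliardFlow Φ)
    (w : ℝ → ℝ) (hw : ∀ t, 0 < w t)
    (h : ∀ f g : ℂ → ℂ, Ana f → Ana g → ∃ K : ℝ, ∀ t ≥ (1 : ℝ), ‖corr T.mu Φ f g t‖ ≤ K * w t) :
    ∃ K : ℝ, ∀ t ≥ (1 : ℝ), ∀ L : ℕ, 1 ≤ L →
      chi T Φ L t ≤ K * (L.factorial : ℝ) ^ 2 * w t := by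
  obtain ⟨Θ, hΘ, hb, hu⟩ := exists_theta T
  have hun : ∀ᵐ p ∂T.mu, ‖p.2‖ = 1 := Vale.Agent.P099.R2.H278.ae_unit T
  obtain ⟨K, hK⟩ := gen_analytic T.mu (fun t p => (Θ t p).2) (fun p => p.2)
    (fun t => (hΘ.mp t).measurable.snd) measurable_snd
    (fun t => (hΘ.mp t).quasiMeasurePreserving.ae hun) hun w hw (fun f g hf hg => by
      obtain ⟨K, hK⟩ := h f g hf hg
      refine ⟨K, fun t ht => ?_⟩
      have h1 := hK t ht
      unfold corr at h1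
      have h2 : ∫ p, f (Φ t p).2 * g p.2 ∂T.mu = ∫ p, f (Θ t p).2 * g p.2 ∂T.mu := by
        refine integral_congr_ae ?_
        filter_upwards [hu Φ hΦ t] with p hp
        rw [hp]
      rw [h2] at h1
      exact h1)
  refine ⟨K, fun t ht L hL => ?_⟩
  rw [chi_congr (hu Φ hΦ t) L]
  exact hK t ht L hL

/-- the multiplier of the reflection in the side `i` of a triangle -/
noncomputable def dd (T : Triangle) (i : Fin 3) : ℂ :=
  ((T.P (i + 2) - T.P (i + 1)) / (‖T.P (i + 2) - T.P (i + 1)‖ : ℂ)) ^ 2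

/-- the assembly lemma of (3) -/
theorem no_rate_of (φ : ℝ → ℝ) (hφ : ∀ t, 0 < φ t) (hlim : Tendsto φ atTop (𝓝 0)) :
    ∃ ψ : ℕ → ℝ, (∀ n, 0 < ψ n) ∧ ∀ T : Triangle,
      (∀ n : ℕ, ∃ L ≥ n, 1 ≤ L ∧ ∀ i, ‖dd T i ^ L - dd T 0 ^ L‖ ≤ ψ L) →
      ∀ Φ : ℝ → ℂ × ℂ → ℂ × ℂ, T.IsBilliardFlow Φ →
      ¬ ∀ f g : ℂ → ℂ, Ana f → Ana g → ∃ K : ℝ, ∀ t ≥ (1 : ℝ),
        ‖corr T.mu Φ f g t‖ ≤ K * φ t := by
  have hτ : ∀ L : ℕ, ∃ τ : ℝ, 1 ≤ τ ∧ φ τ ≤ 1 / (((L : ℝ) + 1) * (L.factorial : ℝ) ^ 2) := by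
    intro L
    have h0 : (0 : ℝ) < (L.factorial : ℝ) := by exact_mod_cast L.factorial_pos
    have h1 : (0 : ℝ) < 1 / (((L : ℝ) + 1) * (L.factorial : ℝ) ^ 2) := by positivity
    obtain ⟨τ, h2, h3⟩ := ((hlim.eventually_lt_const h1).and (eventually_ge_atTop (1 : ℝ))).exists
    exact ⟨τ, h3, h2.le⟩
  choose τ hτ1 hτ2 using hτ
  refine ⟨fun L => 1 / (((L : ℝ) + 1) * τ L), fun L => by have := hτ1 L; positivity, ?_⟩
  intro T hap Φ hΦ hcon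
  obtain ⟨S, hQ, hSa, hSb⟩ := Vale.Agent.P099.R2.H278.exists_table T
  obtain ⟨hmu, hfl, -⟩ := Vale.Agent.P099.R2.H278.table_transfer T hQ hSa hSb
  obtain ⟨c, hc, hcore⟩ := core S 0
  have hΦ' : S.IsBilliardFlow Φ := (hfl Φ).2 hΦ
  rw [← hmu] at hcon
  obtain ⟨K, hK⟩ := gen_table_ana S hΦ' φ hφ hcon
  obtain ⟨n, hn⟩ := exists_nat_gt (max (1 / c) (2 * |K|))
  obtain ⟨L, hLn, hL1, hk⟩ := hap n
  have hL0 : (0 : ℝ) < L := by exact_mod_cast hL1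
  have hnL : (n : ℝ) ≤ L := by exact_mod_cast hLn
  have hb1 : 1 / c < L := lt_of_le_of_lt (le_max_left _ _) (lt_of_lt_of_le hn hnL)
  have hb2 : 2 * |K| < L := lt_of_le_of_lt (le_max_right _ _) (lt_of_lt_of_le hn hnL)
  have hτp : 0 < τ L := by have := hτ1 L; linarith
  have hcc : ∀ i, cc S i = dd T i := by
    intro i
    unfold cc dd
    rw [hSa, hSb]
  have h1 := hcore Φ hΦ' (τ L) (hτ1 L) L hL1 (1 / (((L : ℝ) + 1) * τ L)) (fun i => by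
    rw [hcc, hcc]
    exact hk i) (by
      have h4 : 1 / (((L : ℝ) + 1) * τ L) * τ L = 1 / (L + 1) := by
        field_simp
      rw [h4, div_le_iff₀ (by positivity)]
      rw [div_lt_iff₀ hc] at hb1
      nlinarith)
  have h5 := hK (τ L) (hτ1 L) L hL1
  have hf0 : (0 : ℝ) < (L.factorial : ℝ) := by exact_mod_cast L.factorial_pos
  have h6 : K * (L.factorial : ℝ) ^ 2 * φ (τ L) ≤ |K| * (1 / ((L : ℝ) + 1)) := by
    have h7 : K * (L.factorial : ℝ) ^ 2 * φ (τ L) ≤ |K| * (L.factorial : ℝ) ^ 2 * φ (τ L) :=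
      mul_le_mul_of_nonneg_right (mul_le_mul_of_nonneg_right (le_abs_self K) (by positivity))
        (hφ _).le
    refine (h7.trans (mul_le_mul_of_nonneg_left (hτ2 L) (by positivity))).trans (le_of_eq ?_)
    field_simp
  have h8 : |K| * (1 / ((L : ℝ) + 1)) < 1 / 2 := by
    rw [mul_one_div, div_lt_iff₀ (by positivity)]
    linarith
  linarith

lemma exists_flow_tri (T : Triangle) : ∃ Φ, T.IsBilliardFlow Φ := by
  obtain ⟨S, hQ, hSa, hSb⟩ := Vale.Agent.P099.R2.H278.exists_table T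
  obtain ⟨hmu, hfl, -⟩ := Vale.Agent.P099.R2.H278.table_transfer T hQ hSa hSb
  obtain ⟨Θ, -, hb, -⟩ := exists_theta S
  exact ⟨Θ, (hfl Θ).1 hb⟩

/-- (3) no rate of mixing is common to all irrational triangles -/
theorem no_rate (φ : ℝ → ℝ) (hφ : ∀ t, 0 < φ t) (hlim : Tendsto φ atTop (𝓝 0)) :
    ∃ T : Triangle, T.IsIrrational ∧ (∃ Φ, T.IsBilliardFlow Φ) ∧
      ∀ Φ : ℝ → ℂ × ℂ → ℂ × ℂ, T.IsBilliardFlow Φ →
      ¬ ∀ f g : ℂ → ℂ, Ana f → Ana g → ∃ K : ℝ, ∀ t ≥ (1 : ℝ),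
        ‖corr T.mu Φ f g t‖ ≤ K * φ t := by
  obtain ⟨ψ, hψ, hmain⟩ := no_rate_of φ hφ hlim
  have hpi := Real.pi_pos
  obtain ⟨a, ha, hirr, hap⟩ := super (fun L => ψ L / (4 * Real.pi))
    (fun L => by have := hψ L; positivity)
  obtain ⟨T, hT, hiso⟩ := iso ha hirr
  refine ⟨T, hT, exists_flow_tri T, hmain T fun n => ?_⟩
  obtain ⟨L, hLn, hL1, k, hk⟩ := hap n
  refine ⟨L, hLn, hL1, fun i => (hiso i L k).trans ?_⟩
  have h1 : 4 * Real.pi * |a * L - k| ≤ 4 * Real.pi * (ψ L / (4 * Real.pi)) :=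
    mul_le_mul_of_nonneg_left hk.le (by positivity)
  refine h1.trans (le_of_eq ?_)
  field_simp

end Vale.Agent.P099.R2.H525
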