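import Vale.Agent.P099.R2.H525.BS_helper16
import Vale.Agent.P099.R2.H525.INT_helper54
import Vale.Agent.P099.R2.H525.RowLM_helper665

/-! # P099, RateOfMixing, row GENA: real analytic test functions -/

set_option autoImplicit false

open MeasureTheory

namespace Vale.Agent.P099.R2.H525

namespace GENA

/-- The coefficients divided by factorials. -/
noncomputable def dv (x : ℕ → ℂ) : ℕ → ℂ := fun k => x k / (k.factorial : ℂ)

theorem norm_dv_le (x : ℕ → ℂ) (k : ℕ) : ‖dv x k‖ ≤ ‖x k‖ := by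
  rw [dv, norm_div, Complex.norm_natCast]
  refine div_le_self (norm_nonneg _) ?_
  exact_mod_cast Nat.one_le_iff_ne_zero.2 (Nat.factorial_ne_zero k)

theorem summable_dv {x : ℕ → ℂ} (hx : Summable fun k => ‖x k‖) : Summable fun k => ‖dv x k‖ :=
  Summable.of_nonneg_of_le (fun _ => norm_nonneg _) (norm_dv_le x) hx

/-- The entire function. -/
noncomputable def ff (x : ℕ → ℂ) : ℂ → ℂ := fun u => ∑' k : ℕ, dv x k * (u ^ (k+1) / ((k : ℂ)+1))

theorem term_norm (x : ℕ → ℂ) (k : ℕ) (u : ℂ) :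
    ‖dv x k * (u ^ (k+1) / ((k : ℂ)+1))‖ = ‖x k‖ * (‖u‖ ^ (k+1) / ((k+1).factorial : ℝ)) := by
  have h : ‖((k : ℂ) + 1)‖ = (k : ℝ) + 1 := by
    rw [show ((k : ℂ) + 1) = (((k : ℝ) + 1 : ℝ) : ℂ) by push_cast; rfl, Complex.norm_real,
      Real.norm_of_nonneg (by positivity)]
  rw [dv, norm_mul, norm_div, norm_div, norm_pow, h, Complex.norm_natCast, Nat.factorial_succ]
  push_cast
  have h1 : ((k.factorial : ℕ) : ℝ) ≠ 0 := by exact_mod_cast Nat.factorial_ne_zero k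
  have h2 : ((k : ℝ) + 1) ≠ 0 := by positivity
  field_simp

theorem diff_ff {x : ℕ → ℂ} (hx : Summable fun k => ‖x k‖) : Differentiable ℂ (ff x) := by
  intro z
  have hs : Summable fun k : ℕ => (∑' k, ‖x k‖) * ((‖z‖ + 1) ^ (k+1) / ((k+1).factorial : ℝ)) := by
    refine Summable.mul_left _ ?_
    exact (summable_nat_add_iff 1).2 (Real.summable_pow_div_factorial (‖z‖ + 1))
  have h : DifferentiableOn ℂ (fun w => ∑' k : ℕ, dv x k * (w ^ (k+1) / ((k : ℂ)+1)))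
      (Metric.ball 0 (‖z‖ + 1)) := by
    refine Complex.differentiableOn_tsum_of_summable_norm hs (fun k => ?_) Metric.isOpen_ball
      fun k w hw => ?_
    · fun_prop
    · rw [term_norm]
      have hw' : ‖w‖ ≤ ‖z‖ + 1 := (mem_ball_zero_iff.1 hw).le
      refine mul_le_mul (hx.le_tsum k fun _ _ => norm_nonneg _) ?_ (by positivity)
        (tsum_nonneg fun _ => norm_nonneg _)
      gcongr
  exact (h z (mem_ball_zero_iff.2 (by linarith))).differentiableAt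
    (Metric.isOpen_ball.mem_nhds (mem_ball_zero_iff.2 (by linarith)))

theorem an_ff {x : ℕ → ℂ} (hx : Summable fun k => ‖x k‖) : AnalyticOnNhd ℝ (ff x) Set.univ :=
  fun z _ => ((diff_ff hx).analyticAt z).restrictScalars

theorem an_conj {x : ℕ → ℂ} (hx : Summable fun k => ‖x k‖) :
    AnalyticOnNhd ℝ (fun u => ff x (starRingEnd ℂ u)) Set.univ := by
  intro z _
  have h1 : AnalyticAt ℝ (fun u : ℂ => starRingEnd ℂ u) z :=
    (Complex.conjCLE : ℂ →L[ℝ] ℂ).analyticAt z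
  exact AnalyticAt.fun_comp (an_ff hx _ (Set.mem_univ _)) h1

theorem half {Ω : Type} [MeasurableSpace Ω] (m : Measure Ω) [IsProbabilityMeasure m]
    (z : ℝ → Ω → ℂ) (u : Ω → ℂ) (hz : ∀ t, Measurable (z t)) (hu : Measurable u)
    (h1 : ∀ t, ∀ᵐ ω ∂m, ‖z t ω‖ = 1) (h2 : ∀ᵐ ω ∂m, ‖u ω‖ = 1) (w : ℝ → ℝ) (hw : ∀ t, 0 < w t)
    (h : ∀ x y : ℕ → ℂ, Summable (fun k => ‖x k‖) → Summable (fun l => ‖y l‖) →
      ∃ K : ℝ, ∀ t ≥ (1:ℝ), ‖∫ ω, ff x (z t ω) * ff y (u ω) ∂m‖ ≤ K * w t) :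
    ∃ K : ℝ, ∀ t ≥ (1:ℝ), ∀ L : ℕ, 1 ≤ L →
      ‖∫ ω, z t ω ^ L * (u ω) ^ L ∂m‖ ≤ K * (L.factorial : ℝ) ^ 2 * w t := by
  have hf1 : ∀ k : ℕ, (1 : ℝ) ≤ (k.factorial : ℝ) := fun k => by
    exact_mod_cast Nat.one_le_iff_ne_zero.2 (Nat.factorial_ne_zero k)
  have hI : ∀ t (k l : ℕ), ‖∫ ω, z t ω ^ (k+1) * u ω ^ (l+1) ∂m‖ ≤ 1 := by
    intro t k l
    have := norm_integral_le_of_norm_le_const (μ := m)
      (f := fun ω => z t ω ^ (k+1) * u ω ^ (l+1)) (C := 1) (by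
        filter_upwards [h1 t, h2] with ω e1 e2
        rw [norm_mul, norm_pow, norm_pow, e1, e2, one_pow, one_pow, one_mul])
    simpa using this
  obtain ⟨K, hK⟩ := uniform_bound
    (fun t k l => (∫ ω, z t ω ^ (k+1) * u ω ^ (l+1) ∂m) /
      (((k+1).factorial : ℂ) * ((l+1).factorial : ℂ)))
    (fun t k l => by
      rw [norm_div, norm_mul, Complex.norm_natCast, Complex.norm_natCast,
        div_le_one (by have := hf1 (k+1); have := hf1 (l+1); positivity)]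
      refine (hI t k l).trans ?_
      nlinarith [hf1 (k+1), hf1 (l+1)])
    w hw (fun x y hx hy => by
      obtain ⟨K, hK⟩ := h x y hx hy
      refine ⟨K, fun t ht => ?_⟩
      have e := int_series m (hz t) hu (h1 t) h2 (dv x) (dv y) (summable_dv hx) (summable_dv hy)
      have h3 := hK t ht
      unfold ff at h3
      rw [e] at h3
      convert h3 using 6 with k l
      rw [dv, dv, Nat.factorial_succ, Nat.factorial_succ]
      push_cast
      have h4 : ((k.factorial : ℕ) : ℂ) ≠ 0 := by exact_mod_cast Nat.factorial_ne_zero k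
      have h5 : ((l.factorial : ℕ) : ℂ) ≠ 0 := by exact_mod_cast Nat.factorial_ne_zero l
      have h6 : ((k : ℂ) + 1) ≠ 0 := by exact_mod_cast Nat.succ_ne_zero k
      have h7 : ((l : ℂ) + 1) ≠ 0 := by exact_mod_cast Nat.succ_ne_zero l
      field_simp)
  refine ⟨K, fun t ht L hL => ?_⟩
  obtain ⟨k, rfl⟩ : ∃ k, L = k + 1 := ⟨L - 1, by omega⟩
  have h3 := hK t ht k k
  have h4 := hf1 (k+1)
  rw [norm_div, norm_mul, Complex.norm_natCast, div_le_iff₀ (by positivity)] at h3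
  calc ‖∫ ω, z t ω ^ (k+1) * u ω ^ (k+1) ∂m‖
      ≤ K * w t * (((k+1).factorial : ℝ) * ((k+1).factorial : ℝ)) := h3
    _ = K * ((k+1).factorial : ℝ) ^ 2 * w t := by ring

end GENA

/-- ROW GENA -/
theorem gen_analytic {Ω : Type} [MeasurableSpace Ω] (m : Measure Ω) [IsProbabilityMeasure m]
    (z : ℝ → Ω → ℂ) (v : Ω → ℂ) (hz : ∀ t, Measurable (z t)) (hv : Measurable v)
    (h1 : ∀ t, ∀ᵐ ω ∂m, ‖z t ω‖ = 1) (h2 : ∀ᵐ ω ∂m, ‖v ω‖ = 1) (w : ℝ → ℝ) (hw : ∀ t, 0 < w t)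
    (h : ∀ f g : ℂ → ℂ, AnalyticOnNhd ℝ f Set.univ → AnalyticOnNhd ℝ g Set.univ →
      ∃ K : ℝ, ∀ t ≥ (1:ℝ), ‖∫ ω, f (z t ω) * g (v ω) ∂m -
        (∫ u, f u ∂Vale.Agent.P099.nu) * ∫ u, g u ∂Vale.Agent.P099.nu‖ ≤ K * w t) :
    ∃ K : ℝ, ∀ t ≥ (1:ℝ), ∀ L : ℕ, 1 ≤ L →
      ‖∫ ω, z t ω ^ L * (starRingEnd ℂ (v ω)) ^ L ∂m‖ + ‖∫ ω, z t ω ^ L * v ω ^ L ∂m‖ ≤
        K * (L.factorial : ℝ) ^ 2 * w t := by
  have hmean : ∀ x : ℕ → ℂ, Summable (fun k => ‖x k‖) →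
      ∫ u, GENA.ff x u ∂Vale.Agent.P099.nu = 0 := fun x hx => meanF _ (GENA.summable_dv hx)
  obtain ⟨K1, hK1⟩ := GENA.half m z (fun ω => starRingEnd ℂ (v ω)) hz
    (Complex.continuous_conj.measurable.comp hv) h1 (by
      filter_upwards [h2] with ω e
      rw [RCLike.norm_conj, e]) w hw (fun x y hx hy => by
      obtain ⟨K, hK⟩ := h (GENA.ff x) (fun u => GENA.ff y (starRingEnd ℂ u)) (GENA.an_ff hx)
        (GENA.an_conj hy)
      refine ⟨K, fun t ht => ?_⟩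
      have := hK t ht
      rw [hmean x hx, zero_mul, sub_zero] at this
      exact this)
  obtain ⟨K2, hK2⟩ := GENA.half m z v hz hv h1 h2 w hw (fun x y hx hy => by
      obtain ⟨K, hK⟩ := h (GENA.ff x) (GENA.ff y) (GENA.an_ff hx) (GENA.an_ff hy)
      refine ⟨K, fun t ht => ?_⟩
      have := hK t ht
      rw [hmean x hx, zero_mul, sub_zero] at this
      exact this)
  refine ⟨K1 + K2, fun t ht L hL => ?_⟩
  have e1 := hK1 t ht L hL
  have e2 := hK2 t ht L hL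
  linarith

end Vale.Agent.P099.R2.H525
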