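import Vale.Agent.P099.R2.H525.GEN_helper16

set_option autoImplicit false

open MeasureTheory

namespace Vale.Agent.P099.R2.H525

namespace GENA422

/-- the entire function of a summable sequence -/
noncomputable def ent (x : ℕ → ℂ) (u : ℂ) : ℂ :=
  ∑' k, (x k / (k.factorial : ℂ)) * (u ^ (k+1) / (k+1))

theorem norm_div_fact (a : ℂ) (k : ℕ) : ‖a / (k.factorial : ℂ)‖ ≤ ‖a‖ := by
  rw [norm_div, Complex.norm_natCast]
  exact div_le_self (norm_nonneg _) (by exact_mod_cast Nat.succ_le_of_lt k.factorial_pos)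

theorem summable_div {x : ℕ → ℂ} (hx : Summable fun k => ‖x k‖) :
    Summable fun k => ‖x k / (k.factorial : ℂ)‖ :=
  Summable.of_nonneg_of_le (fun _ => norm_nonneg _) (fun k => norm_div_fact _ k) hx

theorem ent_differentiable {x : ℕ → ℂ} (hx : Summable fun k => ‖x k‖) :
    Differentiable ℂ (ent x) := by
  intro u₀
  set R : ℝ := ‖u₀‖ + 1 with hR
  have hR0 : 0 ≤ R := by positivity
  have h : DifferentiableOn ℂ (fun u : ℂ => ∑' k, (x k / (k.factorial : ℂ)) *
      (u ^ (k+1) / (k+1))) (Metric.ball 0 R) := by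
    refine Complex.differentiableOn_tsum_of_summable_norm (u := fun k => ‖x k‖ * Real.exp R)
      (hx.mul_right _) (fun k => ?_) Metric.isOpen_ball (fun k u hu => ?_)
    · exact (((differentiable_id.pow _).div_const _).const_mul _).differentiableOn
    · have hu' : ‖u‖ ≤ R := by
        have := mem_ball_zero_iff.1 hu
        exact this.le
      have e : (x k / (k.factorial : ℂ)) * (u ^ (k+1) / (k+1)) =
          x k * (u ^ (k+1) / ((k+1).factorial : ℂ)) := by
        rw [Nat.factorial_succ]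
        push_cast
        have h1 : (k.factorial : ℂ) ≠ 0 := by exact_mod_cast k.factorial_ne_zero
        have h2 : ((k : ℂ) + 1) ≠ 0 := by exact_mod_cast Nat.succ_ne_zero k
        field_simp
      rw [e, norm_mul, norm_div, norm_pow, Complex.norm_natCast]
      refine mul_le_mul_of_nonneg_left ?_ (norm_nonneg _)
      calc ‖u‖ ^ (k+1) / ((k+1).factorial : ℝ) ≤ R ^ (k+1) / ((k+1).factorial : ℝ) := by
            gcongr
        _ ≤ Real.exp R := Real.pow_div_factorial_le_exp R hR0 _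
  exact (h.differentiableAt (Metric.isOpen_ball.mem_nhds (by
    rw [mem_ball_zero_iff, hR]
    linarith)))

theorem ent_analytic {x : ℕ → ℂ} (hx : Summable fun k => ‖x k‖) :
    AnalyticOnNhd ℝ (ent x) Set.univ := by
  intro u _
  exact ((ent_differentiable hx).analyticAt u).restrictScalars

theorem ent_conj_analytic {x : ℕ → ℂ} (hx : Summable fun k => ‖x k‖) :
    AnalyticOnNhd ℝ (fun u => ent x (starRingEnd ℂ u)) Set.univ := by
  intro u _
  have h1 : AnalyticAt ℝ (fun u : ℂ => Complex.conjCLE u) u :=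
    (Complex.conjCLE : ℂ →L[ℝ] ℂ).analyticAt u
  have h2 : AnalyticAt ℝ (ent x) (Complex.conjCLE u) := ent_analytic hx _ trivial
  exact h2.comp h1

theorem gen_half_analytic {Ω : Type} [MeasurableSpace Ω] (m : Measure Ω) [IsProbabilityMeasure m]
    (z : ℝ → Ω → ℂ) (u : Ω → ℂ) (hz : ∀ t, Measurable (z t)) (hu : Measurable u)
    (h1 : ∀ t, ∀ᵐ ω ∂m, ‖z t ω‖ = 1) (h2 : ∀ᵐ ω ∂m, ‖u ω‖ = 1) (w : ℝ → ℝ) (hw : ∀ t, 0 < w t)
    (h : ∀ x y : ℕ → ℂ, Summable (fun k => ‖x k‖) → Summable (fun l => ‖y l‖) →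
      ∃ K : ℝ, ∀ t ≥ (1:ℝ), ‖∫ ω, ent x (z t ω) * ent y (u ω) ∂m‖ ≤ K * w t) :
    ∃ K : ℝ, ∀ t ≥ (1:ℝ), ∀ L : ℕ, 1 ≤ L →
      ‖∫ ω, z t ω ^ L * (u ω) ^ L ∂m‖ ≤ K * (L.factorial : ℝ) ^ 2 * w t := by
  have hI : ∀ t (k l : ℕ), ‖∫ ω, z t ω ^ (k+1) * u ω ^ (l+1) ∂m‖ ≤ 1 := by
    intro t k l
    have := norm_integral_le_of_norm_le_const (μ := m)
      (f := fun ω => z t ω ^ (k+1) * u ω ^ (l+1)) (C := 1) (by
        filter_upwards [h1 t, h2] with ω e1 e2
        rw [norm_mul, norm_pow, norm_pow, e1, e2, one_pow, one_pow, one_mul])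
    simpa using this
  have hf : ∀ k : ℕ, (1 : ℝ) ≤ ((k+1).factorial : ℝ) := fun k => by
    exact_mod_cast Nat.succ_le_of_lt (k+1).factorial_pos
  obtain ⟨K, hK⟩ := uniform_bound
    (fun t k l => (∫ ω, z t ω ^ (k+1) * u ω ^ (l+1) ∂m) /
      (((k+1).factorial : ℂ) * ((l+1).factorial : ℂ)))
    (fun t k l => by
      rw [norm_div, norm_mul, Complex.norm_natCast, Complex.norm_natCast,
        div_le_one (by positivity)]
      exact (hI t k l).trans (one_le_mul_of_one_le_of_one_le (hf k) (hf l)))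
    w hw (fun x y hx hy => by
      obtain ⟨K, hK⟩ := h x y hx hy
      refine ⟨K, fun t ht => ?_⟩
      have e := int_series m (hz t) hu (h1 t) h2 (fun k => x k / (k.factorial : ℂ))
        (fun l => y l / (l.factorial : ℂ)) (summable_div hx) (summable_div hy)
      have := hK t ht
      unfold ent at this
      rw [e] at this
      refine le_trans (le_of_eq ?_) this
      congr 1
      refine tsum_congr fun k => tsum_congr fun l => ?_
      rw [Nat.factorial_succ, Nat.factorial_succ]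
      push_cast
      have a1 : (k.factorial : ℂ) ≠ 0 := by exact_mod_cast k.factorial_ne_zero
      have a2 : ((k : ℂ) + 1) ≠ 0 := by exact_mod_cast Nat.succ_ne_zero k
      have a3 : (l.factorial : ℂ) ≠ 0 := by exact_mod_cast l.factorial_ne_zero
      have a4 : ((l : ℂ) + 1) ≠ 0 := by exact_mod_cast Nat.succ_ne_zero l
      field_simp)
  refine ⟨K, fun t ht L hL => ?_⟩
  obtain ⟨k, rfl⟩ : ∃ k, L = k + 1 := ⟨L - 1, by omega⟩
  have := hK t ht k k
  rw [norm_div, norm_mul, Complex.norm_natCast, div_le_iff₀ (by positivity)] at this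
  linarith

theorem mean_ent {x : ℕ → ℂ} (hx : Summable fun k => ‖x k‖) :
    ∫ u, ent x u ∂Vale.Agent.P099.nu = 0 :=
  meanF (fun k => x k / (k.factorial : ℂ)) (summable_div hx)

end GENA422

open GENA422 in
theorem gen_analytic {Ω : Type} [MeasurableSpace Ω] (m : Measure Ω) [IsProbabilityMeasure m]
    (z : ℝ → Ω → ℂ) (v : Ω → ℂ) (hz : ∀ t, Measurable (z t)) (hv : Measurable v)
    (h1 : ∀ t, ∀ᵐ ω ∂m, ‖z t ω‖ = 1) (h2 : ∀ᵐ ω ∂m, ‖v ω‖ = 1) (w : ℝ → ℝ) (hw : ∀ t, 0 < w t)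
    (h : ∀ f g : ℂ → ℂ, AnalyticOnNhd ℝ f Set.univ → AnalyticOnNhd ℝ g Set.univ →
      ∃ K : ℝ, ∀ t ≥ (1:ℝ), ‖∫ ω, f (z t ω) * g (v ω) ∂m -
        (∫ u, f u ∂Vale.Agent.P099.nu) * ∫ u, g u ∂Vale.Agent.P099.nu‖ ≤ K * w t) :
    ∃ K : ℝ, ∀ t ≥ (1:ℝ), ∀ L : ℕ, 1 ≤ L →
      ‖∫ ω, z t ω ^ L * (starRingEnd ℂ (v ω)) ^ L ∂m‖ + ‖∫ ω, z t ω ^ L * v ω ^ L ∂m‖ ≤
        K * (L.factorial : ℝ) ^ 2 * w t := by
  obtain ⟨K1, hK1⟩ := gen_half_analytic m z (fun ω => starRingEnd ℂ (v ω)) hz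
    (Complex.continuous_conj.measurable.comp hv) h1 (by
      filter_upwards [h2] with ω e
      rw [RCLike.norm_conj, e]) w hw (fun x y hx hy => by
      obtain ⟨K, hK⟩ := h (ent x) (fun u : ℂ => ent y (starRingEnd ℂ u)) (ent_analytic hx)
        (ent_conj_analytic hy)
      refine ⟨K, fun t ht => ?_⟩
      have := hK t ht
      rw [mean_ent hx, zero_mul, sub_zero] at this
      exact this)
  obtain ⟨K2, hK2⟩ := gen_half_analytic m z v hz hv h1 h2 w hw (fun x y hx hy => by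
      obtain ⟨K, hK⟩ := h (ent x) (ent y) (ent_analytic hx) (ent_analytic hy)
      refine ⟨K, fun t ht => ?_⟩
      have := hK t ht
      rw [mean_ent hx, zero_mul, sub_zero] at this
      exact this)
  refine ⟨K1 + K2, fun t ht L hL => ?_⟩
  have e1 := hK1 t ht L hL
  have e2 := hK2 t ht L hL
  linarith

end Vale.Agent.P099.R2.H525
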