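import Vale.Agent.P099.R2.H525.GEN_helper16

set_option autoImplicit false

open MeasureTheory

namespace Vale.Agent.P099.R2.H525

namespace A605

theorem term_norm_le {R : ℝ} (hR : 0 ≤ R) {a u : ℂ} (hu : ‖u‖ ≤ R) (k : ℕ) :
    ‖a / (k.factorial : ℂ) * (u ^ (k + 1) / ((k : ℂ) + 1))‖ ≤ ‖a‖ * Real.exp R := by
  have e : a / (k.factorial : ℂ) * (u ^ (k + 1) / ((k : ℂ) + 1)) =
      a * (u ^ (k + 1) / ((k + 1).factorial : ℂ)) := by
    rw [Nat.factorial_succ]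
    push_cast
    have h1 : (k.factorial : ℂ) ≠ 0 := by exact_mod_cast k.factorial_ne_zero
    have h2 : ((k : ℂ) + 1) ≠ 0 := by exact_mod_cast Nat.succ_ne_zero k
    field_simp
  rw [e, norm_mul, norm_div, norm_pow]
  refine mul_le_mul_of_nonneg_left ?_ (norm_nonneg _)
  have h3 : ‖(((k + 1).factorial : ℕ) : ℂ)‖ = ((k + 1).factorial : ℝ) := by
    rw [Complex.norm_natCast]
  rw [h3]
  calc ‖u‖ ^ (k + 1) / ((k + 1).factorial : ℝ) ≤ R ^ (k + 1) / ((k + 1).factorial : ℝ) := by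
        gcongr
    _ ≤ Real.exp R := Real.pow_div_factorial_le_exp R hR (k + 1)

theorem analytic_series (x : ℕ → ℂ) (hx : Summable fun k => ‖x k‖) :
    AnalyticOnNhd ℝ (fun u : ℂ => ∑' k, x k / (k.factorial : ℂ) * (u ^ (k+1) / (k+1)))
      Set.univ := by
  intro c _
  set R : ℝ := ‖c‖ + 1 with hR
  have hR0 : 0 ≤ R := by positivity
  have hd : DifferentiableOn ℂ
      (fun u : ℂ => ∑' k, x k / (k.factorial : ℂ) * (u ^ (k+1) / (k+1))) (Metric.ball 0 R) := by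
    refine Complex.differentiableOn_tsum_of_summable_norm (u := fun k => ‖x k‖ * Real.exp R)
      (hx.mul_right _) (fun k => ?_) Metric.isOpen_ball (fun k u hu => ?_)
    · fun_prop
    · exact term_norm_le hR0 (mem_ball_zero_iff.1 hu).le k
  have hc : Metric.ball (0 : ℂ) R ∈ nhds c := by
    refine Metric.isOpen_ball.mem_nhds ?_
    rw [mem_ball_zero_iff, hR]
    linarith
  exact (hd.analyticAt hc).restrictScalars

theorem gen_half_fact {Ω : Type} [MeasurableSpace Ω] (m : Measure Ω) [IsProbabilityMeasure m]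
    (z : ℝ → Ω → ℂ) (u : Ω → ℂ) (hz : ∀ t, Measurable (z t)) (hu : Measurable u)
    (h1 : ∀ t, ∀ᵐ ω ∂m, ‖z t ω‖ = 1) (h2 : ∀ᵐ ω ∂m, ‖u ω‖ = 1) (w : ℝ → ℝ) (hw : ∀ t, 0 < w t)
    (h : ∀ x y : ℕ → ℂ, Summable (fun k => ‖x k‖) → Summable (fun l => ‖y l‖) →
      ∃ K : ℝ, ∀ t ≥ (1:ℝ),
        ‖∫ ω, (∑' k, x k / (k.factorial : ℂ) * (z t ω ^ (k+1) / (k+1))) *
        (∑' l, y l / (l.factorial : ℂ) * (u ω ^ (l+1) / (l+1))) ∂m‖ ≤ K * w t) :
    ∃ K : ℝ, ∀ t ≥ (1:ℝ), ∀ L : ℕ, 1 ≤ L →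
      ‖∫ ω, z t ω ^ L * (u ω) ^ L ∂m‖ ≤ K * (L.factorial : ℝ) ^ 2 * w t := by
  have hn : ∀ k : ℕ, ‖((k.factorial : ℕ) : ℂ)‖ = (k.factorial : ℝ) := fun k => by
    rw [Complex.norm_natCast]
  have hf1 : ∀ k : ℕ, (1 : ℝ) ≤ (k.factorial : ℝ) := fun k => by
    exact_mod_cast Nat.one_le_iff_ne_zero.2 k.factorial_ne_zero
  have hI : ∀ t (k l : ℕ), ‖∫ ω, z t ω ^ (k+1) * u ω ^ (l+1) ∂m‖ ≤ 1 := by
    intro t k l
    have := norm_integral_le_of_norm_le_const (μ := m)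
      (f := fun ω => z t ω ^ (k+1) * u ω ^ (l+1)) (C := 1) (by
        filter_upwards [h1 t, h2] with ω e1 e2
        rw [norm_mul, norm_pow, norm_pow, e1, e2, one_pow, one_pow, one_mul])
    simpa using this
  have hsum : ∀ x : ℕ → ℂ, Summable (fun k => ‖x k‖) →
      Summable (fun k => ‖x k / (k.factorial : ℂ)‖) := by
    intro x hx
    refine Summable.of_nonneg_of_le (fun _ => norm_nonneg _) (fun k => ?_) hx
    rw [norm_div, hn]
    exact div_le_self (norm_nonneg _) (hf1 k)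
  obtain ⟨K, hK⟩ := uniform_bound
    (fun t k l => (∫ ω, z t ω ^ (k+1) * u ω ^ (l+1) ∂m) /
      (((k+1).factorial : ℂ) * ((l+1).factorial : ℂ)))
    (fun t k l => by
      have h3 := hf1 (k + 1)
      have h4 := hf1 (l + 1)
      rw [norm_div, norm_mul, hn, hn, div_le_one (by positivity)]
      refine (hI t k l).trans ?_
      nlinarith)
    w hw (fun x y hx hy => by
      obtain ⟨K, hK⟩ := h x y hx hy
      refine ⟨K, fun t ht => ?_⟩
      have e := int_series m (hz t) hu (h1 t) h2 (fun k => x k / (k.factorial : ℂ))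
        (fun k => y k / (k.factorial : ℂ)) (hsum x hx) (hsum y hy)
      have h5 := hK t ht
      rw [e] at h5
      refine le_of_eq_of_le ?_ h5
      congr 1
      refine tsum_congr fun k => tsum_congr fun l => ?_
      rw [Nat.factorial_succ, Nat.factorial_succ]
      push_cast
      have h6 : (k.factorial : ℂ) ≠ 0 := by exact_mod_cast k.factorial_ne_zero
      have h7 : ((k : ℂ) + 1) ≠ 0 := by exact_mod_cast Nat.succ_ne_zero k
      have h8 : (l.factorial : ℂ) ≠ 0 := by exact_mod_cast l.factorial_ne_zero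
      have h9 : ((l : ℂ) + 1) ≠ 0 := by exact_mod_cast Nat.succ_ne_zero l
      field_simp)
  refine ⟨K, fun t ht L hL => ?_⟩
  obtain ⟨k, rfl⟩ : ∃ k, L = k + 1 := ⟨L - 1, by omega⟩
  have h3 := hf1 (k + 1)
  have := hK t ht k k
  rw [norm_div, norm_mul, hn, div_le_iff₀ (by positivity)] at this
  linarith

end A605

theorem gen_analytic {Ω : Type} [MeasurableSpace Ω] (m : Measure Ω) [IsProbabilityMeasure m]
    (z : ℝ → Ω → ℂ) (v : Ω → ℂ) (hz : ∀ t, Measurable (z t)) (hv : Measurable v)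
    (h1 : ∀ t, ∀ᵐ ω ∂m, ‖z t ω‖ = 1) (h2 : ∀ᵐ ω ∂m, ‖v ω‖ = 1) (w : ℝ → ℝ) (hw : ∀ t, 0 < w t)
    (h : ∀ f g : ℂ → ℂ, AnalyticOnNhd ℝ f Set.univ → AnalyticOnNhd ℝ g Set.univ →
      ∃ K : ℝ, ∀ t ≥ (1:ℝ), ‖∫ ω, f (z t ω) * g (v ω) ∂m -
        (∫ u, f u ∂Vale.Agent.P099.nu) * ∫ u, g u ∂Vale.Agent.P099.nu‖ ≤ K * w t) :
    ∃ K : ℝ, ∀ t ≥ (1:ℝ), ∀ L : ℕ, 1 ≤ L →
      ‖∫ ω, z t ω ^ L * (starRingEnd ℂ (v ω)) ^ L ∂m‖ + ‖∫ ω, z t ω ^ L * v ω ^ L ∂m‖ ≤
        K * (L.factorial : ℝ) ^ 2 * w t := by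
  have hsum : ∀ x : ℕ → ℂ, Summable (fun k => ‖x k‖) →
      Summable (fun k => ‖x k / (k.factorial : ℂ)‖) := by
    intro x hx
    refine Summable.of_nonneg_of_le (fun _ => norm_nonneg _) (fun k => ?_) hx
    rw [norm_div, Complex.norm_natCast]
    exact div_le_self (norm_nonneg _)
      (by exact_mod_cast Nat.one_le_iff_ne_zero.2 k.factorial_ne_zero)
  obtain ⟨K1, hK1⟩ := A605.gen_half_fact m z (fun ω => starRingEnd ℂ (v ω)) hz
    (Complex.continuous_conj.measurable.comp hv) h1 (by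
      filter_upwards [h2] with ω e
      rw [RCLike.norm_conj, e]) w hw (fun x y hx hy => by
      obtain ⟨K, hK⟩ := h (fun u : ℂ => ∑' k, x k / (k.factorial : ℂ) * (u ^ (k+1) / (k+1)))
        (fun u : ℂ => ∑' l, y l / (l.factorial : ℂ) * ((starRingEnd ℂ u) ^ (l+1) / (l+1)))
        (A605.analytic_series x hx) (fun c _ => by
          have e1 := A605.analytic_series y hy (starRingEnd ℂ c) (Set.mem_univ _)
          have e2 : AnalyticAt ℝ (fun u : ℂ => starRingEnd ℂ u) c :=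
            (Complex.conjCLE : ℂ →L[ℝ] ℂ).analyticAt c
          exact AnalyticAt.comp' (f := fun u : ℂ => starRingEnd ℂ u) e1 e2)
      refine ⟨K, fun t ht => ?_⟩
      have := hK t ht
      rw [meanF (fun k => x k / (k.factorial : ℂ)) (hsum x hx), zero_mul, sub_zero] at this
      exact this)
  obtain ⟨K2, hK2⟩ := A605.gen_half_fact m z v hz hv h1 h2 w hw (fun x y hx hy => by
      obtain ⟨K, hK⟩ := h (fun u : ℂ => ∑' k, x k / (k.factorial : ℂ) * (u ^ (k+1) / (k+1)))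
        (fun u : ℂ => ∑' l, y l / (l.factorial : ℂ) * (u ^ (l+1) / (l+1)))
        (A605.analytic_series x hx) (A605.analytic_series y hy)
      refine ⟨K, fun t ht => ?_⟩
      have := hK t ht
      rw [meanF (fun k => x k / (k.factorial : ℂ)) (hsum x hx), zero_mul, sub_zero] at this
      exact this)
  refine ⟨K1 + K2, fun t ht L hL => ?_⟩
  have e1 := hK1 t ht L hL
  have e2 := hK2 t ht L hL
  linarith

end Vale.Agent.P099.R2.H525
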