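import Vale.Agent.P099.R2.H525.BS_helper16
import Vale.Agent.P099.R2.H525.INT_helper54
import Vale.Agent.P099.R2.H525.RowLM_helper665

/-!
# P099.RateOfMixing, row GENA: the analytic version of GEN (helper875)
-/

set_option autoImplicit false

open MeasureTheory

namespace Vale.Agent.P099.R2.H525

theorem fac_term (a s : ℂ) (k : ℕ) :
    a / (k.factorial : ℂ) * (s / ((k : ℂ) + 1)) = a * (s / ((k + 1).factorial : ℂ)) := by
  have h1 : (k.factorial : ℂ) ≠ 0 := Nat.cast_ne_zero.2 k.factorial_ne_zero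
  have h2 : ((k : ℂ) + 1) ≠ 0 := Nat.cast_add_one_ne_zero k
  rw [Nat.factorial_succ]
  push_cast
  field_simp

theorem fac_summable {x : ℕ → ℂ} (hx : Summable fun k => ‖x k‖) :
    Summable fun k => ‖x k / (k.factorial : ℂ)‖ := by
  refine Summable.of_nonneg_of_le (fun k => norm_nonneg _) (fun k => ?_) hx
  rw [norm_div, Complex.norm_natCast]
  refine div_le_self (norm_nonneg _) ?_
  exact_mod_cast Nat.one_le_iff_ne_zero.2 k.factorial_ne_zero

theorem fac_diff {x : ℕ → ℂ} (hx : Summable fun k => ‖x k‖) :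
    Differentiable ℂ (fun u : ℂ => ∑' k, x k * (u ^ (k+1) / ((k+1).factorial : ℂ))) := by
  intro u₀
  set R : ℝ := ‖u₀‖ + 1 with hR
  have h0 : 0 ≤ R := by positivity
  have h : DifferentiableOn ℂ (fun u : ℂ => ∑' k, x k * (u ^ (k+1) / ((k+1).factorial : ℂ)))
      (Metric.ball 0 R) := by
    refine Complex.differentiableOn_tsum_of_summable_norm (u := fun k => ‖x k‖ * Real.exp R)
      (hx.mul_right _) (fun k => ?_) Metric.isOpen_ball (fun k w hw => ?_)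
    · exact Differentiable.differentiableOn (by fun_prop)
    · rw [norm_mul, norm_div, norm_pow, Complex.norm_natCast]
      have hw' : ‖w‖ ≤ R := (mem_ball_zero_iff.1 hw).le
      have h1 : ‖w‖ ^ (k+1) / ((k+1).factorial : ℝ) ≤ R ^ (k+1) / ((k+1).factorial : ℝ) := by
        gcongr
      have h2 : R ^ (k+1) / ((k+1).factorial : ℝ) ≤ Real.exp R :=
        Real.pow_div_factorial_le_exp R h0 (k+1)
      gcongr
      exact h1.trans h2
  exact h.differentiableAt (Metric.isOpen_ball.mem_nhds (by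
    rw [mem_ball_zero_iff]
    linarith))

theorem fac_ana {x : ℕ → ℂ} (hx : Summable fun k => ‖x k‖) :
    AnalyticOnNhd ℝ (fun u : ℂ => ∑' k, x k * (u ^ (k+1) / ((k+1).factorial : ℂ))) Set.univ :=
  fun u _ => ((fac_diff hx).analyticAt u).restrictScalars

theorem fac_ana_conj {x : ℕ → ℂ} (hx : Summable fun k => ‖x k‖) :
    AnalyticOnNhd ℝ (fun u : ℂ => ∑' k, x k *
      ((starRingEnd ℂ u) ^ (k+1) / ((k+1).factorial : ℂ))) Set.univ := by
  intro u _
  have h1 : AnalyticAt ℝ (fun u : ℂ => starRingEnd ℂ u) u :=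
    (Complex.conjCLE : ℂ →L[ℝ] ℂ).analyticAt u
  exact AnalyticAt.fun_comp (g := fun u : ℂ => ∑' k, x k * (u ^ (k+1) / ((k+1).factorial : ℂ)))
    (fac_ana hx _ (Set.mem_univ _)) h1

theorem fac_mean {x : ℕ → ℂ} (hx : Summable fun k => ‖x k‖) :
    ∫ u, (∑' k, x k * (u ^ (k+1) / ((k+1).factorial : ℂ))) ∂Vale.Agent.P099.nu = 0 := by
  have := meanF (fun k => x k / (k.factorial : ℂ)) (fac_summable hx)
  simp only [fac_term] at this
  exact this

theorem gen_half_analytic {Ω : Type} [MeasurableSpace Ω] (m : Measure Ω) [IsProbabilityMeasure m]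
    (z : ℝ → Ω → ℂ) (u : Ω → ℂ) (hz : ∀ t, Measurable (z t)) (hu : Measurable u)
    (h1 : ∀ t, ∀ᵐ ω ∂m, ‖z t ω‖ = 1) (h2 : ∀ᵐ ω ∂m, ‖u ω‖ = 1) (w : ℝ → ℝ) (hw : ∀ t, 0 < w t)
    (h : ∀ x y : ℕ → ℂ, Summable (fun k => ‖x k‖) → Summable (fun l => ‖y l‖) →
      ∃ K : ℝ, ∀ t ≥ (1:ℝ), ‖∫ ω, (∑' k, x k * (z t ω ^ (k+1) / ((k+1).factorial : ℂ))) *
        (∑' l, y l * (u ω ^ (l+1) / ((l+1).factorial : ℂ))) ∂m‖ ≤ K * w t) :
    ∃ K : ℝ, ∀ t ≥ (1:ℝ), ∀ L : ℕ, 1 ≤ L →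
      ‖∫ ω, z t ω ^ L * (u ω) ^ L ∂m‖ ≤ K * (L.factorial : ℝ) ^ 2 * w t := by
  have hf1 : ∀ k : ℕ, (1:ℝ) ≤ ((k+1).factorial : ℝ) := fun k => by
    exact_mod_cast Nat.one_le_iff_ne_zero.2 (k+1).factorial_ne_zero
  have hI : ∀ t (k l : ℕ), ‖∫ ω, z t ω ^ (k+1) * u ω ^ (l+1) ∂m‖ ≤ 1 := by
    intro t k l
    have := norm_integral_le_of_norm_le_const (μ := m)
      (f := fun ω => z t ω ^ (k+1) * u ω ^ (l+1)) (C := 1) (by
        filter_upwards [h1 t, h2] with ω e1 e2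
        rw [norm_mul, norm_pow, norm_pow, e1, e2, one_pow, one_pow, one_mul])
    simpa using this
  obtain ⟨K, hK⟩ := uniform_bound
    (fun t k l => (∫ ω, z t ω ^ (k+1) * u ω ^ (l+1) ∂m) /
      (((k+1).factorial : ℂ) * ((l+1).factorial : ℂ)))
    (fun t k l => by
      rw [norm_div, norm_mul, Complex.norm_natCast, Complex.norm_natCast,
        div_le_one (by have := hf1 k; have := hf1 l; positivity)]
      refine (hI t k l).trans ?_
      have h3 := hf1 k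
      have h4 := hf1 l
      nlinarith)
    w hw (fun x y hx hy => by
      obtain ⟨K, hK⟩ := h x y hx hy
      refine ⟨K, fun t ht => ?_⟩
      have e := int_series m (hz t) hu (h1 t) h2 (fun k => x k / (k.factorial : ℂ))
        (fun l => y l / (l.factorial : ℂ)) (fac_summable hx) (fac_summable hy)
      simp only [fac_term] at e
      have e2 : (∑' k, ∑' l, x k / (k.factorial : ℂ) * (y l / (l.factorial : ℂ)) *
          ((∫ ω, z t ω ^ (k+1) * u ω ^ (l+1) ∂m) / (((k : ℂ)+1) * ((l : ℂ)+1)))) =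
          ∑' k, ∑' l, x k * y l * ((∫ ω, z t ω ^ (k+1) * u ω ^ (l+1) ∂m) /
            (((k+1).factorial : ℂ) * ((l+1).factorial : ℂ))) := by
        refine tsum_congr fun k => tsum_congr fun l => ?_
        have a1 : (k.factorial : ℂ) ≠ 0 := Nat.cast_ne_zero.2 k.factorial_ne_zero
        have a2 : ((k : ℂ) + 1) ≠ 0 := Nat.cast_add_one_ne_zero k
        have a3 : (l.factorial : ℂ) ≠ 0 := Nat.cast_ne_zero.2 l.factorial_ne_zero
        have a4 : ((l : ℂ) + 1) ≠ 0 := Nat.cast_add_one_ne_zero l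
        rw [Nat.factorial_succ, Nat.factorial_succ]
        push_cast
        field_simp
      have := hK t ht
      rw [e, e2] at this
      exact this)
  refine ⟨K, fun t ht L hL => ?_⟩
  obtain ⟨k, rfl⟩ : ∃ k, L = k + 1 := ⟨L - 1, by omega⟩
  have := hK t ht k k
  have h5 := hf1 k
  rw [norm_div, norm_mul, Complex.norm_natCast, div_le_iff₀ (by positivity)] at this
  linarith

theorem gen_analytic {Ω : Type} [MeasurableSpace Ω] (m : Measure Ω) [IsProbabilityMeasure m]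
    (z : ℝ → Ω → ℂ) (v : Ω → ℂ) (hz : ∀ t, Measurable (z t)) (hv : Measurable v)
    (h1 : ∀ t, ∀ᵐ ω ∂m, ‖z t ω‖ = 1) (h2 : ∀ᵐ ω ∂m, ‖v ω‖ = 1) (w : ℝ → ℝ) (hw : ∀ t, 0 < w t)
    (h : ∀ f g : ℂ → ℂ, AnalyticOnNhd ℝ f Set.univ → AnalyticOnNhd ℝ g Set.univ →
      ∃ K : ℝ, ∀ t ≥ (1:ℝ), ‖∫ ω, f (z t ω) * g (v ω) ∂m -
        (∫ u, f u ∂Vale.Agent.P099.nu) * ∫ u, g u ∂Vale.Agent.P099.nu‖ ≤ K * w t) :
    ∃ K : ℝ, ∀ t ≥ (1:ℝ), ∀ L : ℕ, 1 ≤ L →
      ‖∫ ω, z t ω ^ L * (starRingEnd ℂ (v ω)) ^ L ∂m‖ + ‖∫ ω, z t ω ^ L * v ω ^ L ∂m‖ ≤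
        K * (L.factorial : ℝ) ^ 2 * w t := by
  obtain ⟨K1, hK1⟩ := gen_half_analytic m z (fun ω => starRingEnd ℂ (v ω)) hz
    (Complex.continuous_conj.measurable.comp hv) h1 (by
      filter_upwards [h2] with ω e
      rw [RCLike.norm_conj, e]) w hw (fun x y hx hy => by
      obtain ⟨K, hK⟩ := h (fun u : ℂ => ∑' k, x k * (u ^ (k+1) / ((k+1).factorial : ℂ)))
        (fun u : ℂ => ∑' l, y l * ((starRingEnd ℂ u) ^ (l+1) / ((l+1).factorial : ℂ)))
        (fac_ana hx) (fac_ana_conj hy)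
      refine ⟨K, fun t ht => ?_⟩
      have := hK t ht
      rw [fac_mean hx, zero_mul, sub_zero] at this
      exact this)
  obtain ⟨K2, hK2⟩ := gen_half_analytic m z v hz hv h1 h2 w hw (fun x y hx hy => by
      obtain ⟨K, hK⟩ := h (fun u : ℂ => ∑' k, x k * (u ^ (k+1) / ((k+1).factorial : ℂ)))
        (fun u : ℂ => ∑' l, y l * (u ^ (l+1) / ((l+1).factorial : ℂ))) (fac_ana hx) (fac_ana hy)
      refine ⟨K, fun t ht => ?_⟩
      have := hK t ht
      rw [fac_mean hx, zero_mul, sub_zero] at this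
      exact this)
  refine ⟨K1 + K2, fun t ht L hL => ?_⟩
  have e1 := hK1 t ht L hL
  have e2 := hK2 t ht L hL
  linarith

end Vale.Agent.P099.R2.H525
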