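import Vale.Agent.P099.R2.H525.Final
import Vale.Agent.P099.R2.H717R.Generic

set_option linter.all false

open MeasureTheory Set Filter Topology

namespace Vale.Agent.P099.R2.H525

open Vale.Agent.P099 Vale.Agent.P099T

/-- (3 generic): the triangles `0, 1, z` with the rate `φ` form a meagre set -/
theorem generic_no_rate (φ : ℝ → ℝ) (hφ : ∀ t, 0 < φ t) (hlim : Tendsto φ atTop (𝓝 0)) :
    IsMeagre {z : ℂ | ∃ T : Triangle, T.P 0 = 0 ∧ T.P 1 = 1 ∧ T.P 2 = z ∧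
      ∃ Φ : ℝ → ℂ × ℂ → ℂ × ℂ, T.IsBilliardFlow Φ ∧
        ∀ f g : ℂ → ℂ, Ana f → Ana g → ∃ K : ℝ, ∀ t ≥ (1 : ℝ),
          ‖corr T.mu Φ f g t‖ ≤ K * φ t} := by
  obtain ⟨ψ, hψ, hmain⟩ := no_rate_of φ hφ hlim
  refine (Vale.Agent.P099.R2.H717R.generic ψ hψ).mono ?_
  rintro z ⟨T, h0, h1, h2, Φ, hΦ, h⟩ hcon
  refine hmain T (fun n => ?_) Φ hΦ h
  obtain ⟨L, hL, hL1, h3⟩ := hcon n
  exact ⟨L, hL, hL1, fun i => (h3 T h0 h1 h2 i).le⟩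

end Vale.Agent.P099.R2.H525
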