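import Vale.Agent.P099.R2.H525.Gen3

set_option linter.all false

open MeasureTheory Set Filter Topology

namespace Vale.Agent.P099.R2.H525

open Vale.Agent.P099 Vale.Agent.P099T

variable {N : ℕ}

/-- every rate of mixing of the Lipschitz functions of the direction is at least a power -/
theorem rate_lower (T : PolygonalTable N) {Φ : ℝ → ℂ × ℂ → ℂ × ℂ} (hΦ : T.IsBilliardFlow Φ)
    (φ : ℝ → ℝ) (hφ : ∀ t, 0 < φ t)
    (h : ∀ f g : ℂ → ℂ, Lip f → Lip g → ∃ K : ℝ, ∀ t ≥ (1 : ℝ), ‖corr T.mu Φ f g t‖ ≤ K * φ t) :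
    ∃ c : ℝ, 0 < c ∧ ∀ t ≥ (1 : ℝ), c / t ^ (2 * (N - 1)) ≤ φ t := by
  obtain ⟨C, hC, hnd⟩ := nodecay T
  obtain ⟨K, hK⟩ := gen_table T hΦ φ hφ h
  refine ⟨1 / (2 * (|K| + 1) * C ^ 2), by positivity, fun t ht => ?_⟩
  have ht0 : 0 < t := by linarith
  obtain ⟨L, hL1, hL2, hL3⟩ := hnd Φ hΦ t ht
  have h1 := hK t ht L hL1
  have h2 : (L : ℝ) ^ 2 ≤ (C * t ^ (N - 1)) ^ 2 := pow_le_pow_left₀ (by positivity) hL2 2
  have h3 : (1 : ℝ) / 2 ≤ (|K| + 1) * (C * t ^ (N - 1)) ^ 2 * φ t := by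
    calc (1 : ℝ) / 2 ≤ K * L ^ 2 * φ t := hL3.trans h1
      _ ≤ (|K| + 1) * L ^ 2 * φ t := by
          refine mul_le_mul_of_nonneg_right ?_ (hφ t).le
          refine mul_le_mul_of_nonneg_right ?_ (by positivity)
          linarith [le_abs_self K]
      _ ≤ (|K| + 1) * (C * t ^ (N - 1)) ^ 2 * φ t := by
          refine mul_le_mul_of_nonneg_right ?_ (hφ t).le
          exact mul_le_mul_of_nonneg_left h2 (by positivity)
  have h4 : (C * t ^ (N - 1)) ^ 2 = C ^ 2 * t ^ (2 * (N - 1)) := by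
    rw [mul_pow, ← pow_mul, mul_comm (N - 1) 2]
  rw [h4] at h3
  rw [div_le_iff₀ (by positivity), div_le_iff₀ (by positivity)]
  nlinarith

end Vale.Agent.P099.R2.H525
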