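import Mathlib

set_option autoImplicit false

namespace Vale.Agent.P099.R2.H525

open MeasureTheory

theorem int_series {Ω : Type} [MeasurableSpace Ω] (m : Measure Ω) [IsProbabilityMeasure m]
    {z w : Ω → ℂ} (hz : Measurable z) (hw : Measurable w) (h1 : ∀ᵐ ω ∂m, ‖z ω‖ = 1)
    (h2 : ∀ᵐ ω ∂m, ‖w ω‖ = 1) (x y : ℕ → ℂ) (hx : Summable fun k => ‖x k‖)
    (hy : Summable fun l => ‖y l‖) :
    ∫ ω, (∑' k, x k * (z ω ^ (k+1) / (k+1))) * (∑' l, y l * (w ω ^ (l+1) / (l+1))) ∂m =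
      ∑' k, ∑' l, x k * y l * ((∫ ω, z ω ^ (k+1) * w ω ^ (l+1) ∂m) / ((k+1) * (l+1))) := by
  -- the family on pairs
  set F : ℕ × ℕ → Ω → ℂ := fun p ω =>
    (x p.1 * (z ω ^ (p.1+1) / (p.1+1))) * (y p.2 * (w ω ^ (p.2+1) / (p.2+1))) with hF
  have hnx : ∀ (u : ℂ), ‖u‖ = 1 → ∀ k : ℕ, ‖x k * (u ^ (k+1) / (k+1))‖ ≤ ‖x k‖ := by
    intro u hu k
    rw [norm_mul, norm_div, norm_pow, hu, one_pow]
    have h3 : (1 : ℝ) ≤ ‖((k : ℂ) + 1)‖ := by
      have : ((k : ℂ) + 1) = ((k + 1 : ℕ) : ℂ) := by push_cast; rfl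
      rw [this, Complex.norm_natCast]
      exact_mod_cast Nat.le_add_left 1 k
    calc ‖x k‖ * (1 / ‖((k : ℂ) + 1)‖) ≤ ‖x k‖ * 1 := by
          apply mul_le_mul_of_nonneg_left _ (norm_nonneg _)
          rw [div_le_one (by linarith)]
          exact h3
      _ = ‖x k‖ := mul_one _
  have hny : ∀ (u : ℂ), ‖u‖ = 1 → ∀ k : ℕ, ‖y k * (u ^ (k+1) / (k+1))‖ ≤ ‖y k‖ := by
    intro u hu k
    rw [norm_mul, norm_div, norm_pow, hu, one_pow]
    have h3 : (1 : ℝ) ≤ ‖((k : ℂ) + 1)‖ := by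
      have : ((k : ℂ) + 1) = ((k + 1 : ℕ) : ℂ) := by push_cast; rfl
      rw [this, Complex.norm_natCast]
      exact_mod_cast Nat.le_add_left 1 k
    calc ‖y k‖ * (1 / ‖((k : ℂ) + 1)‖) ≤ ‖y k‖ * 1 := by
          apply mul_le_mul_of_nonneg_left _ (norm_nonneg _)
          rw [div_le_one (by linarith)]
          exact h3
      _ = ‖y k‖ := mul_one _
  have hxy : Summable fun p : ℕ × ℕ => ‖x p.1‖ * ‖y p.2‖ :=
    hx.mul_of_nonneg hy (fun _ => norm_nonneg _) (fun _ => norm_nonneg _)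
  have hFmeas : ∀ p, Measurable (F p) := by
    intro p
    simp only [hF]
    exact ((hz.pow_const _).div_const _ |>.const_mul _).mul
      ((hw.pow_const _).div_const _ |>.const_mul _)
  have hFnorm : ∀ p, ∀ᵐ ω ∂m, ‖F p ω‖ ≤ ‖x p.1‖ * ‖y p.2‖ := by
    intro p
    filter_upwards [h1, h2] with ω hω1 hω2
    simp only [hF]
    rw [norm_mul]
    exact mul_le_mul (hnx _ hω1 _) (hny _ hω2 _) (norm_nonneg _) (norm_nonneg _)
  have hFint : ∀ p, Integrable (F p) m := by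
    intro p
    refine Integrable.mono' (integrable_const (‖x p.1‖ * ‖y p.2‖))
      (hFmeas p).aestronglyMeasurable (hFnorm p)
  have hFsum : Summable fun p => ∫ ω, ‖F p ω‖ ∂m := by
    refine Summable.of_nonneg_of_le (fun p => integral_nonneg fun _ => norm_nonneg _) ?_ hxy
    intro p
    calc ∫ ω, ‖F p ω‖ ∂m ≤ ∫ _ω, ‖x p.1‖ * ‖y p.2‖ ∂m :=
          integral_mono_ae (hFint p).norm (integrable_const _) (hFnorm p)
      _ = ‖x p.1‖ * ‖y p.2‖ := by simp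
  have hmain := integral_tsum_of_summable_integral_norm hFint hFsum
  have hleft : ∫ ω, (∑' k, x k * (z ω ^ (k+1) / (k+1))) *
      (∑' l, y l * (w ω ^ (l+1) / (l+1))) ∂m = ∫ ω, ∑' p, F p ω ∂m := by
    apply integral_congr_ae
    filter_upwards [h1, h2] with ω hω1 hω2
    have hsx : Summable fun k => ‖x k * (z ω ^ (k+1) / (k+1))‖ :=
      Summable.of_nonneg_of_le (fun _ => norm_nonneg _) (hnx _ hω1) hx
    have hsy : Summable fun k => ‖y k * (w ω ^ (k+1) / (k+1))‖ :=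
      Summable.of_nonneg_of_le (fun _ => norm_nonneg _) (hny _ hω2) hy
    exact tsum_mul_tsum_of_summable_norm hsx hsy
  rw [hleft, ← hmain]
  have hval : ∀ p : ℕ × ℕ, ∫ ω, F p ω ∂m =
      x p.1 * y p.2 * ((∫ ω, z ω ^ (p.1+1) * w ω ^ (p.2+1) ∂m) / ((p.1+1) * (p.2+1))) := by
    intro p
    have h3 : ∀ ω, F p ω = (x p.1 * y p.2 / ((p.1+1) * (p.2+1))) *
        (z ω ^ (p.1+1) * w ω ^ (p.2+1)) := by
      intro ω
      simp only [hF]
      field_simp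
    simp_rw [h3]
    rw [integral_const_mul]
    ring
  simp_rw [hval]
  have hsumF : Summable fun p : ℕ × ℕ =>
      x p.1 * y p.2 * ((∫ ω, z ω ^ (p.1+1) * w ω ^ (p.2+1) ∂m) / ((p.1+1) * (p.2+1))) := by
    apply Summable.of_norm_bounded hFsum
    intro p
    rw [← hval p]
    exact norm_integral_le_integral_norm _
  exact hsumF.tsum_prod

end Vale.Agent.P099.R2.H525
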