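import Vale.Agent.P099.Defs
import Mathlib.Analysis.SpecialFunctions.Integrals.Basic

/-! # P099, row LIP + MEAN: the function `∑ x k u ^ (k + 1) / (k + 1)` on the circle -/

open MeasureTheory Set Filter Topology

namespace Vale.Agent.P099.R2.H525

theorem pow_sub_le (n : ℕ) {u v : ℂ} (hu : ‖u‖ ≤ 1) (hv : ‖v‖ ≤ 1) :
    ‖u ^ n - v ^ n‖ ≤ n * ‖u - v‖ := by
  induction n with
  | zero => simp
  | succ n ih =>
    have e : u ^ (n + 1) - v ^ (n + 1) = u ^ n * (u - v) + (u ^ n - v ^ n) * v := by ring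
    have h1 : ‖u ^ n * (u - v)‖ ≤ ‖u - v‖ := by
      rw [norm_mul, norm_pow]
      exact mul_le_of_le_one_left (norm_nonneg _) (pow_le_one₀ (norm_nonneg _) hu)
    have h2 : ‖(u ^ n - v ^ n) * v‖ ≤ ‖u ^ n - v ^ n‖ := by
      rw [norm_mul]
      exact mul_le_of_le_one_right (norm_nonneg _) hv
    rw [e]
    push_cast
    linarith [norm_add_le (u ^ n * (u - v)) ((u ^ n - v ^ n) * v)]

theorem norm_succ (k : ℕ) : ‖(k : ℂ) + 1‖ = (k : ℝ) + 1 := by
  have e : (k : ℂ) + 1 = ((k + 1 : ℕ) : ℂ) := by push_cast; rfl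
  rw [e, Complex.norm_natCast]
  push_cast
  rfl

theorem term_le (x : ℕ → ℂ) (k : ℕ) {u : ℂ} (hu : ‖u‖ ≤ 1) :
    ‖x k * (u ^ (k + 1) / (k + 1))‖ ≤ ‖x k‖ := by
  rw [norm_mul, norm_div, norm_pow, norm_succ]
  refine mul_le_of_le_one_right (norm_nonneg _) ?_
  rw [div_le_one (by positivity)]
  have h1 : ‖u‖ ^ (k + 1) ≤ 1 := pow_le_one₀ (norm_nonneg _) hu
  have h2 : (0 : ℝ) ≤ k := Nat.cast_nonneg k
  linarith

/-- The function is Lipschitz on the unit circle. -/
theorem lipF (x : ℕ → ℂ) (hx : Summable fun k => ‖x k‖) : ∃ K : NNReal,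
    LipschitzOnWith K (fun u : ℂ => ∑' k, x k * (u ^ (k + 1) / (k + 1))) (Metric.sphere 0 1) := by
  refine ⟨⟨∑' k, ‖x k‖, tsum_nonneg fun _ => norm_nonneg _⟩, ?_⟩
  refine LipschitzOnWith.of_dist_le_mul fun u hu v hv => ?_
  have hu1 : ‖u‖ ≤ 1 := (mem_sphere_zero_iff_norm.1 hu).le
  have hv1 : ‖v‖ ≤ 1 := (mem_sphere_zero_iff_norm.1 hv).le
  have hs : ∀ u : ℂ, ‖u‖ ≤ 1 → Summable fun k : ℕ => x k * (u ^ (k + 1) / (k + 1)) := fun u hu =>
    Summable.of_norm_bounded hx fun k => term_le x k hu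
  have hsub : (∑' k : ℕ, x k * (u ^ (k + 1) / (k + 1))) - ∑' k : ℕ, x k * (v ^ (k + 1) / (k + 1)) =
      ∑' k : ℕ, (x k * (u ^ (k + 1) / (k + 1)) - x k * (v ^ (k + 1) / (k + 1))) :=
    ((hs u hu1).tsum_sub (hs v hv1)).symm
  show dist (∑' k : ℕ, x k * (u ^ (k + 1) / (k + 1))) (∑' k : ℕ, x k * (v ^ (k + 1) / (k + 1))) ≤
    (∑' k, ‖x k‖) * dist u v
  rw [dist_eq_norm, dist_eq_norm, hsub]
  refine tsum_of_norm_bounded (hx.hasSum.mul_right ‖u - v‖) fun k => ?_
  have e : x k * (u ^ (k + 1) / (k + 1)) - x k * (v ^ (k + 1) / (k + 1)) =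
      x k * ((u ^ (k + 1) - v ^ (k + 1)) / (k + 1)) := by ring
  rw [e, norm_mul, norm_div, norm_succ]
  refine mul_le_mul_of_nonneg_left ?_ (norm_nonneg _)
  rw [div_le_iff₀ (by positivity)]
  have := pow_sub_le (k + 1) hu1 hv1
  push_cast at this
  linarith

theorem meas_exp : Measurable fun θ : ℝ => Complex.exp (θ * Complex.I) := by fun_prop

theorem isProb : IsProbabilityMeasure
    (ProbabilityTheory.cond (volume : Measure ℝ) (Ioc (-Real.pi) Real.pi)) := by
  refine ProbabilityTheory.cond_isProbabilityMeasure_of_finite ?_ ?_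
  · rw [Real.volume_Ioc]
    simp [Real.pi_pos]
  · rw [Real.volume_Ioc]
    exact ENNReal.ofReal_ne_top

/-- The positive powers have mean zero. -/
theorem mean_pow (k : ℕ) : ∫ u, u ^ (k + 1) ∂Vale.Agent.P099.nu = 0 := by
  rw [Vale.Agent.P099.nu, integral_map meas_exp.aemeasurable (by fun_prop),
    ProbabilityTheory.cond, integral_smul_measure,
    ← intervalIntegral.integral_of_le (by linarith [Real.pi_pos])]
  have hk : ((k : ℂ) + 1) * Complex.I ≠ 0 := by
    refine mul_ne_zero ?_ Complex.I_ne_zero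
    intro h
    have := norm_succ k
    rw [h, norm_zero] at this
    have h2 : (0 : ℝ) ≤ k := Nat.cast_nonneg k
    linarith
  have e : ∀ θ : ℝ, Complex.exp (θ * Complex.I) ^ (k + 1) =
      Complex.exp (((k : ℂ) + 1) * Complex.I * θ) := by
    intro θ
    rw [← Complex.exp_nat_mul]
    congr 1
    push_cast
    ring
  simp_rw [e]
  rw [integral_exp_mul_complex hk]
  have e2 : Complex.exp (((k : ℂ) + 1) * Complex.I * (Real.pi : ℝ)) =
      Complex.exp (((k : ℂ) + 1) * Complex.I * ((-Real.pi : ℝ) : ℂ)) := by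
    rw [Complex.exp_eq_exp_iff_exists_int]
    refine ⟨(k : ℤ) + 1, ?_⟩
    push_cast
    ring
  rw [e2, sub_self, zero_div, smul_zero]

theorem ae_norm : ∀ᵐ u ∂Vale.Agent.P099.nu, ‖u‖ ≤ 1 := by
  rw [Vale.Agent.P099.nu, ae_map_iff meas_exp.aemeasurable
    (measurableSet_le measurable_norm measurable_const)]
  exact Eventually.of_forall fun θ => (Complex.norm_exp_ofReal_mul_I θ).le

/-- The function has mean zero. -/
theorem meanF (x : ℕ → ℂ) (hx : Summable fun k => ‖x k‖) :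
    ∫ u, (∑' k, x k * (u ^ (k + 1) / (k + 1))) ∂Vale.Agent.P099.nu = 0 := by
  have := isProb
  have hp : IsProbabilityMeasure Vale.Agent.P099.nu :=
    Measure.isProbabilityMeasure_map meas_exp.aemeasurable
  have hint : ∀ k : ℕ, Integrable (fun u : ℂ => x k * (u ^ (k + 1) / (k + 1)))
      Vale.Agent.P099.nu := fun k => by
    refine Integrable.of_bound (by fun_prop) ‖x k‖ ?_
    filter_upwards [ae_norm] with u hu
    exact term_le x k hu
  have hle : ∀ k : ℕ, ∫ u, ‖x k * (u ^ (k + 1) / (k + 1))‖ ∂Vale.Agent.P099.nu ≤ ‖x k‖ := by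
    intro k
    calc ∫ u, ‖x k * (u ^ (k + 1) / (k + 1))‖ ∂Vale.Agent.P099.nu
        ≤ ∫ u, ‖x k‖ ∂Vale.Agent.P099.nu := by
          refine integral_mono_ae (hint k).norm (integrable_const _) ?_
          filter_upwards [ae_norm] with u hu
          exact term_le x k hu
      _ = ‖x k‖ := by simp
  have hsum : Summable fun k : ℕ => ∫ u, ‖x k * (u ^ (k + 1) / (k + 1))‖ ∂Vale.Agent.P099.nu :=
    Summable.of_nonneg_of_le (fun k => integral_nonneg fun _ => norm_nonneg _) hle hx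
  rw [← integral_tsum_of_summable_integral_norm hint hsum]
  have h0 : ∀ k : ℕ, ∫ u, x k * (u ^ (k + 1) / (k + 1)) ∂Vale.Agent.P099.nu = 0 := by
    intro k
    rw [integral_const_mul, integral_div, mean_pow, zero_div, mul_zero]
  simp_rw [h0]
  exact tsum_zero

end Vale.Agent.P099.R2.H525
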