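import Vale.Agent.P099.R2.H525.BS_helper16
import Vale.Agent.P099.R2.H525.INT_helper737
import Vale.Agent.P099.R2.H525.RowLIP_helper456

/-! # P099, RateOfMixing, row GEN -/

open MeasureTheory Set Filter Topology

namespace Vale.Agent.P099.R2.H525

theorem gen_one {Ω : Type} [MeasurableSpace Ω] (m : Measure Ω) [IsProbabilityMeasure m]
    (z : ℝ → Ω → ℂ) (v : Ω → ℂ) (hz : ∀ t, Measurable (z t)) (hv : Measurable v)
    (h1 : ∀ t, ∀ᵐ ω ∂m, ‖z t ω‖ = 1) (h2 : ∀ᵐ ω ∂m, ‖v ω‖ = 1) (w : ℝ → ℝ)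
    (hw : ∀ t, 0 < w t)
    (h : ∀ x y : ℕ → ℂ, Summable (fun k => ‖x k‖) → Summable (fun l => ‖y l‖) →
      ∃ K : ℝ, ∀ t ≥ (1:ℝ), ‖∫ ω, (∑' k, x k * (z t ω ^ (k+1) / (k+1))) *
        (∑' l, y l * (v ω ^ (l+1) / (l+1))) ∂m‖ ≤ K * w t) :
    ∃ K : ℝ, ∀ t ≥ (1:ℝ), ∀ L : ℕ, 1 ≤ L → ‖∫ ω, z t ω ^ L * v ω ^ L ∂m‖ ≤ K * L ^ 2 * w t := by
  have hn : ∀ k : ℕ, ‖(k : ℂ) + 1‖ = (k : ℝ) + 1 := norm_succ
  have hB : ∀ (t : ℝ) (k l : ℕ),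
      ‖(∫ ω, z t ω ^ (k+1) * v ω ^ (l+1) ∂m) / (((k : ℂ)+1) * ((l : ℂ)+1))‖ ≤ 1 := by
    intro t k l
    have h3 : ‖∫ ω, z t ω ^ (k+1) * v ω ^ (l+1) ∂m‖ ≤ 1 := by
      have h4 : ∀ᵐ ω ∂m, ‖z t ω ^ (k+1) * v ω ^ (l+1)‖ ≤ 1 := by
        filter_upwards [h1 t, h2] with ω e1 e2
        rw [norm_mul, norm_pow, norm_pow, e1, e2, one_pow, one_pow, one_mul]
      have h5 := norm_integral_le_of_norm_le_const h4
      simpa using h5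
    rw [norm_div, norm_mul, hn, hn, div_le_one (by positivity)]
    refine h3.trans ?_
    have a1 : (0 : ℝ) ≤ k := k.cast_nonneg
    have a2 : (0 : ℝ) ≤ l := l.cast_nonneg
    nlinarith
  obtain ⟨K, hK⟩ := uniform_bound
    (fun t k l => (∫ ω, z t ω ^ (k+1) * v ω ^ (l+1) ∂m) / (((k : ℂ)+1) * ((l : ℂ)+1))) hB w hw
    (fun x y hx hy => by
      obtain ⟨K, hK⟩ := h x y hx hy
      refine ⟨K, fun t ht => ?_⟩
      have h3 := hK t ht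
      rwa [int_series m (hz t) hv (h1 t) h2 x y hx hy] at h3)
  refine ⟨K, fun t ht L hL => ?_⟩
  obtain ⟨k, rfl⟩ := Nat.exists_eq_add_of_le' hL
  have h3 := hK t ht k k
  have hk : (0 : ℝ) < ((k : ℝ) + 1) * ((k : ℝ) + 1) := by positivity
  rw [norm_div, norm_mul, hn, div_le_iff₀ hk] at h3
  refine h3.trans (le_of_eq ?_)
  push_cast
  ring

theorem gen {Ω : Type} [MeasurableSpace Ω] (m : Measure Ω) [IsProbabilityMeasure m]
    (z : ℝ → Ω → ℂ) (v : Ω → ℂ) (hz : ∀ t, Measurable (z t)) (hv : Measurable v)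
    (h1 : ∀ t, ∀ᵐ ω ∂m, ‖z t ω‖ = 1) (h2 : ∀ᵐ ω ∂m, ‖v ω‖ = 1) (w : ℝ → ℝ)
    (hw : ∀ t, 0 < w t)
    (h : ∀ f g : ℂ → ℂ, (∃ K, LipschitzOnWith K f (Metric.sphere 0 1)) →
      (∃ K, LipschitzOnWith K g (Metric.sphere 0 1)) → ∃ K : ℝ, ∀ t ≥ (1:ℝ),
        ‖∫ ω, f (z t ω) * g (v ω) ∂m - (∫ u, f u ∂Vale.Agent.P099.nu) *
          ∫ u, g u ∂Vale.Agent.P099.nu‖ ≤ K * w t) :
    ∃ K : ℝ, ∀ t ≥ (1:ℝ), ∀ L : ℕ, 1 ≤ L →
      ‖∫ ω, z t ω ^ L * (starRingEnd ℂ (v ω)) ^ L ∂m‖ + ‖∫ ω, z t ω ^ L * v ω ^ L ∂m‖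
        ≤ K * L ^ 2 * w t := by
  have hc : Measurable fun ω => starRingEnd ℂ (v ω) := Complex.continuous_conj.measurable.comp hv
  have h2c : ∀ᵐ ω ∂m, ‖starRingEnd ℂ (v ω)‖ = 1 := by
    filter_upwards [h2] with ω e
    rw [RCLike.norm_conj, e]
  obtain ⟨K1, hK1⟩ := gen_one m z (fun ω => starRingEnd ℂ (v ω)) hz hc h1 h2c w hw
    (fun x y hx hy => by
      obtain ⟨Ky, hKy⟩ := lipF y hy
      obtain ⟨K, hK⟩ := h (fun u => ∑' k, x k * (u ^ (k+1) / (k+1)))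
        (fun u => ∑' l, y l * ((starRingEnd ℂ u) ^ (l+1) / (l+1))) (lipF x hx)
        ⟨Ky, LipschitzOnWith.of_dist_le_mul fun a ha b hb => by
          have ha' : starRingEnd ℂ a ∈ Metric.sphere (0 : ℂ) 1 := by
            rw [mem_sphere_zero_iff_norm, RCLike.norm_conj]
            exact mem_sphere_zero_iff_norm.1 ha
          have hb' : starRingEnd ℂ b ∈ Metric.sphere (0 : ℂ) 1 := by
            rw [mem_sphere_zero_iff_norm, RCLike.norm_conj]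
            exact mem_sphere_zero_iff_norm.1 hb
          have h3 := hKy.dist_le_mul _ ha' _ hb'
          rwa [Complex.dist_conj_conj] at h3⟩
      refine ⟨K, fun t ht => ?_⟩
      have h3 := hK t ht
      rwa [meanF x hx, zero_mul, sub_zero] at h3)
  obtain ⟨K2, hK2⟩ := gen_one m z v hz hv h1 h2 w hw
    (fun x y hx hy => by
      obtain ⟨K, hK⟩ := h (fun u => ∑' k, x k * (u ^ (k+1) / (k+1)))
        (fun u => ∑' l, y l * (u ^ (l+1) / (l+1))) (lipF x hx) (lipF y hy)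
      refine ⟨K, fun t ht => ?_⟩
      have h3 := hK t ht
      rwa [meanF x hx, zero_mul, sub_zero] at h3)
  refine ⟨K1 + K2, fun t ht L hL => ?_⟩
  have a1 := hK1 t ht L hL
  have a2 := hK2 t ht L hL
  calc _ ≤ K1 * L ^ 2 * w t + K2 * L ^ 2 * w t := add_le_add a1 a2
    _ = (K1 + K2) * L ^ 2 * w t := by ring

end Vale.Agent.P099.R2.H525
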