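import Mathlib

/-! # P099.RateOfMixing: ROW INT (integration of a product of two power series) -/

namespace Vale.Agent.P099.R2.H525

open MeasureTheory

theorem int_series {Ω : Type} [MeasurableSpace Ω] (m : Measure Ω) [IsProbabilityMeasure m]
    {z w : Ω → ℂ} (hz : Measurable z) (hw : Measurable w) (h1 : ∀ᵐ ω ∂m, ‖z ω‖ = 1)
    (h2 : ∀ᵐ ω ∂m, ‖w ω‖ = 1) (x y : ℕ → ℂ) (hx : Summable fun k => ‖x k‖)
    (hy : Summable fun l => ‖y l‖) :
    ∫ ω, (∑' k, x k * (z ω ^ (k+1) / (k+1))) * (∑' l, y l * (w ω ^ (l+1) / (l+1))) ∂m =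
      ∑' k, ∑' l, x k * y l * ((∫ ω, z ω ^ (k+1) * w ω ^ (l+1) ∂m) / ((k+1) * (l+1))) := by
  -- bounds of the terms
  have hk0 : ∀ k : ℕ, ‖((k : ℂ) + 1)‖ = (k : ℝ) + 1 := fun k => by
    have : ((k : ℂ) + 1) = ((k + 1 : ℕ) : ℂ) := by push_cast; rfl
    rw [this, Complex.norm_natCast]; push_cast; rfl
  have hterm : ∀ (x : ℕ → ℂ) (u : ℂ), ‖u‖ = 1 → ∀ k, ‖x k * (u ^ (k+1) / (k+1))‖ ≤ ‖x k‖ := by
    intro x u hu k
    rw [norm_mul, norm_div, norm_pow, hu, one_pow, hk0]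
    apply mul_le_of_le_one_right (norm_nonneg _)
    rw [div_le_one (by positivity)]
    have : (0:ℝ) ≤ k := Nat.cast_nonneg k
    linarith
  let F : ℕ × ℕ → Ω → ℂ := fun p ω =>
    (x p.1 * (z ω ^ (p.1+1) / (p.1+1))) * (y p.2 * (w ω ^ (p.2+1) / (p.2+1)))
  have hFm : ∀ p, AEStronglyMeasurable (F p) m := fun p => by
    apply Measurable.aestronglyMeasurable
    exact ((hz.pow_const _).div_const _ |>.const_mul _).mul
      ((hw.pow_const _).div_const _ |>.const_mul _)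
  have hxy : Summable (fun p : ℕ × ℕ => ‖x p.1‖ * ‖y p.2‖) :=
    hx.mul_of_nonneg hy (fun _ => norm_nonneg _) (fun _ => norm_nonneg _)
  have hFb : ∀ p, ∀ᵐ ω ∂m, ‖F p ω‖ ≤ ‖x p.1‖ * ‖y p.2‖ := fun p => by
    filter_upwards [h1, h2] with ω e1 e2
    simp only [F]
    rw [norm_mul]
    exact mul_le_mul (hterm x _ e1 _) (hterm y _ e2 _) (norm_nonneg _) (norm_nonneg _)
  have hFi : ∀ p, Integrable (F p) m := fun p =>
    Integrable.of_bound (hFm p) _ (hFb p)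
  have hFs : Summable (fun p => ∫ ω, ‖F p ω‖ ∂m) := by
    refine Summable.of_nonneg_of_le (fun p => integral_nonneg fun _ => norm_nonneg _)
      (fun p => ?_) hxy
    calc ∫ ω, ‖F p ω‖ ∂m ≤ ∫ _ω, ‖x p.1‖ * ‖y p.2‖ ∂m :=
          integral_mono_ae (hFi p).norm (integrable_const _) (hFb p)
      _ = ‖x p.1‖ * ‖y p.2‖ := by simp
  have hmain := hasSum_integral_of_summable_integral_norm hFi hFs
  have hpt : ∀ᵐ ω ∂m, ∑' p, F p ω =
      (∑' k, x k * (z ω ^ (k+1) / (k+1))) * (∑' l, y l * (w ω ^ (l+1) / (l+1))) := by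
    filter_upwards [h1, h2] with ω e1 e2
    have s1 : Summable (fun k => ‖x k * (z ω ^ (k+1) / (k+1))‖) :=
      Summable.of_nonneg_of_le (fun _ => norm_nonneg _) (hterm x _ e1) hx
    have s2 : Summable (fun l => ‖y l * (w ω ^ (l+1) / (l+1))‖) :=
      Summable.of_nonneg_of_le (fun _ => norm_nonneg _) (hterm y _ e2) hy
    exact (tsum_mul_tsum_of_summable_norm s1 s2).symm
  rw [← integral_congr_ae hpt, ← hmain.tsum_eq]
  have hint : ∀ p : ℕ × ℕ, ∫ ω, F p ω ∂m =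
      x p.1 * y p.2 * ((∫ ω, z ω ^ (p.1+1) * w ω ^ (p.2+1) ∂m) / ((p.1+1) * (p.2+1))) := by
    intro p
    have e : ∀ ω, F p ω = (x p.1 * y p.2 / ((p.1+1) * (p.2+1))) *
        (z ω ^ (p.1+1) * w ω ^ (p.2+1)) := fun ω => by
      simp only [F, div_eq_mul_inv, mul_inv]; ring
    simp only [e]
    rw [integral_const_mul]
    ring
  have hsum : Summable (fun p : ℕ × ℕ =>
      x p.1 * y p.2 * ((∫ ω, z ω ^ (p.1+1) * w ω ^ (p.2+1) ∂m) / ((p.1+1) * (p.2+1)))) := by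
    have := hmain.summable
    simpa only [hint] using this
  simp only [hint]
  exact hsum.tsum_prod

end Vale.Agent.P099.R2.H525
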