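import Mathlib

/-! Row INT: integrals of products of two power series of unimodular functions -/

namespace Vale.Agent.P099.R2.H525

open MeasureTheory Filter

namespace Int989

variable {Ω : Type} [MeasurableSpace Ω] (m : Measure Ω) [IsProbabilityMeasure m]

theorem aes {g : ℕ → Ω → ℂ} {c : ℕ → ℝ} (hg : ∀ l, AEStronglyMeasurable (g l) m)
    (hc : Summable c) (hb : ∀ l, ∀ᵐ ω ∂m, ‖g l ω‖ ≤ c l) :
    AEStronglyMeasurable (fun ω => ∑' l, g l ω) m := by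
  refine aestronglyMeasurable_of_tendsto_ae atTop
    (f := fun n ω => ∑ l ∈ Finset.range n, g l ω) ?_ ?_
  · intro n
    exact Finset.aestronglyMeasurable_fun_sum _ fun l _ => hg l
  · have h1 : ∀ᵐ ω ∂m, ∀ l, ‖g l ω‖ ≤ c l := ae_all_iff.2 hb
    filter_upwards [h1] with ω hω
    exact (Summable.of_norm_bounded hc hω).hasSum.tendsto_sum_nat

theorem bd {g : ℕ → Ω → ℂ} {c : ℕ → ℝ} (hc : Summable c)
    (hb : ∀ l, ∀ᵐ ω ∂m, ‖g l ω‖ ≤ c l) : ∀ᵐ ω ∂m, ‖∑' l, g l ω‖ ≤ ∑' l, c l := by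
  have h1 : ∀ᵐ ω ∂m, ∀ l, ‖g l ω‖ ≤ c l := ae_all_iff.2 hb
  filter_upwards [h1] with ω hω
  exact tsum_of_norm_bounded hc.hasSum hω

theorem sw {g : ℕ → Ω → ℂ} {c : ℕ → ℝ} (hg : ∀ l, AEStronglyMeasurable (g l) m)
    (hc : Summable c) (hb : ∀ l, ∀ᵐ ω ∂m, ‖g l ω‖ ≤ c l) {h : Ω → ℂ}
    (hh : AEStronglyMeasurable h m) {H : ℝ} (hH : ∀ᵐ ω ∂m, ‖h ω‖ ≤ H) :
    ∫ ω, h ω * ∑' l, g l ω ∂m = ∑' l, ∫ ω, h ω * g l ω ∂m := by
  have hae : ∀ l, ∀ᵐ ω ∂m, ‖h ω * g l ω‖ ≤ H * c l := by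
    intro l
    filter_upwards [hH, hb l] with ω h1 h2
    rw [norm_mul]
    exact mul_le_mul h1 h2 (norm_nonneg _) ((norm_nonneg _).trans h1)
  have hint : ∀ l, Integrable (fun ω => h ω * g l ω) m := fun l =>
    Integrable.mono' (integrable_const (H * c l)) (hh.mul (hg l)) (hae l)
  have hsum : Summable fun l => ∫ ω, ‖h ω * g l ω‖ ∂m := by
    refine Summable.of_nonneg_of_le (fun l => integral_nonneg fun ω => norm_nonneg _)
      (fun l => ?_) (hc.mul_left H)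
    have h3 := integral_mono_ae (hint l).norm (integrable_const (H * c l)) (hae l)
    rw [integral_const, probReal_univ, one_smul] at h3
    exact h3
  have h4 := (hasSum_integral_of_summable_integral_norm hint hsum).tsum_eq
  rw [h4]
  congr 1
  funext ω
  rw [tsum_mul_left]

end Int989

theorem int_series {Ω : Type} [MeasurableSpace Ω] (m : Measure Ω) [IsProbabilityMeasure m]
    {z w : Ω → ℂ} (hz : Measurable z) (hw : Measurable w) (h1 : ∀ᵐ ω ∂m, ‖z ω‖ = 1)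
    (h2 : ∀ᵐ ω ∂m, ‖w ω‖ = 1) (x y : ℕ → ℂ) (hx : Summable fun k => ‖x k‖)
    (hy : Summable fun l => ‖y l‖) :
    ∫ ω, (∑' k, x k * (z ω ^ (k+1) / (k+1))) * (∑' l, y l * (w ω ^ (l+1) / (l+1))) ∂m
      = ∑' k, ∑' l, x k * y l * ((∫ ω, z ω ^ (k+1) * w ω ^ (l+1) ∂m) / ((k+1) * (l+1))) := by
  have key : ∀ (u : Ω → ℂ), Measurable u → (∀ᵐ ω ∂m, ‖u ω‖ = 1) → ∀ (a : ℕ → ℂ) (k : ℕ),
      AEStronglyMeasurable (fun ω => a k * (u ω ^ (k+1) / (k+1))) m ∧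
      ∀ᵐ ω ∂m, ‖a k * (u ω ^ (k+1) / (k+1))‖ ≤ ‖a k‖ := by
    intro u hu h a k
    refine ⟨((hu.pow_const (k+1)).div_const _ |>.const_mul _).aestronglyMeasurable, ?_⟩
    filter_upwards [h] with ω hω
    rw [norm_mul, norm_div, norm_pow, hω, one_pow]
    have h3 : (1 : ℝ) ≤ ‖((k : ℂ) + 1)‖ := by
      have : ((k : ℂ) + 1) = ((k + 1 : ℕ) : ℂ) := by push_cast; ring
      rw [this, Complex.norm_natCast]
      exact_mod_cast Nat.succ_le_succ (Nat.zero_le k)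
    have h4 : 1 / ‖((k : ℂ) + 1)‖ ≤ 1 := by
      rw [div_le_one (by linarith)]
      exact h3
    calc ‖a k‖ * (1 / ‖((k : ℂ) + 1)‖) ≤ ‖a k‖ * 1 :=
          mul_le_mul_of_nonneg_left h4 (norm_nonneg _)
      _ = ‖a k‖ := mul_one _
  have e1 : ∀ ω, (∑' k, x k * (z ω ^ (k+1) / (k+1))) * (∑' l, y l * (w ω ^ (l+1) / (l+1)))
      = (∑' l, y l * (w ω ^ (l+1) / (l+1))) * ∑' k, x k * (z ω ^ (k+1) / (k+1)) := fun ω =>
    mul_comm _ _
  simp_rw [e1]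
  rw [Int989.sw m (g := fun k ω => x k * (z ω ^ (k+1) / (k+1)))
    (h := fun ω => ∑' l, y l * (w ω ^ (l+1) / (l+1))) (fun k => (key z hz h1 x k).1) hx
    (fun k => (key z hz h1 x k).2)
    (Int989.aes m (g := fun l ω => y l * (w ω ^ (l+1) / (l+1))) (fun l => (key w hw h2 y l).1) hy
      fun l => (key w hw h2 y l).2)
    (Int989.bd m (g := fun l ω => y l * (w ω ^ (l+1) / (l+1))) hy fun l => (key w hw h2 y l).2)]
  congr 1
  funext k
  have e2 : ∀ ω, (∑' l, y l * (w ω ^ (l+1) / (l+1))) * (x k * (z ω ^ (k+1) / (k+1)))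
      = (x k * (z ω ^ (k+1) / (k+1))) * ∑' l, y l * (w ω ^ (l+1) / (l+1)) := fun ω =>
    mul_comm _ _
  simp_rw [e2]
  rw [Int989.sw m (g := fun l ω => y l * (w ω ^ (l+1) / (l+1)))
    (h := fun ω => x k * (z ω ^ (k+1) / (k+1))) (fun l => (key w hw h2 y l).1) hy
    (fun l => (key w hw h2 y l).2) (key z hz h1 x k).1 (key z hz h1 x k).2]
  congr 1
  funext l
  have e3 : ∀ ω, (x k * (z ω ^ (k+1) / (k+1))) * (y l * (w ω ^ (l+1) / (l+1)))
      = (x k * y l / ((k+1) * (l+1))) * (z ω ^ (k+1) * w ω ^ (l+1)) := by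
    intro ω
    have hk : ((k : ℂ) + 1) ≠ 0 := Nat.cast_add_one_ne_zero k
    have hl : ((l : ℂ) + 1) ≠ 0 := Nat.cast_add_one_ne_zero l
    field_simp
  simp_rw [e3]
  rw [integral_const_mul]
  ring

end Vale.Agent.P099.R2.H525
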