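import Vale.Agent.P099.Defs

/-!
# P099: an isosceles triangle with nearly equal powers of the squared directions
-/

set_option autoImplicit false

namespace Vale.Agent.P099.R2.H525

open Complex

namespace IsoAux

/-- the apex of the isosceles triangle with base `[0, 1]` and angle `π a` -/
noncomputable def apex (a : ℝ) : ℂ :=
  ((1 / (2 * Real.cos (Real.pi * a)) : ℝ) : ℂ) * exp ((Real.pi * a : ℝ) * I)

theorem cos_pos' {a : ℝ} (ha : a ∈ Set.Ioo (0:ℝ) (1/2)) : 0 < Real.cos (Real.pi * a) := by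
  apply Real.cos_pos_of_mem_Ioo
  constructor <;> nlinarith [Real.pi_pos, ha.1, ha.2]

theorem sin_pos' {a : ℝ} (ha : a ∈ Set.Ioo (0:ℝ) (1/2)) : 0 < Real.sin (Real.pi * a) := by
  apply Real.sin_pos_of_pos_of_lt_pi <;> nlinarith [Real.pi_pos, ha.1, ha.2]

theorem apex_im {a : ℝ} (ha : a ∈ Set.Ioo (0:ℝ) (1/2)) : 0 < (apex a).im := by
  have h1 := cos_pos' ha
  have h2 := sin_pos' ha
  unfold apex
  rw [im_ofReal_mul, exp_ofReal_mul_I_im]
  positivity

theorem apex_sub_one {a : ℝ} (ha : a ∈ Set.Ioo (0:ℝ) (1/2)) :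
    apex a - 1 = -(((1 / (2 * Real.cos (Real.pi * a)) : ℝ) : ℂ) *
      exp ((-(Real.pi * a) : ℝ) * I)) := by
  have h1 := (cos_pos' ha).ne'
  have h2 : ((Real.cos (Real.pi * a) : ℝ) : ℂ) ≠ 0 := by exact_mod_cast h1
  unfold apex
  have h3 : exp ((Real.pi * a : ℝ) * I) + exp ((-(Real.pi * a) : ℝ) * I) =
      2 * ((Real.cos (Real.pi * a) : ℝ) : ℂ) := by
    rw [Complex.exp_mul_I, Complex.exp_mul_I, ofReal_neg, Complex.cos_neg, Complex.sin_neg,
      ofReal_cos]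
    ring
  have h4 : ((1 / (2 * Real.cos (Real.pi * a)) : ℝ) : ℂ) *
      (2 * ((Real.cos (Real.pi * a) : ℝ) : ℂ)) = 1 := by
    push_cast
    rw [← ofReal_mul, ← ofReal_cos] 
    field_simp
  rw [← h4, ← h3]
  ring

/-- the unit vector -/
theorem unit_sq {r : ℝ} (hr : 0 < r) (t : ℝ) :
    ((-((r : ℂ) * exp ((t : ℝ) * I))) / (‖-((r : ℂ) * exp ((t : ℝ) * I))‖ : ℂ)) ^ 2 =
      exp ((2 * t : ℝ) * I) := by
  have h1 : ‖-((r : ℂ) * exp ((t : ℝ) * I))‖ = r := by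
    rw [norm_neg, norm_mul, norm_exp_ofReal_mul_I, mul_one, Complex.norm_real, Real.norm_eq_abs,
      abs_of_pos hr]
  have h2 : (r : ℂ) ≠ 0 := by exact_mod_cast hr.ne'
  rw [h1, neg_div, mul_div_cancel_left₀ _ h2, neg_sq, ← Complex.exp_nat_mul]
  congr 1
  push_cast
  ring

theorem indep {w : ℂ} (hw : w.im ≠ 0) : AffineIndependent ℝ ![(0 : ℂ), 1, w] := by
  rw [affineIndependent_iff_not_collinear_set]
  intro h
  rw [collinear_iff_of_mem (p₀ := (0 : ℂ)) (by simp)] at h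
  obtain ⟨v, hv⟩ := h
  obtain ⟨r, hr⟩ := hv 1 (by simp)
  obtain ⟨s, hs⟩ := hv w (by simp)
  rw [vadd_eq_add, add_zero] at hr hs
  have h1 : v.im * r = 0 := by
    have := congrArg Complex.im hr
    simp at this
    rcases this with h | h <;> simp [h]
  have h2 : r ≠ 0 := by
    rintro rfl
    simp at hr
  have h3 : v.im = 0 := by
    rcases mul_eq_zero.1 h1 with h | h
    · exact h
    · exact absurd h h2
  apply hw
  rw [hs]
  simp [h3]

theorem pw (a : ℝ) (L : ℕ) (k : ℤ) (s : ℝ) (hs : s = 1 ∨ s = -1) :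
    exp ((2 * (s * (Real.pi * a)) : ℝ) * I) ^ L =
      exp (I * ((s * (2 * Real.pi * (a * L - k)) : ℝ) : ℂ)) := by
  rw [← Complex.exp_nat_mul, Complex.exp_eq_exp_iff_exists_int]
  rcases hs with rfl | rfl
  · exact ⟨k, by push_cast; ring⟩
  · exact ⟨-k, by push_cast; ring⟩

end IsoAux

open IsoAux

theorem iso {a : ℝ} (ha : a ∈ Set.Ioo (0:ℝ) (1/2)) (hi : Irrational a) :
    ∃ T : Vale.Agent.P099.Triangle, T.IsIrrational ∧ ∀ (i : Fin 3) (L : ℕ) (k : ℤ),
      ‖(((T.P (i + 2) - T.P (i + 1)) / (‖T.P (i + 2) - T.P (i + 1)‖ : ℂ)) ^ 2) ^ L -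
        (((T.P (0 + 2) - T.P (0 + 1)) / (‖T.P (0 + 2) - T.P (0 + 1)‖ : ℂ)) ^ 2) ^ L‖ ≤
        4 * Real.pi * |a * L - k| := by
  have hc := cos_pos' ha
  have hr : 0 < 1 / (2 * Real.cos (Real.pi * a)) := by positivity
  refine ⟨⟨![0, 1, apex a], indep (apex_im ha).ne'⟩, ?_, ?_⟩
  · refine ⟨0, ?_⟩
    have h1 : EuclideanGeometry.angle (1 : ℂ) 0 (apex a) = Real.pi * a := by
      unfold EuclideanGeometry.angle
      rw [vsub_eq_sub, vsub_eq_sub, sub_zero, sub_zero, angle_one_left (by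
        intro h
        have := apex_im ha
        rw [h] at this
        simp at this)]
      unfold apex
      rw [Complex.arg_real_mul _ hr, Complex.exp_mul_I, Complex.arg_cos_add_sin_mul_I (by
        constructor <;> nlinarith [Real.pi_pos, ha.1, ha.2]), abs_of_pos (by
          have := ha.1
          have := Real.pi_pos
          positivity)]
    show Irrational (EuclideanGeometry.angle (1 : ℂ) 0 (apex a) / Real.pi)
    rw [h1, mul_div_cancel_left₀ _ Real.pi_ne_zero]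
    exact hi
  · intro i L k
    have e0 : (((apex a - 1) / (‖apex a - 1‖ : ℂ)) ^ 2) ^ L =
        exp (I * ((-1 * (2 * Real.pi * (a * L - k)) : ℝ) : ℂ)) := by
      rw [apex_sub_one ha, unit_sq hr, ← pw a L k (-1) (Or.inr rfl)]
      congr 3
      push_cast; ring
    have e1 : (((0 - apex a) / (‖0 - apex a‖ : ℂ)) ^ 2) ^ L =
        exp (I * ((1 * (2 * Real.pi * (a * L - k)) : ℝ) : ℂ)) := by
      rw [zero_sub, show apex a = ((1 / (2 * Real.cos (Real.pi * a)) : ℝ) : ℂ) *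
        exp ((Real.pi * a : ℝ) * I) from rfl, unit_sq hr, ← pw a L k 1 (Or.inl rfl), one_mul]
    have hb : ∀ s : ℝ, |s| = 1 → ‖exp (I * ((s * (2 * Real.pi * (a * L - k)) : ℝ) : ℂ)) - 1‖ ≤
        2 * Real.pi * |a * L - k| := by
      intro s hs
      refine le_trans Real.norm_exp_I_mul_ofReal_sub_one_le (le_of_eq ?_)
      rw [Real.norm_eq_abs, abs_mul, abs_mul, hs, one_mul,
        abs_of_pos (by have := Real.pi_pos; positivity)]
    have hp : 0 ≤ Real.pi * |a * L - k| := by positivity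
    have b1 := hb 1 (by norm_num)
    have b2 := hb (-1) (by norm_num)
    fin_cases i
    · show ‖(((apex a - 1) / (‖apex a - 1‖ : ℂ)) ^ 2) ^ L -
        (((apex a - 1) / (‖apex a - 1‖ : ℂ)) ^ 2) ^ L‖ ≤ _
      rw [sub_self, norm_zero]
      linarith
    · show ‖(((0 - apex a) / (‖0 - apex a‖ : ℂ)) ^ 2) ^ L -
        (((apex a - 1) / (‖apex a - 1‖ : ℂ)) ^ 2) ^ L‖ ≤ _
      rw [e0, e1]
      calc _ = ‖(exp (I * ((1 * (2 * Real.pi * (a * L - k)) : ℝ) : ℂ)) - 1) -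
            (exp (I * ((-1 * (2 * Real.pi * (a * L - k)) : ℝ) : ℂ)) - 1)‖ := by
            congr 1; ring
        _ ≤ _ := norm_sub_le _ _
        _ ≤ 4 * Real.pi * |a * L - k| := by linarith
    · show ‖((((1 : ℂ) - 0) / (‖(1 : ℂ) - 0‖ : ℂ)) ^ 2) ^ L -
        (((apex a - 1) / (‖apex a - 1‖ : ℂ)) ^ 2) ^ L‖ ≤ _
      rw [e0]
      have h1 : ((((1 : ℂ) - 0) / (‖(1 : ℂ) - 0‖ : ℂ)) ^ 2) ^ L = 1 := by simp
      rw [h1, norm_sub_rev]
      linarith

end Vale.Agent.P099.R2.H525
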