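import Vale.Agent.P099.Defs

open Complex

namespace Vale.Agent.P099.R2.H525.H940

/-- the apex of the isosceles triangle with base `0, 1` and base angle `π a`. -/
noncomputable def apex (a : ℝ) : ℂ := Complex.exp ((Real.pi * a : ℝ) * I) / (2 * Real.cos (Real.pi * a) : ℝ)

lemma cos_pos' {a : ℝ} (ha : a ∈ Set.Ioo (0:ℝ) (1/2)) : 0 < Real.cos (Real.pi * a) := by
  have hp := Real.pi_pos
  apply Real.cos_pos_of_mem_Ioo
  constructor
  · nlinarith [ha.1]
  · nlinarith [ha.2]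

lemma apex_ne {a : ℝ} (ha : a ∈ Set.Ioo (0:ℝ) (1/2)) : apex a ≠ 0 := by
  have h := cos_pos' ha
  unfold apex
  apply div_ne_zero (Complex.exp_ne_zero _)
  exact_mod_cast (by positivity : (2 * Real.cos (Real.pi * a)) ≠ 0)

lemma arg_apex {a : ℝ} (ha : a ∈ Set.Ioo (0:ℝ) (1/2)) : (apex a).arg = Real.pi * a := by
  have h := cos_pos' ha
  have hp := Real.pi_pos
  have h1 : apex a = ((2 * Real.cos (Real.pi * a))⁻¹ : ℝ) *
      (Complex.cos (Real.pi * a : ℝ) + Complex.sin (Real.pi * a : ℝ) * I) := by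
    unfold apex
    rw [Complex.exp_mul_I]
    push_cast
    rw [div_eq_inv_mul]
  rw [h1]
  apply Complex.arg_mul_cos_add_sin_mul_I (by positivity)
  constructor
  · nlinarith [ha.1]
  · nlinarith [ha.2]

lemma angle_apex {a : ℝ} (ha : a ∈ Set.Ioo (0:ℝ) (1/2)) :
    EuclideanGeometry.angle (1 : ℂ) 0 (apex a) = Real.pi * a := by
  have hp := Real.pi_pos
  rw [EuclideanGeometry.angle, vsub_eq_sub, vsub_eq_sub, sub_zero, sub_zero,
    Complex.angle_one_left (apex_ne ha), arg_apex ha, abs_of_pos]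
  nlinarith [ha.1]

lemma indep_apex {a : ℝ} (ha : a ∈ Set.Ioo (0:ℝ) (1/2)) :
    AffineIndependent ℝ ![(0 : ℂ), 1, apex a] := by
  have hp := Real.pi_pos
  rw [affineIndependent_iff_not_collinear_set]
  intro hc
  have hc' : Collinear ℝ {(1 : ℂ), 0, apex a} := by
    rwa [Set.insert_comm]
  rw [EuclideanGeometry.collinear_iff_eq_or_eq_or_angle_eq_zero_or_angle_eq_pi] at hc'
  rcases hc' with h | h | h | h
  · exact one_ne_zero h
  · exact apex_ne ha h
  · rw [angle_apex ha] at h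
    nlinarith [ha.1]
  · rw [angle_apex ha] at h
    nlinarith [ha.2]

/-- the isosceles triangle. -/
noncomputable def tri {a : ℝ} (ha : a ∈ Set.Ioo (0:ℝ) (1/2)) : Triangle :=
  ⟨![(0 : ℂ), 1, apex a], indep_apex ha⟩

lemma exp_int (x : ℝ) (k : ℤ) :
    ‖Complex.exp ((2 * Real.pi * x : ℝ) * I) - 1‖ ≤ 2 * Real.pi * |x - k| := by
  have hp := Real.pi_pos
  have h1 : Complex.exp ((2 * Real.pi * x : ℝ) * I) =
      Complex.exp (I * (2 * Real.pi * (x - k) : ℝ)) := by
    have : ((2 * Real.pi * x : ℝ) : ℂ) * I =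
        I * (2 * Real.pi * (x - k) : ℝ) + k * (2 * Real.pi * I) := by
      push_cast
      ring
    rw [this, Complex.exp_add, Complex.exp_int_mul_two_pi_mul_I, mul_one]
  rw [h1]
  refine le_trans Real.norm_exp_I_mul_ofReal_sub_one_le ?_
  rw [Real.norm_eq_abs, abs_mul, abs_of_pos (by positivity : (0:ℝ) < 2 * Real.pi)]

lemma d0 {a : ℝ} (ha : a ∈ Set.Ioo (0:ℝ) (1/2)) :
    ((apex a - 1) / (‖apex a - 1‖ : ℂ)) ^ 2 = Complex.exp (-((2 * Real.pi * a : ℝ) * I)) := by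
  have h := cos_pos' ha
  have h1 : apex a - 1 = -(Complex.exp (-((Real.pi * a : ℝ) * I)) /
      (2 * Real.cos (Real.pi * a) : ℝ)) := by
    have hne : ((2 * Real.cos (Real.pi * a) : ℝ) : ℂ) ≠ 0 := by
      exact_mod_cast (by positivity : (2 * Real.cos (Real.pi * a)) ≠ 0)
    unfold apex
    rw [← neg_div, div_sub_one hne]
    congr 1
    have e1 := Complex.exp_mul_I ((Real.pi * a : ℝ) : ℂ)
    have e2 := Complex.exp_mul_I (-((Real.pi * a : ℝ) : ℂ))
    rw [Complex.cos_neg, Complex.sin_neg, neg_mul] at e2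
    rw [e1, e2]
    push_cast
    ring
  have h2 : ‖apex a - 1‖ = (2 * Real.cos (Real.pi * a))⁻¹ := by
    rw [h1, norm_neg, norm_div, ← neg_mul, ← Complex.ofReal_neg, Complex.norm_exp_ofReal_mul_I,
      Complex.norm_real, Real.norm_eq_abs, abs_of_pos (by positivity), one_div]
  rw [h2, h1]
  have hne : ((Real.cos (Real.pi * a) : ℝ) : ℂ) ≠ 0 := by
    exact_mod_cast h.ne'
  have h3 : -(Complex.exp (-((Real.pi * a : ℝ) * I)) / (2 * Real.cos (Real.pi * a) : ℝ)) /
      (((2 * Real.cos (Real.pi * a))⁻¹ : ℝ) : ℂ) = -Complex.exp (-((Real.pi * a : ℝ) * I)) := by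
    push_cast at hne ⊢
    field_simp
  rw [h3, neg_sq, ← Complex.exp_nat_mul]
  congr 1
  push_cast
  ring

lemma d1 {a : ℝ} (ha : a ∈ Set.Ioo (0:ℝ) (1/2)) :
    ((0 - apex a) / (‖0 - apex a‖ : ℂ)) ^ 2 = Complex.exp ((2 * Real.pi * a : ℝ) * I) := by
  have h := cos_pos' ha
  have h2 : ‖apex a‖ = (2 * Real.cos (Real.pi * a))⁻¹ := by
    unfold apex
    rw [norm_div, Complex.norm_exp_ofReal_mul_I,
      Complex.norm_real, Real.norm_eq_abs, abs_of_pos (by positivity), one_div]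
  rw [zero_sub, norm_neg, h2]
  have hne : ((Real.cos (Real.pi * a) : ℝ) : ℂ) ≠ 0 := by
    exact_mod_cast h.ne'
  have h3 : -apex a / (((2 * Real.cos (Real.pi * a))⁻¹ : ℝ) : ℂ) =
      -Complex.exp ((Real.pi * a : ℝ) * I) := by
    unfold apex
    push_cast at hne ⊢
    field_simp
  rw [h3, neg_sq, ← Complex.exp_nat_mul]
  congr 1
  push_cast
  ring

end Vale.Agent.P099.R2.H525.H940

namespace Vale.Agent.P099.R2.H525

open H940

/-- ROW ISO. -/
theorem iso {a : ℝ} (ha : a ∈ Set.Ioo (0:ℝ) (1/2)) (hi : Irrational a) :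
    ∃ T : Vale.Agent.P099.Triangle, T.IsIrrational ∧ ∀ (i : Fin 3) (L : ℕ) (k : ℤ),
      ‖(((T.P (i + 2) - T.P (i + 1)) / (‖T.P (i + 2) - T.P (i + 1)‖ : ℂ)) ^ 2) ^ L
        - (((T.P (0 + 2) - T.P (0 + 1)) / (‖T.P (0 + 2) - T.P (0 + 1)‖ : ℂ)) ^ 2) ^ L‖
        ≤ 4 * Real.pi * |a * L - k| := by
  have hp := Real.pi_pos
  refine ⟨tri ha, ⟨0, ?_⟩, ?_⟩
  · have : EuclideanGeometry.angle ((tri ha).P (0 + 1)) ((tri ha).P 0) ((tri ha).P (0 + 2))
        = Real.pi * a := angle_apex ha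
    rw [this, mul_div_cancel_left₀ _ hp.ne']
    exact hi
  · intro i L k
    have e0 : (((tri ha).P (0 + 2) - (tri ha).P (0 + 1)) /
        (‖(tri ha).P (0 + 2) - (tri ha).P (0 + 1)‖ : ℂ)) ^ 2 =
        Complex.exp (-((2 * Real.pi * a : ℝ) * I)) := d0 ha
    have e1 : (((tri ha).P (1 + 2) - (tri ha).P (1 + 1)) /
        (‖(tri ha).P (1 + 2) - (tri ha).P (1 + 1)‖ : ℂ)) ^ 2 =
        Complex.exp ((2 * Real.pi * a : ℝ) * I) := d1 ha
    have e2 : (((tri ha).P (2 + 2) - (tri ha).P (2 + 1)) /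
        (‖(tri ha).P (2 + 2) - (tri ha).P (2 + 1)‖ : ℂ)) ^ 2 = 1 := by
      have : (tri ha).P (2 + 2) - (tri ha).P (2 + 1) = 1 := sub_zero (1 : ℂ)
      rw [this]
      simp
    have hu : Complex.exp (-((2 * Real.pi * a : ℝ) * I)) ^ L =
        Complex.exp (-((2 * Real.pi * (a * L) : ℝ) * I)) := by
      rw [← Complex.exp_nat_mul]
      congr 1
      push_cast
      ring
    have hv : Complex.exp ((2 * Real.pi * a : ℝ) * I) ^ L =
        Complex.exp ((2 * Real.pi * (a * L) : ℝ) * I) := by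
      rw [← Complex.exp_nat_mul]
      congr 1
      push_cast
      ring
    have hn : ‖Complex.exp (-((2 * Real.pi * (a * L) : ℝ) * I))‖ = 1 := by
      rw [← neg_mul, ← Complex.ofReal_neg, Complex.norm_exp_ofReal_mul_I]
    have hb := exp_int (a * L) k
    have hab := abs_nonneg (a * (L : ℝ) - k)
    rw [e0]
    fin_cases i
    · change ‖((((tri ha).P (0 + 2) - (tri ha).P (0 + 1)) /
        (‖(tri ha).P (0 + 2) - (tri ha).P (0 + 1)‖ : ℂ)) ^ 2) ^ L - _‖ ≤ _
      rw [e0, sub_self, norm_zero]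
      positivity
    · change ‖((((tri ha).P (1 + 2) - (tri ha).P (1 + 1)) /
        (‖(tri ha).P (1 + 2) - (tri ha).P (1 + 1)‖ : ℂ)) ^ 2) ^ L - _‖ ≤ _
      rw [e1, hu, hv]
      have h6 : Complex.exp ((2 * Real.pi * (a * L) : ℝ) * I)
          - Complex.exp (-((2 * Real.pi * (a * L) : ℝ) * I)) =
          (Complex.exp ((2 * Real.pi * (a * L) : ℝ) * I) - 1) +
          Complex.exp (-((2 * Real.pi * (a * L) : ℝ) * I)) *
            (Complex.exp ((2 * Real.pi * (a * L) : ℝ) * I) - 1) := by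
        rw [Complex.exp_neg]
        have := Complex.exp_ne_zero ((2 * Real.pi * (a * L) : ℝ) * I)
        field_simp
        ring
      rw [h6]
      refine le_trans (norm_add_le _ _) ?_
      rw [norm_mul, hn, one_mul]
      linarith
    · change ‖((((tri ha).P (2 + 2) - (tri ha).P (2 + 1)) /
        (‖(tri ha).P (2 + 2) - (tri ha).P (2 + 1)‖ : ℂ)) ^ 2) ^ L - _‖ ≤ _
      rw [e2, hu, one_pow]
      have h6 : 1 - Complex.exp (-((2 * Real.pi * (a * L) : ℝ) * I)) =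
          Complex.exp (-((2 * Real.pi * (a * L) : ℝ) * I)) *
            (Complex.exp ((2 * Real.pi * (a * L) : ℝ) * I) - 1) := by
        rw [Complex.exp_neg]
        have := Complex.exp_ne_zero ((2 * Real.pi * (a * L) : ℝ) * I)
        field_simp
      rw [h6, norm_mul, hn, one_mul]
      nlinarith

end Vale.Agent.P099.R2.H525
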