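import Mathlib.Analysis.Complex.Basic
import Mathlib.Topology.MetricSpace.Lipschitz
import Mathlib.Analysis.Normed.Group.InfiniteSum
import Mathlib.Tactic

namespace Vale.Agent.P099.R2.H525

theorem norm_pow_sub_le {u v : ℂ} (hu : ‖u‖ ≤ 1) (hv : ‖v‖ ≤ 1) (n : ℕ) :
    ‖u ^ n - v ^ n‖ ≤ n * ‖u - v‖ := by
  induction n with
  | zero => simp
  | succ n ih =>
    have h1 : u ^ (n + 1) - v ^ (n + 1) = u ^ n * (u - v) + (u ^ n - v ^ n) * v := by ring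
    rw [h1]
    have h2 : ‖u ^ n * (u - v)‖ ≤ 1 * ‖u - v‖ := by
      rw [norm_mul, norm_pow]
      exact mul_le_mul_of_nonneg_right (pow_le_one₀ (norm_nonneg _) hu) (norm_nonneg _)
    have h3 : ‖(u ^ n - v ^ n) * v‖ ≤ n * ‖u - v‖ * 1 := by
      rw [norm_mul]
      exact mul_le_mul ih hv (norm_nonneg _) (by positivity)
    refine (norm_add_le _ _).trans ((add_le_add h2 h3).trans (le_of_eq ?_))
    push_cast
    ring

theorem term_le {x u v : ℂ} (hu : ‖u‖ ≤ 1) (hv : ‖v‖ ≤ 1) (k : ℕ) :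
    ‖x * (u ^ (k + 1) / (k + 1)) - x * (v ^ (k + 1) / (k + 1))‖ ≤ ‖x‖ * ‖u - v‖ := by
  have h0 : ((k : ℂ) + 1) ≠ 0 := by exact_mod_cast Nat.succ_ne_zero k
  have h1 : x * (u ^ (k + 1) / (k + 1)) - x * (v ^ (k + 1) / (k + 1)) =
      x * ((u ^ (k + 1) - v ^ (k + 1)) / (k + 1)) := by ring
  rw [h1, norm_mul, norm_div]
  refine mul_le_mul_of_nonneg_left ?_ (norm_nonneg _)
  have h2 : ‖(k : ℂ) + 1‖ = (k : ℝ) + 1 := by
    have : ((k : ℂ) + 1) = (((k + 1 : ℕ) : ℝ) : ℂ) := by push_cast; rfl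
    rw [this, Complex.norm_real, Real.norm_of_nonneg (by positivity)]
    push_cast
    rfl
  rw [h2, div_le_iff₀ (by positivity)]
  have h3 := norm_pow_sub_le hu hv (k + 1)
  push_cast at h3
  linarith

theorem term_norm {x u : ℂ} (hu : ‖u‖ ≤ 1) (k : ℕ) : ‖x * (u ^ (k + 1) / (k + 1))‖ ≤ ‖x‖ := by
  have h := term_le (x := x) hu (v := 0) (by simp) k
  rw [zero_pow (Nat.succ_ne_zero k), zero_div, mul_zero, sub_zero, sub_zero] at h
  exact h.trans (mul_le_of_le_one_right (norm_nonneg _) hu)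

theorem lipF (x : ℕ → ℂ) (hx : Summable fun k => ‖x k‖) :
    ∃ K : NNReal, LipschitzOnWith K (fun u : ℂ => ∑' k : ℕ, x k * (u ^ (k + 1) / (k + 1)))
      (Metric.sphere 0 1) := by
  obtain ⟨K, hK⟩ : ∃ K : NNReal, (K : ℝ) = ∑' k, ‖x k‖ :=
    ⟨⟨∑' k, ‖x k‖, tsum_nonneg fun k => norm_nonneg _⟩, rfl⟩
  refine ⟨K, LipschitzOnWith.of_dist_le_mul ?_⟩
  intro u hu v hv
  have hu' : ‖u‖ ≤ 1 := (mem_sphere_zero_iff_norm.1 hu).le
  have hv' : ‖v‖ ≤ 1 := (mem_sphere_zero_iff_norm.1 hv).le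
  have hsum : ∀ {w : ℂ}, ‖w‖ ≤ 1 → Summable fun k : ℕ => x k * (w ^ (k + 1) / (k + 1)) :=
    fun hw => Summable.of_norm_bounded hx fun k => term_norm hw k
  rw [dist_eq_norm, dist_eq_norm, hK, ← (hsum hu').tsum_sub (hsum hv')]
  have hx' : Summable fun k => ‖x k‖ * ‖u - v‖ := hx.mul_right _
  refine (tsum_of_norm_bounded hx'.hasSum fun k => term_le hu' hv' k).trans (le_of_eq ?_)
  rw [tsum_mul_right]

end Vale.Agent.P099.R2.H525
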