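import Mathlib

namespace Vale.Agent.P099.R2.H525

theorem super (ψ : ℕ → ℝ) (hψ : ∀ n, 0 < ψ n) : ∃ a ∈ Set.Ioo (0:ℝ) (1/2), Irrational a ∧
    ∀ n : ℕ, ∃ L ≥ n, 1 ≤ L ∧ ∃ k : ℤ, |a * L - k| < ψ L := by
  let U : ℕ → Set ℝ := fun n => ⋃ L ≥ n, ⋃ (_ : 1 ≤ L), ⋃ k : ℤ, {a : ℝ | |a * L - k| < ψ L}
  have hmem : ∀ n a, a ∈ U n ↔ ∃ L ≥ n, 1 ≤ L ∧ ∃ k : ℤ, |a * L - k| < ψ L := by
    intro n a
    simp only [U, Set.mem_iUnion, Set.mem_ofPred_eq, exists_prop]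
  have hopen : ∀ n, IsOpen (U n) := by
    intro n
    refine isOpen_biUnion fun L _ => isOpen_iUnion fun _ => isOpen_iUnion fun k => ?_
    exact isOpen_lt (by fun_prop) continuous_const
  have hdense : ∀ n, Dense (U n) := by
    intro n
    refine Rat.denseRange_cast.mono ?_
    rintro _ ⟨q, rfl⟩
    rw [hmem]
    refine ⟨q.den * (n + 1), ?_, ?_, q.num * (n + 1), ?_⟩
    · have := q.den_pos
      nlinarith
    · exact Nat.succ_le_of_lt (Nat.mul_pos q.den_pos n.succ_pos)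
    · have h : (q : ℝ) * ((q.den * (n + 1) : ℕ) : ℝ) - ((q.num * (n + 1) : ℤ) : ℝ) = 0 := by
        have h1 : (q : ℝ) * q.den = q.num := by exact_mod_cast Rat.mul_den_eq_num q
        push_cast
        rw [← h1]
        ring
      rw [h, abs_zero]
      exact hψ _
  have h1 : Dense (⋂ n, U n) := dense_iInter_of_isOpen_nat hopen hdense
  have h2 : IsGδ (⋂ n, U n) := .iInter_of_isOpen hopen
  have h3 : Dense ((⋂ n, U n) ∩ {x | Irrational x}) :=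
    h1.inter_of_Gδ h2 IsGδ.setOfPred_irrational dense_irrational
  obtain ⟨a, ha, hI⟩ := h3.exists_mem_open (isOpen_Ioo (a := (0:ℝ)) (b := 1/2))
    ⟨1/4, by norm_num, by norm_num⟩
  obtain ⟨ha, hi⟩ := ha
  exact ⟨a, hI, hi, fun n => (hmem n a).1 (Set.mem_iInter.1 ha n)⟩

end Vale.Agent.P099.R2.H525

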