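import Mathlib.Topology.Instances.Irrational
import Mathlib.Topology.Baire.Lemmas
import Mathlib.Topology.Baire.CompleteMetrizable
import Mathlib.Tactic

namespace Vale.Agent.P099.R2.H525

/-- irrational numbers with very good approximations -/
theorem super (ψ : ℕ → ℝ) (hψ : ∀ n, 0 < ψ n) : ∃ a ∈ Set.Ioo (0 : ℝ) (1 / 2), Irrational a ∧
    ∀ n : ℕ, ∃ L ≥ n, 1 ≤ L ∧ ∃ k : ℤ, |a * L - k| < ψ L := by
  set U : ℕ → Set ℝ := fun n => {a | ∃ L ≥ n, 1 ≤ L ∧ ∃ k : ℤ, |a * L - k| < ψ L} with hU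
  have hopen : ∀ n, IsOpen (U n) := by
    intro n
    have h1 : U n = ⋃ L : ℕ, ⋃ _ : L ≥ n ∧ 1 ≤ L, ⋃ k : ℤ, {a : ℝ | |a * L - k| < ψ L} := by
      ext a
      simp only [hU, Set.mem_ofPred_eq, Set.mem_iUnion]
      constructor
      · rintro ⟨L, h1, h2, k, h3⟩
        exact ⟨L, ⟨h1, h2⟩, k, h3⟩
      · rintro ⟨L, ⟨h1, h2⟩, k, h3⟩
        exact ⟨L, h1, h2, k, h3⟩
    rw [h1]
    refine isOpen_iUnion fun L => isOpen_iUnion fun _ => isOpen_iUnion fun k => ?_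
    exact isOpen_lt (by fun_prop) continuous_const
  have hdense : ∀ n, Dense (U n) := by
    intro n
    refine Dense.mono ?_ (Rat.denseRange_cast (𝕜 := ℝ))
    rintro _ ⟨r, rfl⟩
    refine ⟨r.den * (n + 1), ?_, Nat.mul_pos r.den_pos n.succ_pos, r.num * (n + 1), ?_⟩
    · have := r.den_pos
      nlinarith
    · have h1 : (r : ℝ) * ((r.den * (n + 1) : ℕ) : ℝ) - ((r.num * (n + 1) : ℤ) : ℝ) = 0 := by
        have h2 : (r : ℝ) * (r.den : ℝ) = r.num := by exact_mod_cast Rat.mul_den_eq_num r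
        push_cast
        rw [← mul_assoc, h2, sub_self]
      rw [h1, abs_zero]
      exact hψ _
  have h1 : Dense (⋂ n, U n) := dense_iInter_of_isOpen_nat hopen hdense
  have h2 : IsGδ (⋂ n, U n) := IsGδ.iInter_of_isOpen hopen
  have h3 : Dense ((⋂ n, U n) ∩ {x : ℝ | Irrational x}) :=
    h1.inter_of_Gδ h2 IsGδ.setOfPred_irrational dense_irrational
  obtain ⟨a, ha, ha'⟩ := h3.exists_mem_open isOpen_Ioo (⟨1 / 4, by norm_num, by norm_num⟩ :
    (Set.Ioo (0 : ℝ) (1 / 2)).Nonempty)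
  exact ⟨a, ha', ha.2, fun n => Set.mem_iInter.1 ha.1 n⟩

end Vale.Agent.P099.R2.H525
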