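import Mathlib

/-!
Baire category: irrational numbers with prescribed approximation.
-/

namespace Vale.Agent.P099.R2.H525

open Set

/-- For every positive function `ψ` there is an irrational number `a` in `(0, 1/2)` such that for
infinitely many `L` the distance of `a * L` to the integers is less than `ψ L`. -/
theorem super (ψ : ℕ → ℝ) (hψ : ∀ n, 0 < ψ n) : ∃ a ∈ Set.Ioo (0:ℝ) (1/2), Irrational a ∧
    ∀ n : ℕ, ∃ L ≥ n, 1 ≤ L ∧ ∃ k : ℤ, |a * L - k| < ψ L := by
  set U : ℕ → Set ℝ := fun n => {a : ℝ | ∃ L ≥ n, 1 ≤ L ∧ ∃ k : ℤ, |a * L - k| < ψ L} with hU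
  have hopen : ∀ n, IsOpen (U n) := by
    intro n
    have : U n = ⋃ (L : ℕ) (_ : L ≥ n) (_ : 1 ≤ L) (k : ℤ), {a : ℝ | |a * L - k| < ψ L} := by
      ext a
      simp only [hU, mem_ofPred_eq, mem_iUnion, exists_prop]
    rw [this]
    refine isOpen_iUnion fun L => isOpen_iUnion fun _ => isOpen_iUnion fun _ =>
      isOpen_iUnion fun k => ?_
    exact isOpen_lt (by fun_prop) continuous_const
  have hdense : ∀ n, Dense (U n) := by
    intro n
    refine Rat.isDenseEmbedding_coe_real.dense.mono ?_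
    rintro _ ⟨r, rfl⟩
    refine ⟨(n + 1) * r.den, ?_, ?_, r.num * (n + 1), ?_⟩
    · have := r.den_pos
      nlinarith
    · have := r.den_pos
      nlinarith
    · have h : (r : ℝ) * r.den = r.num := by
        exact_mod_cast Rat.mul_den_eq_num r
      have : (r : ℝ) * (((n + 1) * r.den : ℕ) : ℝ) - ((r.num * (n + 1) : ℤ) : ℝ) = 0 := by
        push_cast
        linear_combination (n + 1 : ℝ) * h
      rw [this, abs_zero]
      exact hψ _
  have h1 : Dense (⋂ n, U n) := dense_iInter_of_isOpen hopen hdense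
  have h2 : IsGδ (⋂ n, U n) := IsGδ.iInter fun n => (hopen n).isGδ
  have h3 : Dense ((⋂ n, U n) ∩ {x : ℝ | Irrational x}) :=
    h1.inter_of_Gδ h2 IsGδ.setOfPred_irrational dense_irrational
  obtain ⟨a, ha, hb⟩ := h3.exists_mem_open (isOpen_Ioo (a := (0 : ℝ)) (b := 1 / 2))
    (nonempty_Ioo.2 (by norm_num))
  exact ⟨a, hb, ha.2, fun n => mem_iInter.1 ha.1 n⟩

end Vale.Agent.P099.R2.H525
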