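import Vale.Agent.P099.H184.PT.Defs

set_option linter.all false

open MeasureTheory Set Filter Topology

namespace Vale.Agent.P099.R2.H525

open Vale.Agent.P099 Vale.Agent.P099T

variable {N : ℕ} (T : PolygonalTable N)

lemma side_notMem (i : Fin N) {z : ℂ} (hz : z ∈ T.side i) : z ∉ T.Q := by
  intro h
  have h1 : z ∈ frontier T.Q := by
    rw [T.frontier_eq]
    exact mem_iUnion.2 ⟨i, openSegment_subset_segment ℝ _ _ hz⟩
  rw [T.isOpen.frontier_eq] at h1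
  exact h1.2 h

/-- the direction changes at most once in a short time -/
def Turn (v v' : ℂ) : Prop := v' = v ∨ ∃ i, v' = T.refl i v

lemma refl_refl (i : Fin N) (u : ℂ) : T.refl i (T.refl i u) = u := by
  unfold PolygonalTable.refl
  exact Submodule.reflection_reflection _ _

lemma local_turn {γ : ℝ → ℂ × ℂ} (hγ : T.IsTrajectory γ) (r : ℝ) : ∃ ε > 0,
    ∀ s ∈ Metric.ball r ε, ∀ s' ∈ Metric.ball r ε, (γ s).1 ∈ T.Q → (γ s').1 ∈ T.Q →
      Turn T (γ s).2 (γ s').2 := by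
  rcases hγ r with ⟨-, h⟩ | ⟨i, u, h1, h2, h3⟩
  · rw [Metric.eventually_nhds_iff] at h
    obtain ⟨ε, hε, h⟩ := h
    refine ⟨ε, hε, fun s hs s' hs' _ _ => Or.inl ?_⟩
    rw [h (y := s) hs, h (y := s') hs']
  · obtain ⟨a, ha, h2⟩ := (eventually_nhdsWithin_iff.1 h2) |> Metric.eventually_nhds_iff.1
    obtain ⟨b, hb, h3⟩ := (eventually_nhdsWithin_iff.1 h3) |> Metric.eventually_nhds_iff.1
    have key : ∀ s ∈ Metric.ball r (min a b), (γ s).1 ∈ T.Q →
        (s < r ∧ (γ s).2 = u) ∨ (r < s ∧ (γ s).2 = T.refl i u) := by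
      intro s hs hQ
      have hs' : dist s r < min a b := hs
      rcases lt_trichotomy s r with h | h | h
      · left
        refine ⟨h, ?_⟩
        rw [h2 (lt_of_lt_of_le hs' (min_le_left _ _)) h]
      · subst h
        exact absurd hQ (side_notMem T i h1)
      · right
        refine ⟨h, ?_⟩
        rw [h3 (lt_of_lt_of_le hs' (min_le_right _ _)) h]
    refine ⟨min a b, lt_min ha hb, fun s hs s' hs' hQ hQ' => ?_⟩
    rcases key s hs hQ with ⟨-, e⟩ | ⟨-, e⟩ <;> rcases key s' hs' hQ' with ⟨-, e'⟩ | ⟨-, e'⟩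
    · exact Or.inl (by rw [e, e'])
    · exact Or.inr ⟨i, by rw [e, e']⟩
    · exact Or.inr ⟨i, by rw [e, e', refl_refl]⟩
    · exact Or.inl (by rw [e, e'])

theorem small_steps {γ : ℝ → ℂ × ℂ} (hγ : T.IsTrajectory γ) (t : ℝ) : ∃ δ > 0,
    ∀ s ∈ Icc (0 : ℝ) t, ∀ s', |s' - s| < δ → (γ s).1 ∈ T.Q → (γ s').1 ∈ T.Q →
      Turn T (γ s).2 (γ s').2 := by
  choose ε hε h using local_turn T hγ
  obtain ⟨δ, hδ, hL⟩ := lebesgue_number_lemma_of_metric (s := Icc (0 : ℝ) t)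
    (c := fun r : ℝ => Metric.ball r (ε r)) isCompact_Icc (fun r => Metric.isOpen_ball)
    (fun r _ => mem_iUnion.2 ⟨r, Metric.mem_ball_self (hε r)⟩)
  refine ⟨δ, hδ, fun s hs s' hs' hQ hQ' => ?_⟩
  obtain ⟨r, hr⟩ := hL s hs
  refine h r s (hr (Metric.mem_ball_self hδ)) s' (hr ?_) hQ hQ'
  rw [Metric.mem_ball, Real.dist_eq]
  exact hs'

end Vale.Agent.P099.R2.H525
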