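import Vale.Agent.P099.R2.H278.Cont
import Vale.Agent.P099.R2.H525.Steps
import Vale.Agent.P099.R2.H525.D_helper657

set_option linter.all false

open MeasureTheory Set Filter Topology

namespace Vale.Agent.P099.R2.H525

open Vale.Agent.P099 Vale.Agent.P099T
open Vale.Agent.P099.R2.H278 (inner measurable_inner flow_straight ae_Q ae_unit)

variable {N : ℕ} (T : PolygonalTable N) {Θ : ℝ → ℂ × ℂ → ℂ × ℂ}

/-- the multiplier of the reflection in the wall `i` -/
noncomputable def cc (i : Fin N) : ℂ := ((T.b i - T.a i) / ‖T.b i - T.a i‖) ^ 2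

lemma norm_cc (i : Fin N) : ‖cc T i‖ = 1 := by
  have h : (‖T.b i - T.a i‖ : ℝ) ≠ 0 := norm_ne_zero_iff.2 (sub_ne_zero.2 (T.ne i).symm)
  unfold cc
  rw [norm_pow, norm_div, Complex.norm_real, norm_norm, div_self h, one_pow]

lemma at_Q (hΘ : PFlow T.mu Θ) (s : ℝ) : ∀ᵐ p ∂T.mu, (Θ s p).1 ∈ T.Q :=
  (hΘ.mp s).quasiMeasurePreserving.ae (ae_Q T)

lemma at_inner (hΘ : PFlow T.mu Θ) (hb : T.IsBilliardFlow Θ) (s : ℝ) {h : ℝ} (hh : 0 ≤ h) :
    ∀ᵐ p ∂T.mu, (Θ s p).1 ∈ inner T h → (Θ (h + s) p).2 = (Θ s p).2 := by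
  filter_upwards [(hΘ.mp s).quasiMeasurePreserving.ae (flow_straight T hb h), hΘ.add h s]
    with p h1 h2 h3
  rw [h2, h1 h3 h ⟨hh, le_refl h⟩]

open Classical in
/-- number of grid points in the collar -/
noncomputable def bad (T : PolygonalTable N) (Θ : ℝ → ℂ × ℂ → ℂ × ℂ) (h : ℝ) (k : ℕ)
    (p : ℂ × ℂ) : ℕ :=
  ∑ j ∈ Finset.range k, if (Θ (j * h) p).1 ∈ inner T h then 0 else 1

lemma reach_mono {c : Fin N → ℂ} {n m : ℕ} (h : n ≤ m) {u v : ℂ} (hr : Reach c n u v) :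
    Reach c m u v := by
  induction m, h using Nat.le_induction with
  | base => exact hr
  | succ m hm ih => exact Reach.stay ih

variable (hrefl : ∀ i u, T.refl i u = cc T i * (starRingEnd ℂ) u)

include hrefl in
lemma reach_grid {h : ℝ} {p : ℂ × ℂ} (h0 : Θ 0 p = p) (k : ℕ)
    (h1 : ∀ j < k, Turn T (Θ (j * h) p).2 (Θ ((j + 1 : ℕ) * h) p).2)
    (h2 : ∀ j < k, (Θ (j * h) p).1 ∈ inner T h → (Θ ((j + 1 : ℕ) * h) p).2 = (Θ (j * h) p).2) :
    Reach (cc T) (bad T Θ h k p) p.2 (Θ (k * h) p).2 := by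
  classical
  induction k with
  | zero =>
    simp only [bad, Finset.range_zero, Finset.sum_empty, Nat.cast_zero, zero_mul, h0]
    exact Reach.refl _
  | succ k ih =>
    have ih' := ih (fun j hj => h1 j (Nat.lt_succ_of_lt hj)) (fun j hj => h2 j (Nat.lt_succ_of_lt hj))
    have e : bad T Θ h (k + 1) p = bad T Θ h k p +
        (if (Θ (k * h) p).1 ∈ inner T h then 0 else 1) := by
      unfold bad
      rw [Finset.sum_range_succ]
    rw [e]
    split_ifs with hc
    · rw [h2 k (Nat.lt_succ_self k) hc, add_zero]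
      exact ih'
    · rcases h1 k (Nat.lt_succ_self k) with h3 | ⟨i, h3⟩
      · rw [h3]
        exact Reach.stay ih'
      · rw [h3, hrefl]
        exact Reach.step i ih'

/-- every fine grid sees every bounce -/
lemma fine (hΘ : PFlow T.mu Θ) (hb : T.IsBilliardFlow Θ) {t : ℝ} (ht : 0 ≤ t) :
    ∀ᵐ p ∂T.mu, ∃ m0 : ℕ, ∀ m ≥ m0, ∀ j < m,
      Turn T (Θ (j * (t / m)) p).2 (Θ ((j + 1 : ℕ) * (t / m)) p).2 := by
  have hQ : ∀ᵐ p ∂T.mu, ∀ m j : ℕ, (Θ (j * (t / m)) p).1 ∈ T.Q :=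
    ae_all_iff.2 fun m => ae_all_iff.2 fun j => at_Q T hΘ _
  filter_upwards [hQ, hb] with p hp hp2
  obtain ⟨δ, hδ, hs⟩ := small_steps T hp2.2 t
  obtain ⟨m0, hm0⟩ := exists_nat_gt (t / δ)
  refine ⟨m0 + 1, fun m hm j hj => ?_⟩
  have hm1 : (0 : ℝ) < m := by
    have : 0 < m := by omega
    exact_mod_cast this
  have hm2 : (m0 : ℝ) ≤ m := by exact_mod_cast (by omega : m0 ≤ m)
  have hh : t / m < δ := by
    rw [div_lt_iff₀ hm1]
    rw [div_lt_iff₀ hδ] at hm0
    nlinarith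
  have hh0 : 0 ≤ t / m := div_nonneg ht hm1.le
  refine hs _ ⟨by positivity, ?_⟩ _ ?_ (hp m j) (hp m (j + 1))
  · have : (j : ℝ) ≤ m := by exact_mod_cast hj.le
    calc (j : ℝ) * (t / m) ≤ m * (t / m) := mul_le_mul_of_nonneg_right this hh0
      _ = t := by field_simp
  · push_cast
    rw [show ((j : ℝ) + 1) * (t / m) - j * (t / m) = t / m by ring, abs_of_nonneg hh0]
    exact hh

lemma measurable_bad (hΘ : PFlow T.mu Θ) (h : ℝ) (k : ℕ) :
    Measurable fun p => (bad T Θ h k p : ℝ) := by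
  classical
  unfold bad
  push_cast
  refine Finset.measurable_sum _ fun j _ => ?_
  refine Measurable.ite ?_ measurable_const measurable_const
  exact (measurable_inner T h).preimage ((hΘ.mp _).measurable.fst)

lemma integral_bad (hΘ : PFlow T.mu Θ) (h : ℝ) (k : ℕ) :
    ∫ p, (bad T Θ h k p : ℝ) ∂T.mu = k * T.mu.real {p | p.1 ∉ inner T h} := by
  classical
  have hm : MeasurableSet {p : ℂ × ℂ | p.1 ∉ inner T h} :=
    ((measurable_inner T h).preimage measurable_fst).compl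
  have e : ∀ p, (bad T Θ h k p : ℝ) = ∑ j ∈ Finset.range k,
      ((Θ (j * h)) ⁻¹' {p | p.1 ∉ inner T h}).indicator (fun _ => (1 : ℝ)) p := by
    intro p
    unfold bad
    push_cast
    refine Finset.sum_congr rfl fun j _ => ?_
    by_cases hc : (Θ (j * h) p).1 ∈ inner T h
    · rw [if_pos hc, indicator_of_notMem]
      exact fun h' => h' hc
    · rw [if_neg hc, indicator_of_mem]
      exact hc
  simp only [e]
  rw [integral_finset_sum]
  · have : ∀ j : ℕ, ∫ p, ((Θ (j * h)) ⁻¹' {p | p.1 ∉ inner T h}).indicator (fun _ => (1 : ℝ)) p ∂T.mu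
        = T.mu.real {p | p.1 ∉ inner T h} := by
      intro j
      rw [integral_indicator (hm.preimage (hΘ.mp _).measurable)]
      simp only [integral_const, smul_eq_mul, mul_one, measureReal_restrict_apply_univ]
      exact (hΘ.mp _).measureReal_preimage hm.nullMeasurableSet
    simp only [this, Finset.sum_const, Finset.card_range, nsmul_eq_mul]
  · intro j _
    exact (integrable_const (1 : ℝ)).indicator (hm.preimage (hΘ.mp _).measurable)

end Vale.Agent.P099.R2.H525
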