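import Mathlib

/-!
# Numbers which are approximated arbitrarily well
-/

open Set Topology

namespace Vale.Agent.P099.R2.H525

/-- For every positive function `ψ` there is an irrational `a` between `0` and `1/2` with
`‖a L‖ < ψ L` for infinitely many `L`. -/
theorem super (ψ : ℕ → ℝ) (hψ : ∀ n, 0 < ψ n) :
    ∃ a ∈ Set.Ioo (0 : ℝ) (1 / 2), Irrational a ∧
      ∀ n : ℕ, ∃ L ≥ n, 1 ≤ L ∧ ∃ k : ℤ, |a * L - k| < ψ L := by
  let U : ℕ → Set ℝ := fun n => ⋃ L ∈ {L : ℕ | n ≤ L ∧ 1 ≤ L}, ⋃ k : ℤ, {a : ℝ | |a * L - k| < ψ L}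
  have hUo : ∀ n, IsOpen (U n) := fun n =>
    isOpen_biUnion fun L _ => isOpen_iUnion fun k => isOpen_lt (by fun_prop) continuous_const
  have hUd : ∀ n, Dense (U n) := fun n => by
    refine Rat.denseRange_cast.mono ?_
    rintro _ ⟨q, rfl⟩
    refine mem_iUnion₂.2 ⟨(n + 1) * q.den, ⟨?_, ?_⟩, mem_iUnion.2 ⟨(n + 1) * q.num, ?_⟩⟩
    · nlinarith [q.den_pos]
    · exact Nat.succ_le_of_lt (Nat.mul_pos (Nat.succ_pos n) q.den_pos)
    · show |(q : ℝ) * (((n + 1) * q.den : ℕ) : ℝ) - (((n + 1) * q.num : ℤ) : ℝ)| < _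
      have h1 : (q : ℝ) * (q.den : ℝ) = (q.num : ℝ) := by exact_mod_cast Rat.mul_den_eq_num q
      have h2 : (q : ℝ) * (((n + 1) * q.den : ℕ) : ℝ) - (((n + 1) * q.num : ℤ) : ℝ) = 0 := by
        push_cast
        linear_combination ((n : ℝ) + 1) * h1
      rw [h2, abs_zero]
      exact hψ _
  have hI : Dense (⋂ n, U n) := dense_iInter_of_isOpen_nat hUo hUd
  have hG : IsGδ (⋂ n, U n) := IsGδ.iInter_of_isOpen hUo
  have hd : Dense ({x : ℝ | Irrational x} ∩ ⋂ n, U n) :=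
    dense_irrational.inter_of_Gδ IsGδ.setOfPred_irrational hG hI
  obtain ⟨a, ⟨hirr, hU⟩, ha⟩ := hd.exists_mem_open isOpen_Ioo
    (show (Set.Ioo (0 : ℝ) (1 / 2)).Nonempty from ⟨1 / 4, by norm_num, by norm_num⟩)
  refine ⟨a, ha, hirr, fun n => ?_⟩
  obtain ⟨L, ⟨hL, hL1⟩, hk⟩ := mem_iUnion₂.1 (mem_iInter.1 hU n)
  obtain ⟨k, hk⟩ := mem_iUnion.1 hk
  exact ⟨L, hL, hL1, k, hk⟩

end Vale.Agent.P099.R2.H525
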