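import Mathlib

namespace Vale.Agent.P099.R2.H525

/-- ROW PSI: superexponentially well approximable irrationals in `(0, 1/2)`. -/
theorem super (ψ : ℕ → ℝ) (hψ : ∀ n, 0 < ψ n) :
    ∃ a ∈ Set.Ioo (0:ℝ) (1/2), Irrational a ∧
      ∀ n : ℕ, ∃ L ≥ n, 1 ≤ L ∧ ∃ k : ℤ, |a * L - k| < ψ L := by
  set S : ℕ → Set ℝ := fun n =>
    {a | ∃ L ≥ n, 1 ≤ L ∧ ∃ k : ℤ, |a * L - k| < ψ L} with hS
  have hopen : ∀ n, IsOpen (S n) := by
    intro n
    have : S n = ⋃ (L : ℕ) (_ : L ≥ n ∧ 1 ≤ L) (k : ℤ), {a : ℝ | |a * L - k| < ψ L} := by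
      ext a
      simp only [hS, Set.mem_ofPred_eq, Set.mem_iUnion, exists_prop]
      constructor
      · rintro ⟨L, h1, h2, k, hk⟩
        exact ⟨L, ⟨h1, h2⟩, k, hk⟩
      · rintro ⟨L, ⟨h1, h2⟩, k, hk⟩
        exact ⟨L, h1, h2, k, hk⟩
    rw [this]
    refine isOpen_iUnion fun L => isOpen_iUnion fun _ => isOpen_iUnion fun k => ?_
    exact isOpen_lt (by fun_prop) continuous_const
  have hdense : ∀ n, Dense (S n) := by
    intro n
    refine Rat.isDenseEmbedding_coe_real.dense.mono ?_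
    rintro _ ⟨q, rfl⟩
    refine ⟨q.den * (n + 1), ?_, ?_, q.num * (n + 1), ?_⟩
    · have h1 : 1 ≤ q.den := q.den_pos
      nlinarith
    · exact Nat.succ_le_of_lt (Nat.mul_pos q.den_pos (Nat.succ_pos n))
    · have h0 : (q : ℝ) * ((q.den * (n + 1) : ℕ) : ℝ) - ((q.num * (n + 1) : ℤ) : ℝ) = 0 := by
        have h2 : (q : ℝ) * (q.den : ℝ) = (q.num : ℝ) := by
          have := Rat.mul_den_eq_num q
          exact_mod_cast this
        push_cast
        rw [← mul_assoc, h2]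
        ring
      rw [h0, abs_zero]
      exact hψ _
  have hD : Dense (⋂ n, S n) := dense_iInter_of_isOpen hopen hdense
  have hG : IsGδ (⋂ n, S n) := IsGδ.iInter_of_isOpen hopen
  have hD2 : Dense ((⋂ n, S n) ∩ {x : ℝ | Irrational x}) :=
    hD.inter_of_Gδ hG IsGδ.setOfPred_irrational dense_irrational
  obtain ⟨a, ha, hm⟩ := hD2.exists_mem_open (isOpen_Ioo : IsOpen (Set.Ioo (0:ℝ) (1/2)))
    ⟨1/4, by norm_num, by norm_num⟩
  exact ⟨a, hm, ha.2, fun n => Set.mem_iInter.1 ha.1 n⟩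

end Vale.Agent.P099.R2.H525
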