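import Mathlib

/-! # P099, row A2: the collision bound in the form of a sum -/

namespace Vale.Agent.P099.R2.H525

open MeasureTheory Finset ComplexConjugate

theorem collision_sum_core {Ω : Type} [MeasurableSpace Ω] (m : Measure Ω) [IsProbabilityMeasure m]
    {z : Ω → ℂ} (hz : Measurable z) (h1 : ∀ ω, ‖z ω‖ = 1) (D : Finset ℂ) (K : ℕ) :
    (K : ℝ) ^ 2 * ∑ d ∈ D, (m.real (z ⁻¹' {d})) ^ 2 ≤
      ∑ k ∈ range K, ∑ k' ∈ range K, ‖∫ ω, z ω ^ k * (conj (z ω)) ^ k' ∂m‖ ^ 2 := by
  classical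
  have hzc : Measurable fun ω => conj (z ω) := Complex.continuous_conj.measurable.comp hz
  have hint : ∀ k k' : ℕ, Integrable (fun ω => z ω ^ k * (conj (z ω)) ^ k') m := by
    intro k k'
    refine Integrable.of_bound ((hz.pow_const k).mul (hzc.pow_const k')).aestronglyMeasurable 1
      (Filter.Eventually.of_forall fun ω => ?_)
    rw [norm_mul, norm_pow, norm_pow, RCLike.norm_conj, h1, one_pow, one_pow, one_mul]
  let b : ℕ → ℕ → ℂ := fun k k' => ∫ ω, z ω ^ k * (conj (z ω)) ^ k' ∂m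
  let S : ℂ → Ω → ℂ := fun w ω => ∑ k ∈ range K, (w * conj (z ω)) ^ k
  let g : ℂ → ℝ := fun w => ∫ ω, ‖S w ω‖ ^ 2 ∂m
  have hSm : ∀ w, Measurable (S w) := fun w =>
    Finset.measurable_fun_sum _ fun k _ => (measurable_const.mul hzc).pow_const k
  have hSb : ∀ w ω, ‖w‖ = 1 → ‖S w ω‖ ≤ K := by
    intro w ω hw
    refine (norm_sum_le _ _).trans ?_
    refine (Finset.sum_le_card_nsmul _ _ 1 fun k _ => ?_).trans ?_
    · rw [norm_pow, norm_mul, RCLike.norm_conj, h1, hw, one_mul, one_pow]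
    · rw [card_range, nsmul_eq_mul, mul_one]
  have hF : ∀ w, ∑ k ∈ range K, ∑ k' ∈ range K, w ^ k * conj w ^ k' * conj (b k k') =
      ((g w : ℝ) : ℂ) := by
    intro w
    have e1 : ((g w : ℝ) : ℂ) = ∫ ω, ((‖S w ω‖ ^ 2 : ℝ) : ℂ) ∂m := (integral_ofReal).symm
    have e2 : ∀ ω, ((‖S w ω‖ ^ 2 : ℝ) : ℂ) = ∑ k ∈ range K, ∑ k' ∈ range K,
        w ^ k * conj w ^ k' * (conj (z ω) ^ k * z ω ^ k') := by
      intro ω
      rw [Complex.ofReal_pow, ← Complex.mul_conj']
      simp only [S]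
      rw [map_sum, Finset.sum_mul_sum]
      refine Finset.sum_congr rfl fun k _ => Finset.sum_congr rfl fun k' _ => ?_
      rw [map_pow, map_mul, Complex.conj_conj, mul_pow, mul_pow]
      ring
    have hint2 : ∀ k k' : ℕ, Integrable (fun ω => w ^ k * conj w ^ k' *
        (conj (z ω) ^ k * z ω ^ k')) m := by
      intro k k'
      refine Integrable.const_mul ?_ _
      refine (hint k' k).congr (Filter.Eventually.of_forall fun ω => ?_)
      exact mul_comm _ _
    rw [e1]
    simp_rw [e2]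
    rw [integral_finsetSum _ fun k _ => integrable_finsetSum _ fun k' _ => hint2 k k']
    refine Finset.sum_congr rfl fun k _ => ?_
    rw [integral_finsetSum _ fun k' _ => hint2 k k']
    refine Finset.sum_congr rfl fun k' _ => ?_
    rw [integral_const_mul]
    congr 1
    simp only [b]
    rw [← integral_conj]
    refine integral_congr_ae (Filter.Eventually.of_forall fun ω => ?_)
    simp only [map_mul, map_pow, Complex.conj_conj]
  have hint3 : Integrable (fun ω => ((g (z ω) : ℝ) : ℂ)) m := by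
    simp_rw [← hF]
    refine integrable_finsetSum _ fun k _ => integrable_finsetSum _ fun k' _ => ?_
    exact (hint k k').mul_const _
  have hint4 : Integrable (fun ω => g (z ω)) m := by
    have := hint3.re
    simpa using this
  have htot : ∑ k ∈ range K, ∑ k' ∈ range K, ‖b k k'‖ ^ 2 = ∫ ω, g (z ω) ∂m := by
    have e1 : ((∫ ω, g (z ω) ∂m : ℝ) : ℂ) = ∫ ω, ((g (z ω) : ℝ) : ℂ) ∂m := (integral_ofReal).symm
    apply Complex.ofReal_injective
    rw [e1]
    simp_rw [← hF]
    rw [integral_finsetSum _ fun k _ => integrable_finsetSum _ fun k' _ =>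
      (hint k k').mul_const _]
    rw [Complex.ofReal_sum]
    refine Finset.sum_congr rfl fun k _ => ?_
    rw [integral_finsetSum _ fun k' _ => (hint k k').mul_const _]
    rw [Complex.ofReal_sum]
    refine Finset.sum_congr rfl fun k' _ => ?_
    rw [integral_mul_const, Complex.ofReal_pow, ← Complex.mul_conj']
  have hg : ∀ w, ‖w‖ = 1 → (K : ℝ) ^ 2 * m.real (z ⁻¹' {w}) ≤ g w := by
    intro w hw
    have hmeas : MeasurableSet (z ⁻¹' {w}) := hz (measurableSet_singleton w)
    have e : (K : ℝ) ^ 2 * m.real (z ⁻¹' {w}) =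
        ∫ ω, (z ⁻¹' {w}).indicator (fun _ => (K : ℝ) ^ 2) ω ∂m := by
      rw [integral_indicator_const _ hmeas, smul_eq_mul, mul_comm]
    rw [e]
    refine integral_mono_of_nonneg ?_ ?_ ?_
    · refine Filter.Eventually.of_forall fun ω => ?_
      exact Set.indicator_nonneg (fun _ _ => by positivity) _
    · refine Integrable.of_bound ((hSm w).norm.pow_const 2).aestronglyMeasurable ((K : ℝ) ^ 2)
        (Filter.Eventually.of_forall fun ω => ?_)
      rw [Real.norm_of_nonneg (by positivity)]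
      exact pow_le_pow_left₀ (norm_nonneg _) (hSb w ω hw) 2
    · refine Filter.Eventually.of_forall fun ω => ?_
      by_cases hω : ω ∈ z ⁻¹' {w}
      · have hzw : z ω = w := hω
        simp only [Set.indicator_of_mem hω]
        have hS : S w ω = K := by
          simp only [S]
          have : w * conj (z ω) = 1 := by
            rw [hzw, Complex.mul_conj', hw]
            norm_num
          simp [this]
        rw [hS, Complex.norm_natCast]
      · simp only [Set.indicator_of_notMem hω]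
        positivity
  change (K : ℝ) ^ 2 * ∑ d ∈ D, (m.real (z ⁻¹' {d})) ^ 2 ≤
      ∑ k ∈ range K, ∑ k' ∈ range K, ‖b k k'‖ ^ 2
  rw [htot]
  have e3 : (K : ℝ) ^ 2 * ∑ d ∈ D, (m.real (z ⁻¹' {d})) ^ 2 =
      ∫ ω, ∑ d ∈ D, (z ⁻¹' {d}).indicator (fun _ => (K : ℝ) ^ 2 * m.real (z ⁻¹' {d})) ω ∂m := by
    rw [integral_finsetSum _ fun d _ => (integrable_const _).indicator
      (hz (measurableSet_singleton d)), Finset.mul_sum]
    refine Finset.sum_congr rfl fun d _ => ?_
    rw [integral_indicator_const _ (hz (measurableSet_singleton d)), smul_eq_mul]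
    ring
  rw [e3]
  refine integral_mono (integrable_finsetSum _ fun d _ => (integrable_const _).indicator
      (hz (measurableSet_singleton d))) hint4 fun ω => ?_
  have e4 : ∑ d ∈ D, (z ⁻¹' {d}).indicator (fun _ => (K : ℝ) ^ 2 * m.real (z ⁻¹' {d})) ω =
      if z ω ∈ D then (K : ℝ) ^ 2 * m.real (z ⁻¹' {z ω}) else 0 := by
    have : ∀ d ∈ D, (z ⁻¹' {d}).indicator (fun _ => (K : ℝ) ^ 2 * m.real (z ⁻¹' {d})) ω =
        if z ω = d then (K : ℝ) ^ 2 * m.real (z ⁻¹' {d}) else 0 := fun d _ => by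
      rw [Set.indicator_apply]; rfl
    rw [Finset.sum_congr rfl this, Finset.sum_ite_eq]
  change ∑ d ∈ D, (z ⁻¹' {d}).indicator (fun _ => (K : ℝ) ^ 2 * m.real (z ⁻¹' {d})) ω ≤ g (z ω)
  rw [e4]
  split_ifs
  · exact hg _ (h1 ω)
  · exact integral_nonneg fun ω' => by positivity

theorem collision_sum {Ω : Type} [MeasurableSpace Ω] (m : Measure Ω) [IsProbabilityMeasure m]
    {z : Ω → ℂ} (hz : Measurable z) (h1 : ∀ᵐ ω ∂m, ‖z ω‖ = 1) (D : Finset ℂ) {q : ℝ} (hq : 0 < q)
    (hD : q ≤ m.real (z ⁻¹' (D : Set ℂ))) {M L : ℕ} (hM : D.card ≤ M)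
    (hL : 2 * (M : ℝ) ≤ q ^ 2 * L) :
    1 / 2 ≤ ∑ l ∈ Finset.Icc 1 L, ‖∫ ω, z ω ^ l ∂m‖ ^ 2 := by
  classical
  -- modification on a null set
  let y : Ω → ℂ := fun ω => if ‖z ω‖ = 1 then z ω else 1
  have hy : Measurable y := Measurable.ite (hz.norm (measurableSet_singleton 1)) hz
    measurable_const
  have hy1 : ∀ ω, ‖y ω‖ = 1 := by
    intro ω
    simp only [y]
    split_ifs with h
    · exact h
    · exact norm_one
  have hyz : y =ᵐ[m] z := by
    filter_upwards [h1] with ω hω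
    simp only [y, hω, if_true]
  have hM0 : 0 < M := by
    rcases Nat.eq_zero_or_pos M with h | h
    · exfalso
      rw [h] at hM
      have hD0 : D = ∅ := Finset.card_eq_zero.1 (Nat.le_zero.1 hM)
      rw [hD0] at hD
      simp at hD
      linarith
    · exact h
  have hMR : (0 : ℝ) < M := by exact_mod_cast hM0
  have hcore := collision_sum_core m hy hy1 D (L + 1)
  let A : ℕ → ℝ := fun l => ‖∫ ω, z ω ^ l ∂m‖ ^ 2
  have hA0 : ∀ l, 0 ≤ A l := fun l => by positivity
  let Sg : ℝ := ∑ l ∈ Finset.Icc 1 L, A l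
  -- the diagonal and the other terms
  have hnorm : ∀ k k' : ℕ, k ≤ k' → ‖∫ ω, y ω ^ k' * (conj (y ω)) ^ k ∂m‖ =
      ‖∫ ω, z ω ^ (k' - k) ∂m‖ := by
    intro k k' hkk
    congr 1
    refine integral_congr_ae ?_
    filter_upwards [hyz] with ω hω
    have h2 : y ω * conj (y ω) = 1 := by
      rw [Complex.mul_conj', hy1]; norm_num
    calc y ω ^ k' * (conj (y ω)) ^ k = y ω ^ (k' - k) * (y ω * conj (y ω)) ^ k := by
          rw [mul_pow, ← mul_assoc, ← pow_add, Nat.sub_add_cancel hkk]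
      _ = z ω ^ (k' - k) := by rw [h2, one_pow, mul_one, hω]
  have hsym : ∀ k k' : ℕ, ‖∫ ω, y ω ^ k * (conj (y ω)) ^ k' ∂m‖ =
      ‖∫ ω, y ω ^ k' * (conj (y ω)) ^ k ∂m‖ := by
    intro k k'
    rw [← RCLike.norm_conj, ← integral_conj]
    congr 1
    refine integral_congr_ae (Filter.Eventually.of_forall fun ω => ?_)
    simp only [map_mul, map_pow, Complex.conj_conj]
    exact mul_comm _ _
  have hbound : ∀ k k' : ℕ, ‖∫ ω, y ω ^ k * (conj (y ω)) ^ k' ∂m‖ ^ 2 ≤
        (if k = k' then 1 else 0) + (if k' < k then A (k - k') else 0) +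
          (if k < k' then A (k' - k) else 0) := by
    intro k k'
    rcases lt_trichotomy k k' with h | h | h
    · rw [if_neg h.ne, if_neg h.not_gt, if_pos h, zero_add, zero_add, hsym, hnorm k k' h.le]
    · subst h
      rw [if_pos rfl, if_neg (lt_irrefl k), add_zero, add_zero, hnorm k k le_rfl, Nat.sub_self]
      simp only [pow_zero, integral_const, probReal_univ, one_smul, norm_one, one_pow]
      exact le_rfl
    · rw [if_neg h.ne', if_pos h, if_neg h.not_gt, zero_add, add_zero, hnorm k' k h.le]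
  have hs1 : ∀ k ∈ range (L + 1), ∑ k' ∈ range (L + 1), (if k' < k then A (k - k') else 0) ≤ Sg := by
    intro k hk
    rw [mem_range] at hk
    rw [← Finset.sum_filter]
    have hinj : Set.InjOn (fun k' => k - k')
        (((range (L + 1)).filter fun k' => k' < k : Finset ℕ) : Set ℕ) := by
      intro a ha c hc hac
      have ha' := (Finset.mem_filter.1 (Finset.mem_coe.1 ha)).2
      have hc' := (Finset.mem_filter.1 (Finset.mem_coe.1 hc)).2
      change k - a = k - c at hac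
      omega
    rw [← Finset.sum_image (f := A) hinj]
    refine Finset.sum_le_sum_of_subset_of_nonneg ?_ fun l _ _ => hA0 l
    intro l hl
    obtain ⟨a, ha, rfl⟩ := Finset.mem_image.1 hl
    have ha' := (Finset.mem_filter.1 ha).2
    rw [Finset.mem_Icc]
    omega
  have hs2 : ∀ k ∈ range (L + 1), ∑ k' ∈ range (L + 1), (if k < k' then A (k' - k) else 0) ≤ Sg := by
    intro k hk
    rw [mem_range] at hk
    rw [← Finset.sum_filter]
    have hinj : Set.InjOn (fun k' => k' - k)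
        (((range (L + 1)).filter fun k' => k < k' : Finset ℕ) : Set ℕ) := by
      intro a ha c hc hac
      have ha' := (Finset.mem_filter.1 (Finset.mem_coe.1 ha)).2
      have hc' := (Finset.mem_filter.1 (Finset.mem_coe.1 hc)).2
      change a - k = c - k at hac
      omega
    rw [← Finset.sum_image (f := A) hinj]
    refine Finset.sum_le_sum_of_subset_of_nonneg ?_ fun l _ _ => hA0 l
    intro l hl
    obtain ⟨a, ha, rfl⟩ := Finset.mem_image.1 hl
    have ha' := (Finset.mem_filter.1 ha).2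
    have ha2 := Finset.mem_range.1 (Finset.mem_filter.1 ha).1
    rw [Finset.mem_Icc]
    omega
  have hsum : ∑ k ∈ range (L + 1), ∑ k' ∈ range (L + 1),
      ‖∫ ω, y ω ^ k * (conj (y ω)) ^ k' ∂m‖ ^ 2 ≤ ((L : ℝ) + 1) * (1 + 2 * Sg) := by
    have h2 : ∀ k ∈ range (L + 1), ∑ k' ∈ range (L + 1),
        ‖∫ ω, y ω ^ k * (conj (y ω)) ^ k' ∂m‖ ^ 2 ≤ 1 + 2 * Sg := by
      intro k hk
      refine (Finset.sum_le_sum fun k' _ => hbound k k').trans ?_
      rw [Finset.sum_add_distrib, Finset.sum_add_distrib, Finset.sum_ite_eq, if_pos hk]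
      have := hs1 k hk
      have := hs2 k hk
      linarith
    refine (Finset.sum_le_sum h2).trans ?_
    rw [Finset.sum_const, card_range, nsmul_eq_mul]
    push_cast
    exact le_rfl
  -- the mass of D
  have hmass : q ^ 2 ≤ M * ∑ d ∈ D, (m.real (y ⁻¹' {d})) ^ 2 := by
    have h2 : q ≤ ∑ d ∈ D, m.real (y ⁻¹' {d}) := by
      refine hD.trans ?_
      have e1 : m.real (z ⁻¹' (D : Set ℂ)) = m.real (y ⁻¹' (D : Set ℂ)) := by
        refine measureReal_congr ?_
        filter_upwards [hyz] with ω hω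
        change (z ω ∈ (D : Set ℂ)) = (y ω ∈ (D : Set ℂ))
        rw [hω]
      rw [e1]
      have e2 : y ⁻¹' (D : Set ℂ) = ⋃ d ∈ D, y ⁻¹' {d} := by
        ext ω
        simp
      rw [e2]
      exact measureReal_biUnion_finset_le _ _
    have h3 : q ^ 2 ≤ (∑ d ∈ D, m.real (y ⁻¹' {d})) ^ 2 := pow_le_pow_left₀ hq.le h2 2
    have h4 := sq_sum_le_card_mul_sum_sq (s := D) (f := fun d => m.real (y ⁻¹' {d}))
    have h5 : (D.card : ℝ) ≤ M := by exact_mod_cast hM
    have h6 : 0 ≤ ∑ d ∈ D, (m.real (y ⁻¹' {d})) ^ 2 := Finset.sum_nonneg fun d _ => sq_nonneg _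
    calc q ^ 2 ≤ _ := h3
      _ ≤ _ := h4
      _ ≤ _ := mul_le_mul_of_nonneg_right h5 h6
  push_cast at hcore
  have h7 := hcore.trans hsum
  have hLp : (0 : ℝ) < (L : ℝ) + 1 := by positivity
  have h8 : ((L : ℝ) + 1) ^ 2 * q ^ 2 ≤
      M * (((L : ℝ) + 1) ^ 2 * ∑ d ∈ D, (m.real (y ⁻¹' {d})) ^ 2) := by
    calc ((L : ℝ) + 1) ^ 2 * q ^ 2
        ≤ ((L : ℝ) + 1) ^ 2 * (M * ∑ d ∈ D, (m.real (y ⁻¹' {d})) ^ 2) :=
          mul_le_mul_of_nonneg_left hmass (by positivity)
      _ = _ := by ring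
  have h9 : ((L : ℝ) + 1) ^ 2 * q ^ 2 ≤ M * (((L : ℝ) + 1) * (1 + 2 * Sg)) :=
    h8.trans (mul_le_mul_of_nonneg_left h7 hMR.le)
  have h10 : ((L : ℝ) + 1) * q ^ 2 ≤ M * (1 + 2 * Sg) := by
    have h11 : ((L : ℝ) + 1) * (((L : ℝ) + 1) * q ^ 2) ≤ ((L : ℝ) + 1) * (M * (1 + 2 * Sg)) := by
      linarith
    exact le_of_mul_le_mul_left h11 hLp
  have h12 : 0 < q ^ 2 := by positivity
  have h13 : (M : ℝ) * 2 ≤ M * (1 + 2 * Sg) := by linarith
  have h14 := le_of_mul_le_mul_left h13 hMR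
  change 1 / 2 ≤ Sg
  linarith

end Vale.Agent.P099.R2.H525
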