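import Vale.Agent.P099.R2.H525.RowA_helper431

/-!
# P099, row A in sum form
-/

open MeasureTheory
open scoped ComplexConjugate

namespace Vale.Agent.P099.R2.H525

theorem row_sum (a : ℕ → ℝ) (ha : ∀ l, 0 ≤ a l) (k L : ℕ) (hk : k < L + 1) :
    ∑ k' ∈ Finset.range (L + 1), a (max k k' - min k k') ≤
      a 0 + 2 * ∑ l ∈ Finset.Icc 1 L, a l := by
  have h1 : ∑ k' ∈ (Finset.range (L + 1)).filter (· < k), a (max k k' - min k k') ≤
      ∑ l ∈ Finset.Icc 1 L, a l := by
    calc ∑ k' ∈ (Finset.range (L + 1)).filter (· < k), a (max k k' - min k k')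
        = ∑ k' ∈ (Finset.range (L + 1)).filter (· < k), a (k - k') :=
          Finset.sum_congr rfl fun k' h => by
            rw [Finset.mem_filter] at h
            rw [max_eq_left h.2.le, min_eq_right h.2.le]
      _ = ∑ l ∈ ((Finset.range (L + 1)).filter (· < k)).image (fun k' => k - k'), a l := by
          rw [Finset.sum_image]
          intro x hx y hy h
          simp only [Finset.coe_filter, Finset.mem_range, Set.mem_ofPred_eq] at hx hy
          simp only at h
          omega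
      _ ≤ _ := Finset.sum_le_sum_of_subset_of_nonneg (by
          intro l hl
          simp only [Finset.mem_image, Finset.mem_filter, Finset.mem_range] at hl
          obtain ⟨x, hx, rfl⟩ := hl
          rw [Finset.mem_Icc]
          omega) fun l _ _ => ha l
  have h2 : ∑ k' ∈ (Finset.range (L + 1)).filter (k < ·), a (max k k' - min k k') ≤
      ∑ l ∈ Finset.Icc 1 L, a l := by
    calc ∑ k' ∈ (Finset.range (L + 1)).filter (k < ·), a (max k k' - min k k')
        = ∑ k' ∈ (Finset.range (L + 1)).filter (k < ·), a (k' - k) :=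
          Finset.sum_congr rfl fun k' h => by
            rw [Finset.mem_filter] at h
            rw [max_eq_right h.2.le, min_eq_left h.2.le]
      _ = ∑ l ∈ ((Finset.range (L + 1)).filter (k < ·)).image (fun k' => k' - k), a l := by
          rw [Finset.sum_image]
          intro x hx y hy h
          simp only [Finset.coe_filter, Finset.mem_range, Set.mem_ofPred_eq] at hx hy
          simp only at h
          omega
      _ ≤ _ := Finset.sum_le_sum_of_subset_of_nonneg (by
          intro l hl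
          simp only [Finset.mem_image, Finset.mem_filter, Finset.mem_range] at hl
          obtain ⟨x, hx, rfl⟩ := hl
          rw [Finset.mem_Icc]
          omega) fun l _ _ => ha l
  have h3 : ∑ k' ∈ Finset.range (L + 1), a (max k k' - min k k') =
      ∑ k' ∈ (Finset.range (L + 1)).filter (· < k), a (max k k' - min k k') +
        (∑ k' ∈ (Finset.range (L + 1)).filter (k < ·), a (max k k' - min k k') + a 0) := by
    rw [← Finset.sum_filter_add_sum_filter_not (Finset.range (L + 1)) (· < k)]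
    congr 1
    rw [← Finset.sum_filter_add_sum_filter_not
      ((Finset.range (L + 1)).filter fun x => ¬ x < k) (k < ·)]
    congr 1
    · refine Finset.sum_congr ?_ fun _ _ => rfl
      ext x
      simp only [Finset.mem_filter, Finset.mem_range]
      omega
    · have : ((Finset.range (L + 1)).filter fun x => ¬ x < k).filter (fun x => ¬ k < x) = {k} := by
        ext x
        simp only [Finset.mem_filter, Finset.mem_range, Finset.mem_singleton]
        omega
      rw [this]
      simp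
  rw [h3]
  linarith

theorem collision_sum_core {Ω : Type} [MeasurableSpace Ω] (m : Measure Ω)
    [IsProbabilityMeasure m] {z : Ω → ℂ} (hz : Measurable z) (h1 : ∀ ω, ‖z ω‖ = 1)
    (D : Finset ℂ) {q : ℝ}
    (hq : 0 < q) (hD : q ≤ m.real (z ⁻¹' (D : Set ℂ))) {M L : ℕ} (hM : D.card ≤ M)
    (hL : 2 * (M : ℝ) ≤ q ^ 2 * L) :
    1 / 2 ≤ ∑ l ∈ Finset.Icc 1 L, ‖∫ ω, z ω ^ l ∂m‖ ^ 2 := by
  have hmeas : ∀ d : ℂ, MeasurableSet (z ⁻¹' {d}) := fun d => hz (measurableSet_singleton d)
  have hsum : m.real (z ⁻¹' (D : Set ℂ)) = ∑ d ∈ D, m.real (z ⁻¹' {d}) := by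
    have : z ⁻¹' (D : Set ℂ) = ⋃ d ∈ D, z ⁻¹' {d} := by
      ext ω; simp
    rw [this, measureReal_biUnion_finset]
    · intro a _ b _ hab
      exact Disjoint.preimage z (by simpa using hab)
    · exact fun d _ => hmeas d
  have hM0 : 0 < M := by
    rcases Nat.eq_zero_or_pos M with h | h
    · exfalso
      have : D = ∅ := Finset.card_eq_zero.1 (by omega)
      rw [hsum, this] at hD
      simp at hD
      linarith
    · exact h
  have hMr : (0 : ℝ) < M := by exact_mod_cast hM0
  set S : ℝ := ∑ d ∈ D, m.real (z ⁻¹' {d}) ^ 2 with hS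
  have hCS : q ^ 2 ≤ M * S := by
    have h2 : (∑ d ∈ D, m.real (z ⁻¹' {d})) ^ 2 ≤ D.card * S := sq_sum_le_card_mul_sum_sq
    have h3 : q ^ 2 ≤ (∑ d ∈ D, m.real (z ⁻¹' {d})) ^ 2 := by
      rw [← hsum]; gcongr
    have h4 : (D.card : ℝ) * S ≤ M * S := by
      have : 0 ≤ S := Finset.sum_nonneg fun d _ => sq_nonneg _
      have h5 : (D.card : ℝ) ≤ M := by exact_mod_cast hM
      gcongr
    linarith
  have hk := key m hz h1 D (L + 1)
  set T : ℝ := ∑ l ∈ Finset.Icc 1 L, ‖∫ ω, z ω ^ l ∂m‖ ^ 2 with hT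
  have hub : ∑ k ∈ Finset.range (L + 1), ∑ k' ∈ Finset.range (L + 1),
      ‖∫ ω, z ω ^ k * conj (z ω) ^ k' ∂m‖ ^ 2 ≤
      ∑ _k ∈ Finset.range (L + 1), (1 + 2 * T) := by
    refine Finset.sum_le_sum fun k hk => ?_
    rw [Finset.mem_range] at hk
    have := row_sum (fun l => ‖∫ ω, z ω ^ l ∂m‖ ^ 2) (fun l => sq_nonneg _) k L hk
    simp only [pow_zero, integral_const, probReal_univ, one_smul, norm_one, one_pow] at this
    refine le_trans (le_of_eq ?_) this
    exact Finset.sum_congr rfl fun k' _ => by rw [norm_moment m h1]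
  rw [Finset.sum_const, Finset.card_range, nsmul_eq_mul] at hub
  have h6 := hk.trans hub
  push_cast at h6
  have hL1 : (0 : ℝ) < (L : ℝ) + 1 := by positivity
  have h7 : ((L : ℝ) + 1) * S ≤ 1 + 2 * T := by
    have : ((L : ℝ) + 1) * (((L : ℝ) + 1) * S) ≤ ((L : ℝ) + 1) * (1 + 2 * T) := by nlinarith
    exact le_of_mul_le_mul_left this hL1
  have h8 : ((L : ℝ) + 1) * q ^ 2 ≤ ((L : ℝ) + 1) * (M * S) := by gcongr
  have h9 : M * (((L : ℝ) + 1) * S) ≤ M * (1 + 2 * T) := by gcongr
  have h10 : 2 * (M : ℝ) ≤ M * (1 + 2 * T) := by nlinarith [sq_nonneg q]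
  have h11 : (2 : ℝ) ≤ 1 + 2 * T := by
    have : (M : ℝ) * 2 ≤ M * (1 + 2 * T) := by linarith
    exact le_of_mul_le_mul_left this hMr
  linarith

/-- Sum form of the collision lemma. -/
theorem collision_sum {Ω : Type} [MeasurableSpace Ω] (m : Measure Ω) [IsProbabilityMeasure m]
    {z : Ω → ℂ} (hz : Measurable z) (h1 : ∀ᵐ ω ∂m, ‖z ω‖ = 1) (D : Finset ℂ) {q : ℝ}
    (hq : 0 < q) (hD : q ≤ m.real (z ⁻¹' (D : Set ℂ))) {M L : ℕ} (hM : D.card ≤ M)
    (hL : 2 * (M : ℝ) ≤ q ^ 2 * L) :
    1 / 2 ≤ ∑ l ∈ Finset.Icc 1 L, ‖∫ ω, z ω ^ l ∂m‖ ^ 2 := by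
  classical
  let w : Ω → ℂ := fun ω => if ‖z ω‖ = 1 then z ω else 1
  have hw : Measurable w :=
    Measurable.ite (hz.norm (measurableSet_singleton 1)) hz measurable_const
  have hw1 : ∀ ω, ‖w ω‖ = 1 := fun ω => by
    by_cases h : ‖z ω‖ = 1
    · simp [w, h]
    · simp [w, h]
  have hae : w =ᵐ[m] z := by
    filter_upwards [h1] with ω h
    simp [w, h]
  have hDw : m.real (w ⁻¹' (D : Set ℂ)) = m.real (z ⁻¹' (D : Set ℂ)) := by
    refine measureReal_congr ?_
    filter_upwards [hae] with ω h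
    change (w ω ∈ (D : Set ℂ)) = (z ω ∈ (D : Set ℂ))
    rw [h]
  have h2 := collision_sum_core m hw hw1 D hq (hD.trans hDw.ge) hM hL
  refine h2.trans (le_of_eq (Finset.sum_congr rfl fun l _ => ?_))
  have : ∫ ω, w ω ^ l ∂m = ∫ ω, z ω ^ l ∂m := by
    refine integral_congr_ae ?_
    filter_upwards [hae] with ω h
    rw [h]
  rw [this]

end Vale.Agent.P099.R2.H525
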