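import Mathlib

open MeasureTheory Finset

namespace Vale.Agent.P099.R2.H525

open ComplexConjugate in
theorem collision {Ω : Type} [MeasurableSpace Ω] (m : Measure Ω) [IsProbabilityMeasure m]
    {z : Ω → ℂ} (hz : Measurable z) (h1 : ∀ᵐ ω ∂m, ‖z ω‖ = 1) (D : Finset ℂ) {q : ℝ} (hq : 0 < q)
    (hD : q ≤ m.real (z ⁻¹' (D : Set ℂ))) {M L : ℕ} (hM : D.card ≤ M)
    (hL : 2 * (M : ℝ) ≤ q ^ 2 * L) :
    ∃ l : ℕ, 1 ≤ l ∧ l ≤ L ∧ q ^ 2 ≤ 2 * M * ‖∫ ω, z ω ^ l ∂m‖ ^ 2 := by
  classical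
  by_contra hcon
  push Not at hcon
  have hzc : Measurable fun ω => conj (z ω) := Complex.continuous_conj.measurable.comp hz
  have hint : ∀ k k' : ℕ, Integrable (fun ω => z ω ^ k * conj (z ω) ^ k') m := by
    intro k k'
    refine Integrable.of_bound ((hz.pow_const k).mul (hzc.pow_const k')).aestronglyMeasurable 1 ?_
    filter_upwards [h1] with ω h
    simp [h]
  set K : ℕ := L + 1 with hK
  let A : ℕ → ℕ → ℂ := fun k k' => ∫ ω, z ω ^ k * conj (z ω) ^ k' ∂m
  let S : ℂ → ℂ → ℂ := fun u v => ∑ k ∈ range K, u ^ k * conj v ^ k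
  have hS : ∀ u v : ℂ, ((‖S u v‖ ^ 2 : ℝ) : ℂ) =
      ∑ k ∈ range K, ∑ k' ∈ range K, (u ^ k * conj u ^ k') * (conj v ^ k * v ^ k') := by
    intro u v
    have e1 : ((‖S u v‖ ^ 2 : ℝ) : ℂ) = S u v * conj (S u v) := by
      rw [Complex.mul_conj']
      push_cast
      ring
    rw [e1]
    simp only [S, map_sum, map_mul, map_pow, Complex.conj_conj, Finset.sum_mul_sum]
    refine Finset.sum_congr rfl fun k _ => Finset.sum_congr rfl fun k' _ => ?_
    ring
  let G : ℂ → ℝ := fun v => ∫ ω, ‖S (z ω) v‖ ^ 2 ∂m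
  have hSint : ∀ v : ℂ, Integrable (fun ω => ((‖S (z ω) v‖ ^ 2 : ℝ) : ℂ)) m := by
    intro v
    simp_rw [hS]
    exact integrable_finsetSum _ fun k _ => integrable_finsetSum _ fun k' _ =>
      (hint k k').mul_const _
  have hSint' : ∀ v : ℂ, Integrable (fun ω => ‖S (z ω) v‖ ^ 2) m := by
    intro v
    exact (hSint v).re.congr (Filter.Eventually.of_forall fun ω => Complex.ofReal_re _)
  have hG : ∀ v : ℂ, (G v : ℂ) =
      ∑ k ∈ range K, ∑ k' ∈ range K, A k k' * (conj v ^ k * v ^ k') := by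
    intro v
    have e : (G v : ℂ) = ∫ ω, ((‖S (z ω) v‖ ^ 2 : ℝ) : ℂ) ∂m := integral_ofReal.symm
    rw [e]
    simp_rw [hS]
    rw [integral_finsetSum _ fun k _ => integrable_finsetSum _ fun k' _ =>
      (hint k k').mul_const _]
    refine Finset.sum_congr rfl fun k _ => ?_
    rw [integral_finsetSum _ fun k' _ => (hint k k').mul_const _]
    refine Finset.sum_congr rfl fun k' _ => ?_
    rw [integral_mul_const]
  have hint2 : ∀ k k' : ℕ, Integrable (fun ω => conj (z ω) ^ k * z ω ^ k') m := by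
    intro k k'
    have := hint k' k
    simpa only [mul_comm] using this
  have hGint : Integrable (fun ω => ((G (z ω) : ℝ) : ℂ)) m := by
    simp_rw [hG]
    exact integrable_finsetSum _ fun k _ => integrable_finsetSum _ fun k' _ =>
      (hint2 k k').const_mul _
  have hGint' : Integrable (fun ω => G (z ω)) m := by
    exact hGint.re.congr (Filter.Eventually.of_forall fun ω => Complex.ofReal_re _)
  have hGA : ∫ ω, G (z ω) ∂m = ∑ k ∈ range K, ∑ k' ∈ range K, ‖A k k'‖ ^ 2 := by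
    have e : ((∫ ω, G (z ω) ∂m : ℝ) : ℂ) = ∫ ω, ((G (z ω) : ℝ) : ℂ) ∂m := integral_ofReal.symm
    have e2 : ((∫ ω, G (z ω) ∂m : ℝ) : ℂ) =
        ((∑ k ∈ range K, ∑ k' ∈ range K, ‖A k k'‖ ^ 2 : ℝ) : ℂ) := by
      rw [e]
      simp_rw [hG]
      rw [integral_finsetSum _ fun k _ => integrable_finsetSum _ fun k' _ =>
        (hint2 k k').const_mul _]
      push_cast
      refine Finset.sum_congr rfl fun k _ => ?_
      rw [integral_finsetSum _ fun k' _ => (hint2 k k').const_mul _]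
      refine Finset.sum_congr rfl fun k' _ => ?_
      rw [integral_const_mul, ← Complex.mul_conj']
      congr 1
      simp only [A]
      rw [← integral_conj]
      refine integral_congr_ae (Filter.Eventually.of_forall fun ω => ?_)
      simp
    exact_mod_cast e2
  have hG0 : ∀ v, 0 ≤ G v := fun v => integral_nonneg fun ω => by positivity
  let p : ℂ → ℝ := fun d => m.real (z ⁻¹' {d})
  have hms : ∀ d : ℂ, MeasurableSet (z ⁻¹' {d}) := fun d => hz (measurableSet_singleton d)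
  have hp0 : ∀ d, 0 ≤ p d := fun d => measureReal_nonneg
  have hGp : ∀ d : ℂ, (K : ℝ) ^ 2 * p d ≤ G d := by
    intro d
    have e1 : (K : ℝ) ^ 2 * p d = ∫ ω, (z ⁻¹' {d}).indicator (fun _ => (K : ℝ) ^ 2) ω ∂m := by
      rw [integral_indicator (hms d)]
      simp [p, mul_comm]
    rw [e1]
    refine integral_mono_ae ((integrable_const _).indicator (hms d)) (hSint' d) ?_
    filter_upwards [h1] with ω h
    by_cases hd : z ω = d
    · have : ω ∈ z ⁻¹' {d} := hd
      rw [Set.indicator_of_mem this]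
      have hs : S (z ω) d = K := by
        simp only [S]
        have : ∀ k ∈ range K, z ω ^ k * conj d ^ k = 1 := by
          intro k _
          rw [← mul_pow, hd, Complex.mul_conj', ← hd, h]
          simp
        rw [Finset.sum_congr rfl this]
        simp
      rw [hs]
      simp
    · have : ω ∉ z ⁻¹' {d} := hd
      rw [Set.indicator_of_notMem this]
      positivity
  have hlow : ∑ d ∈ D, p d * G d ≤ ∫ ω, G (z ω) ∂m := by
    have e1 : ∑ d ∈ D, p d * G d =
        ∫ ω, ∑ d ∈ D, (z ⁻¹' {d}).indicator (fun _ => G d) ω ∂m := by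
      rw [integral_finsetSum _ fun d _ => (integrable_const _).indicator (hms d)]
      refine Finset.sum_congr rfl fun d _ => ?_
      rw [integral_indicator (hms d)]
      simp [p]
    rw [e1]
    refine integral_mono (integrable_finsetSum _ fun d _ =>
      (integrable_const _).indicator (hms d)) hGint' ?_
    intro ω
    have e2 : ∀ d : ℂ, (z ⁻¹' {d}).indicator (fun _ => G d) ω = if z ω = d then G d else 0 := by
      intro d
      by_cases hd : z ω = d
      · rw [if_pos hd]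
        exact Set.indicator_of_mem (show ω ∈ z ⁻¹' {d} from hd) _
      · rw [if_neg hd]
        exact Set.indicator_of_notMem (show ω ∉ z ⁻¹' {d} from hd) _
    simp only [e2, Finset.sum_ite_eq]
    split_ifs
    · exact le_rfl
    · exact hG0 _
  have hqp : q ≤ ∑ d ∈ D, p d := by
    refine hD.trans ?_
    have : z ⁻¹' (D : Set ℂ) = ⋃ d ∈ D, z ⁻¹' {d} := by
      ext ω
      simp
    rw [this]
    exact measureReal_biUnion_finset_le _ _
  have hcs : (∑ d ∈ D, p d) ^ 2 ≤ D.card * ∑ d ∈ D, p d ^ 2 := sq_sum_le_card_mul_sum_sq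
  have hlow2 : (K : ℝ) ^ 2 * q ^ 2 ≤ M * ∫ ω, G (z ω) ∂m := by
    have a1 : (K : ℝ) ^ 2 * ∑ d ∈ D, p d ^ 2 ≤ ∫ ω, G (z ω) ∂m := by
      refine le_trans ?_ hlow
      rw [Finset.mul_sum]
      refine Finset.sum_le_sum fun d _ => ?_
      nlinarith [hGp d, hp0 d]
    have a2 : q ^ 2 ≤ (∑ d ∈ D, p d) ^ 2 := by gcongr
    have a3 : (0:ℝ) ≤ ∑ d ∈ D, p d ^ 2 := Finset.sum_nonneg fun d _ => sq_nonneg _
    have a4 : (D.card : ℝ) * ∑ d ∈ D, p d ^ 2 ≤ M * ∑ d ∈ D, p d ^ 2 := by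
      gcongr
    have a5 : q ^ 2 ≤ M * ∑ d ∈ D, p d ^ 2 := a2.trans (hcs.trans a4)
    calc (K : ℝ) ^ 2 * q ^ 2 ≤ (K : ℝ) ^ 2 * (M * ∑ d ∈ D, p d ^ 2) := by gcongr
      _ = M * ((K : ℝ) ^ 2 * ∑ d ∈ D, p d ^ 2) := by ring
      _ ≤ M * ∫ ω, G (z ω) ∂m := by gcongr
  have hAle : ∀ k k' : ℕ, ‖A k k'‖ ≤ 1 := by
    intro k k'
    refine (norm_integral_le_integral_norm _).trans ?_
    have : ∫ ω, ‖z ω ^ k * conj (z ω) ^ k'‖ ∂m = ∫ _, (1 : ℝ) ∂m := by
      refine integral_congr_ae ?_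
      filter_upwards [h1] with ω h
      simp [h]
    rw [this]
    simp
  have hA1 : ∀ k l : ℕ, A (k + l) k = ∫ ω, z ω ^ l ∂m := by
    intro k l
    refine integral_congr_ae ?_
    filter_upwards [h1] with ω h
    rw [pow_add]
    have : z ω ^ k * conj (z ω) ^ k = 1 := by
      rw [← mul_pow, Complex.mul_conj', h]
      simp
    calc z ω ^ k * z ω ^ l * conj (z ω) ^ k = z ω ^ l * (z ω ^ k * conj (z ω) ^ k) := by ring
      _ = z ω ^ l := by rw [this, mul_one]
  have hA2 : ∀ k k' : ℕ, ‖A k k'‖ = ‖A k' k‖ := by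
    intro k k'
    have : A k k' = conj (A k' k) := by
      simp only [A]
      rw [← integral_conj]
      refine integral_congr_ae (Filter.Eventually.of_forall fun ω => ?_)
      simp [mul_comm]
    rw [this]
    exact Complex.norm_conj _
  have hup1 : ∀ k k' : ℕ, k < k' → k' < K → 2 * (M : ℝ) * ‖A k' k‖ ^ 2 ≤ q ^ 2 := by
    intro k k' h2 h3
    obtain ⟨l, rfl⟩ := Nat.exists_eq_add_of_lt h2
    have := hcon (l + 1) (by omega) (by omega)
    rw [show k + l + 1 = k + (l + 1) by ring, hA1]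
    exact this.le
  have hup2 : ∀ k ∈ range K, ∀ k' ∈ range K, 2 * (M : ℝ) * ‖A k k'‖ ^ 2 ≤
      q ^ 2 + if k = k' then 2 * (M : ℝ) else 0 := by
    intro k hk k' hk'
    rw [Finset.mem_range] at hk hk'
    rcases lt_trichotomy k k' with h | h | h
    · rw [if_neg h.ne, hA2, add_zero]
      exact hup1 k k' h hk'
    · rw [if_pos h]
      have h4 : ‖A k k'‖ ^ 2 ≤ 1 := pow_le_one₀ (norm_nonneg _) (hAle k k')
      have h5 : 2 * (M : ℝ) * ‖A k k'‖ ^ 2 ≤ 2 * (M : ℝ) * 1 := by gcongr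
      nlinarith [sq_nonneg q]
    · rw [if_neg h.ne', add_zero]
      exact hup1 k' k h hk
  have hup : 2 * (M : ℝ) * ∑ k ∈ range K, ∑ k' ∈ range K, ‖A k k'‖ ^ 2 ≤
      (K : ℝ) ^ 2 * q ^ 2 + 2 * M * K := by
    rw [Finset.mul_sum]
    have : ∀ k ∈ range K, 2 * (M : ℝ) * ∑ k' ∈ range K, ‖A k k'‖ ^ 2 ≤ K * q ^ 2 + 2 * M := by
      intro k hk
      rw [Finset.mul_sum]
      refine (Finset.sum_le_sum fun k' hk' => hup2 k hk k' hk').trans ?_
      rw [Finset.sum_add_distrib, Finset.sum_ite_eq, if_pos hk]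
      simp
    refine (Finset.sum_le_sum this).trans ?_
    simp only [Finset.sum_const, Finset.card_range, nsmul_eq_mul]
    nlinarith
  rw [hGA] at hlow2
  have hKpos : (0 : ℝ) < K := by rw [hK]; positivity
  have h6 : (K : ℝ) * ((K : ℝ) * q ^ 2) ≤ K * (2 * M) := by nlinarith
  have h7 : (K : ℝ) * q ^ 2 ≤ 2 * M := le_of_mul_le_mul_left h6 hKpos
  have h8 : (K : ℝ) = L + 1 := by rw [hK]; push_cast; ring
  have h9 : (0 : ℝ) < q ^ 2 := by positivity
  rw [h8] at h7
  nlinarith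

end Vale.Agent.P099.R2.H525

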