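import Mathlib

/-!
# P099, row A: a random unit complex number with atoms has a large power moment
-/

open MeasureTheory
open scoped ComplexConjugate

namespace Vale.Agent.P099.R2.H525

section

variable {Ω : Type} [MeasurableSpace Ω] (m : Measure Ω) [IsProbabilityMeasure m] {z : Ω → ℂ}

theorem integrable_mono (hz : Measurable z) (h1 : ∀ ω, ‖z ω‖ = 1) (k k' : ℕ) :
    Integrable (fun ω => z ω ^ k * conj (z ω) ^ k') m := by
  refine Integrable.of_bound (C := 1) ?_ (Filter.Eventually.of_forall fun ω => ?_)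
  · have : Measurable fun ω => z ω ^ k * conj (z ω) ^ k' :=
      (hz.pow_const k).mul ((Complex.continuous_conj.measurable.comp hz).pow_const k')
    exact this.aestronglyMeasurable
  · simp [h1]

theorem key (hz : Measurable z) (h1 : ∀ ω, ‖z ω‖ = 1) (D : Finset ℂ) (K : ℕ) :
    (K : ℝ) ^ 2 * ∑ d ∈ D, m.real (z ⁻¹' {d}) ^ 2 ≤
      ∑ k ∈ Finset.range K, ∑ k' ∈ Finset.range K,
        ‖∫ ω, z ω ^ k * conj (z ω) ^ k' ∂m‖ ^ 2 := by
  have hzz : ∀ ω, z ω * conj (z ω) = 1 := fun ω => by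
    rw [Complex.mul_conj, Complex.normSq_eq_norm_sq, h1]; simp
  have hmeas : ∀ d : ℂ, MeasurableSet (z ⁻¹' {d}) := fun d => hz (measurableSet_singleton d)
  -- the kernel
  let G : Ω × Ω → ℝ := fun p => ‖∑ k ∈ Finset.range K, (z p.1 * conj (z p.2)) ^ k‖ ^ 2
  have hG : ∀ p, ((G p : ℝ) : ℂ) = ∑ k ∈ Finset.range K, ∑ k' ∈ Finset.range K,
      (z p.1 ^ k * conj (z p.1) ^ k') * (conj (z p.2) ^ k * z p.2 ^ k') := by
    intro p
    have h2 : ((G p : ℝ) : ℂ) = (∑ k ∈ Finset.range K, (z p.1 * conj (z p.2)) ^ k) *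
        conj (∑ k ∈ Finset.range K, (z p.1 * conj (z p.2)) ^ k) := by
      rw [Complex.mul_conj, Complex.normSq_eq_norm_sq]
    rw [h2, map_sum, Finset.sum_mul_sum]
    refine Finset.sum_congr rfl fun k _ => Finset.sum_congr rfl fun k' _ => ?_
    rw [map_pow, map_mul, Complex.conj_conj, mul_pow, mul_pow]
    ring
  have hI : ∀ k k', Integrable (fun p : Ω × Ω =>
      (z p.1 ^ k * conj (z p.1) ^ k') * (conj (z p.2) ^ k * z p.2 ^ k')) (m.prod m) := by
    intro k k'
    have e : (fun ω => conj (z ω) ^ k * z ω ^ k') = fun ω => z ω ^ k' * conj (z ω) ^ k := by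
      funext ω; ring
    have h3 : Integrable (fun ω => conj (z ω) ^ k * z ω ^ k') m := by
      rw [e]; exact integrable_mono m hz h1 k' k
    exact (integrable_mono m hz h1 k k').mul_prod h3
  have hGI : Integrable (fun p => ((G p : ℝ) : ℂ)) (m.prod m) := by
    rw [show (fun p => ((G p : ℝ) : ℂ)) = fun p => ∑ k ∈ Finset.range K, ∑ k' ∈ Finset.range K,
      (z p.1 ^ k * conj (z p.1) ^ k') * (conj (z p.2) ^ k * z p.2 ^ k') from funext hG]
    exact integrable_finsetSum _ fun k _ => integrable_finsetSum _ fun k' _ => hI k k'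
  have hGR : Integrable G (m.prod m) := by
    have := hGI.re
    simpa using this
  have hGint : ∫ p, G p ∂(m.prod m) = ∑ k ∈ Finset.range K, ∑ k' ∈ Finset.range K,
      ‖∫ ω, z ω ^ k * conj (z ω) ^ k' ∂m‖ ^ 2 := by
    have h4 : ((∫ p, G p ∂(m.prod m) : ℝ) : ℂ) = ((∑ k ∈ Finset.range K,
        ∑ k' ∈ Finset.range K, ‖∫ ω, z ω ^ k * conj (z ω) ^ k' ∂m‖ ^ 2 : ℝ) : ℂ) := by
      rw [← integral_complex_ofReal]
      rw [show (fun p => ((G p : ℝ) : ℂ)) = fun p => ∑ k ∈ Finset.range K,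
        ∑ k' ∈ Finset.range K,
        (z p.1 ^ k * conj (z p.1) ^ k') * (conj (z p.2) ^ k * z p.2 ^ k') from funext hG]
      rw [integral_finsetSum _ fun k _ => integrable_finsetSum _ fun k' _ => hI k k']
      push_cast
      refine Finset.sum_congr rfl fun k _ => ?_
      rw [integral_finsetSum _ fun k' _ => hI k k']
      refine Finset.sum_congr rfl fun k' _ => ?_
      rw [integral_prod_mul (fun ω => z ω ^ k * conj (z ω) ^ k')
        (fun ω => conj (z ω) ^ k * z ω ^ k')]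
      have h5 : ∫ ω, conj (z ω) ^ k * z ω ^ k' ∂m =
          conj (∫ ω, z ω ^ k * conj (z ω) ^ k' ∂m) := by
        rw [← integral_conj]
        refine integral_congr_ae (Filter.Eventually.of_forall fun ω => ?_)
        simp
      rw [h5, Complex.mul_conj, Complex.normSq_eq_norm_sq]
      push_cast
      rfl
    exact_mod_cast h4
  -- the lower bound
  let H : Ω × Ω → ℝ := fun p => ∑ d ∈ D, (K : ℝ) ^ 2 *
    ((z ⁻¹' {d}).indicator (fun _ => (1 : ℝ)) p.1 * (z ⁻¹' {d}).indicator (fun _ => (1 : ℝ)) p.2)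
  have hind : ∀ d : ℂ, Integrable ((z ⁻¹' {d}).indicator (fun _ => (1 : ℝ))) m := fun d =>
    (integrable_const (1 : ℝ)).indicator (hmeas d)
  have hHd : ∀ d, Integrable (fun p : Ω × Ω => (K : ℝ) ^ 2 *
    ((z ⁻¹' {d}).indicator (fun _ => (1 : ℝ)) p.1 *
      (z ⁻¹' {d}).indicator (fun _ => (1 : ℝ)) p.2)) (m.prod m) := fun d =>
    ((hind d).mul_prod (hind d)).const_mul _
  have hHI : Integrable H (m.prod m) := integrable_finsetSum _ fun d _ => hHd d
  have hHint : ∫ p, H p ∂(m.prod m) = (K : ℝ) ^ 2 * ∑ d ∈ D, m.real (z ⁻¹' {d}) ^ 2 := by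
    rw [show H = fun p => ∑ d ∈ D, (K : ℝ) ^ 2 *
      ((z ⁻¹' {d}).indicator (fun _ => (1 : ℝ)) p.1 *
        (z ⁻¹' {d}).indicator (fun _ => (1 : ℝ)) p.2) from rfl]
    rw [integral_finsetSum _ fun d _ => hHd d, Finset.mul_sum]
    refine Finset.sum_congr rfl fun d _ => ?_
    rw [integral_const_mul, integral_prod_mul ((z ⁻¹' {d}).indicator (fun _ => (1 : ℝ)))
      ((z ⁻¹' {d}).indicator (fun _ => (1 : ℝ))), integral_indicator (hmeas d)]
    simp [sq]
  have hle : ∀ p, H p ≤ G p := by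
    intro p
    by_cases hp : z p.1 = z p.2
    · have hGp : G p = (K : ℝ) ^ 2 := by
        simp only [G]
        rw [← hp, hzz]
        simp
      rw [hGp]
      have : H p = ∑ d ∈ D, if z p.1 = d then (K : ℝ) ^ 2 else 0 := by
        refine Finset.sum_congr rfl fun d _ => ?_
        by_cases hd : z p.1 = d
        · have hd2 : z p.2 = d := hp ▸ hd
          simp [Set.indicator, hd, hd2]
        · simp [Set.indicator, hd]
      rw [this, Finset.sum_ite_eq]
      split_ifs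
      · exact le_rfl
      · positivity
    · have : H p = 0 := by
        refine Finset.sum_eq_zero fun d _ => ?_
        by_cases hd : z p.1 = d
        · have hd2 : z p.2 ≠ d := fun h => hp (hd.trans h.symm)
          simp [Set.indicator, hd2]
        · simp [Set.indicator, hd]
      rw [this]
      positivity
  rw [← hGint, ← hHint]
  exact integral_mono hHI hGR hle

omit [IsProbabilityMeasure m] in
theorem norm_moment (h1 : ∀ ω, ‖z ω‖ = 1) (k k' : ℕ) :
    ‖∫ ω, z ω ^ k * conj (z ω) ^ k' ∂m‖ = ‖∫ ω, z ω ^ (max k k' - min k k') ∂m‖ := by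
  have hzz : ∀ ω, z ω * conj (z ω) = 1 := fun ω => by
    rw [Complex.mul_conj, Complex.normSq_eq_norm_sq, h1]; simp
  rcases le_total k' k with h | h
  · rw [max_eq_left h, min_eq_right h]
    congr 1
    refine integral_congr_ae (Filter.Eventually.of_forall fun ω => ?_)
    change z ω ^ k * conj (z ω) ^ k' = z ω ^ (k - k')
    conv_lhs => rw [← Nat.sub_add_cancel h, pow_add, mul_assoc, ← mul_pow, hzz, one_pow, mul_one]
  · rw [max_eq_right h, min_eq_left h]
    have : ∫ ω, z ω ^ k * conj (z ω) ^ k' ∂m = conj (∫ ω, z ω ^ (k' - k) ∂m) := by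
      rw [← integral_conj]
      refine integral_congr_ae (Filter.Eventually.of_forall fun ω => ?_)
      change z ω ^ k * conj (z ω) ^ k' = conj (z ω ^ (k' - k))
      rw [map_pow]
      conv_lhs => rw [← Nat.sub_add_cancel h, pow_add, mul_comm (conj (z ω) ^ (k' - k)),
        ← mul_assoc, ← mul_pow, hzz, one_pow, one_mul]
    rw [this, RCLike.norm_conj]

theorem collision_core (hz : Measurable z) (h1 : ∀ ω, ‖z ω‖ = 1) (D : Finset ℂ) {q : ℝ}
    (hq : 0 < q) (hD : q ≤ m.real (z ⁻¹' (D : Set ℂ))) {M L : ℕ} (hM : D.card ≤ M)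
    (hL : 2 * (M : ℝ) ≤ q ^ 2 * L) :
    ∃ l : ℕ, 1 ≤ l ∧ l ≤ L ∧ q ^ 2 ≤ 2 * M * ‖∫ ω, z ω ^ l ∂m‖ ^ 2 := by
  by_contra hcon
  push Not at hcon
  have hmeas : ∀ d : ℂ, MeasurableSet (z ⁻¹' {d}) := fun d => hz (measurableSet_singleton d)
  have hsum : m.real (z ⁻¹' (D : Set ℂ)) = ∑ d ∈ D, m.real (z ⁻¹' {d}) := by
    have : z ⁻¹' (D : Set ℂ) = ⋃ d ∈ D, z ⁻¹' {d} := by
      ext ω; simp
    rw [this, measureReal_biUnion_finset]
    · intro a _ b _ hab
      exact Disjoint.preimage z (by simpa using hab)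
    · exact fun d _ => hmeas d
  have hM0 : 0 < M := by
    rcases Nat.eq_zero_or_pos M with h | h
    · exfalso
      have : D = ∅ := Finset.card_eq_zero.1 (by omega)
      rw [hsum, this] at hD
      simp at hD
      linarith
    · exact h
  have hMr : (0 : ℝ) < M := by exact_mod_cast hM0
  set S : ℝ := ∑ d ∈ D, m.real (z ⁻¹' {d}) ^ 2 with hS
  have hCS : q ^ 2 ≤ M * S := by
    have h2 : (∑ d ∈ D, m.real (z ⁻¹' {d})) ^ 2 ≤ D.card * S := sq_sum_le_card_mul_sum_sq
    have h3 : q ^ 2 ≤ (∑ d ∈ D, m.real (z ⁻¹' {d})) ^ 2 := by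
      rw [← hsum]; gcongr
    have h4 : (D.card : ℝ) * S ≤ M * S := by
      have : 0 ≤ S := Finset.sum_nonneg fun d _ => sq_nonneg _
      have h5 : (D.card : ℝ) ≤ M := by exact_mod_cast hM
      gcongr
    linarith
  have hk := key m hz h1 D (L + 1)
  have hub : ∑ k ∈ Finset.range (L + 1), ∑ k' ∈ Finset.range (L + 1),
      ‖∫ ω, z ω ^ k * conj (z ω) ^ k' ∂m‖ ^ 2 ≤
      ∑ k ∈ Finset.range (L + 1), ∑ k' ∈ Finset.range (L + 1),
        ((if k = k' then (1 : ℝ) else 0) + q ^ 2 / (2 * M)) := by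
    refine Finset.sum_le_sum fun k hk => Finset.sum_le_sum fun k' hk' => ?_
    rw [norm_moment m h1]
    rw [Finset.mem_range] at hk hk'
    by_cases h : k = k'
    · subst h
      simp only [max_self, min_self, tsub_self, pow_zero, integral_const, probReal_univ, one_smul,
        norm_one, one_pow, if_true]
      have : 0 ≤ q ^ 2 / (2 * M) := by positivity
      linarith
    · rw [if_neg h, zero_add, le_div_iff₀ (by positivity)]
      have := hcon (max k k' - min k k') (by omega) (by omega)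
      linarith
  have hval : ∑ k ∈ Finset.range (L + 1), ∑ k' ∈ Finset.range (L + 1),
        ((if k = k' then (1 : ℝ) else 0) + q ^ 2 / (2 * M)) =
      ((L : ℝ) + 1) + ((L : ℝ) + 1) ^ 2 * (q ^ 2 / (2 * M)) := by
    have : ∀ k ∈ Finset.range (L + 1), ∑ k' ∈ Finset.range (L + 1),
        ((if k = k' then (1 : ℝ) else 0) + q ^ 2 / (2 * M)) =
        1 + ((L : ℝ) + 1) * (q ^ 2 / (2 * M)) := by
      intro k hk
      rw [Finset.sum_add_distrib, Finset.sum_ite_eq, if_pos hk]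
      simp
    rw [Finset.sum_congr rfl this]
    simp
    ring
  have hL1 : (0 : ℝ) < (L : ℝ) + 1 := by positivity
  have h6 : ((L : ℝ) + 1) ^ 2 * S ≤
      ((L : ℝ) + 1) + ((L : ℝ) + 1) ^ 2 * (q ^ 2 / (2 * M)) := by
    have := hk.trans (hub.trans hval.le)
    push_cast at this
    exact this
  have h7 : ((L : ℝ) + 1) * S ≤ 1 + ((L : ℝ) + 1) * (q ^ 2 / (2 * M)) := by
    have : ((L : ℝ) + 1) * (((L : ℝ) + 1) * S) ≤
      ((L : ℝ) + 1) * (1 + ((L : ℝ) + 1) * (q ^ 2 / (2 * M))) := by nlinarith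
    exact le_of_mul_le_mul_left this hL1
  have h8 : ((L : ℝ) + 1) * (M * S) ≤ M + ((L : ℝ) + 1) * (q ^ 2 / 2) := by
    have h9 := mul_le_mul_of_nonneg_left h7 hMr.le
    have e : (M : ℝ) * (1 + ((L : ℝ) + 1) * (q ^ 2 / (2 * M))) =
        M + ((L : ℝ) + 1) * (q ^ 2 / 2) := by
      field_simp
    rw [e] at h9
    linarith
  have h10 : ((L : ℝ) + 1) * q ^ 2 ≤ ((L : ℝ) + 1) * (M * S) := by gcongr
  have h11 : 0 < q ^ 2 := by positivity
  nlinarith

end

theorem collision {Ω : Type} [MeasurableSpace Ω] (m : Measure Ω) [IsProbabilityMeasure m]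
    {z : Ω → ℂ} (hz : Measurable z) (h1 : ∀ᵐ ω ∂m, ‖z ω‖ = 1) (D : Finset ℂ) {q : ℝ}
    (hq : 0 < q) (hD : q ≤ m.real (z ⁻¹' (D : Set ℂ))) {M L : ℕ} (hM : D.card ≤ M)
    (hL : 2 * (M : ℝ) ≤ q ^ 2 * L) :
    ∃ l : ℕ, 1 ≤ l ∧ l ≤ L ∧ q ^ 2 ≤ 2 * M * ‖∫ ω, z ω ^ l ∂m‖ ^ 2 := by
  classical
  let w : Ω → ℂ := fun ω => if ‖z ω‖ = 1 then z ω else 1
  have hw : Measurable w :=
    Measurable.ite (hz.norm (measurableSet_singleton 1)) hz measurable_const
  have hw1 : ∀ ω, ‖w ω‖ = 1 := fun ω => by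
    by_cases h : ‖z ω‖ = 1
    · simp [w, h]
    · simp [w, h]
  have hae : w =ᵐ[m] z := by
    filter_upwards [h1] with ω h
    simp [w, h]
  have hDw : m.real (w ⁻¹' (D : Set ℂ)) = m.real (z ⁻¹' (D : Set ℂ)) := by
    refine measureReal_congr ?_
    filter_upwards [hae] with ω h
    change (w ω ∈ (D : Set ℂ)) = (z ω ∈ (D : Set ℂ))
    rw [h]
  obtain ⟨l, hl1, hl2, hl3⟩ := collision_core m hw hw1 D hq (hD.trans hDw.ge) hM hL
  refine ⟨l, hl1, hl2, ?_⟩
  have : ∫ ω, w ω ^ l ∂m = ∫ ω, z ω ^ l ∂m := by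
    refine integral_congr_ae ?_
    filter_upwards [hae] with ω h
    rw [h]
  rwa [this] at hl3

end Vale.Agent.P099.R2.H525
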