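import Mathlib

/-!
Row A: a unimodular random variable which takes few values with positive probability has a large
moment.
-/

set_option autoImplicit false

namespace Vale.Agent.P099.R2.H525

open MeasureTheory Finset

theorem collision {Ω : Type} [MeasurableSpace Ω] (m : Measure Ω) [IsProbabilityMeasure m]
    {z : Ω → ℂ} (hz : Measurable z) (h1 : ∀ᵐ ω ∂m, ‖z ω‖ = 1) (D : Finset ℂ) {q : ℝ}
    (hq : 0 < q) (hD : q ≤ m.real (z ⁻¹' (D : Set ℂ))) {M L : ℕ} (hM : D.card ≤ M)
    (hL : 2 * (M : ℝ) ≤ q ^ 2 * L) :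
    ∃ l : ℕ, 1 ≤ l ∧ l ≤ L ∧ q ^ 2 ≤ 2 * M * ‖∫ ω, z ω ^ l ∂m‖ ^ 2 := by
  classical
  by_contra hcon
  push Not at hcon
  -- the kernel moments
  set cj : ℂ → ℂ := fun w => (starRingEnd ℂ) w with hcj
  have hcjm : Measurable cj := Complex.continuous_conj.measurable
  set b : ℕ → ℕ → ℂ := fun k k' => ∫ ω, z ω ^ k * (cj (z ω)) ^ k' ∂m with hb
  have hint : ∀ k k' : ℕ, Integrable (fun ω => z ω ^ k * (cj (z ω)) ^ k') m := by
    intro k k'
    refine Integrable.of_bound (C := 1)
      (((hz.pow_const k).mul ((hcjm.comp hz).pow_const k')).aestronglyMeasurable) ?_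
    filter_upwards [h1] with ω hω
    rw [norm_mul, norm_pow, norm_pow, hcj]
    simp [hω]
  set K : ℕ := L + 1 with hK
  set h : ℂ → ℝ := fun w => ∫ ω, ‖∑ k ∈ range K, (z ω * cj w) ^ k‖ ^ 2 ∂m with hh
  have expand : ∀ w u : ℂ, (((‖∑ k ∈ range K, (u * cj w) ^ k‖ ^ 2 : ℝ)) : ℂ) =
      ∑ k ∈ range K, ∑ k' ∈ range K, (cj w ^ k * w ^ k') * (u ^ k * cj u ^ k') := by
    intro w u
    have e1 : (((‖∑ k ∈ range K, (u * cj w) ^ k‖ ^ 2 : ℝ)) : ℂ) =
        (∑ k ∈ range K, (u * cj w) ^ k) * cj (∑ k ∈ range K, (u * cj w) ^ k) := by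
      rw [hcj]
      simp only
      rw [Complex.mul_conj, Complex.normSq_eq_norm_sq]
    rw [e1, hcj]
    simp only [map_sum, map_pow, map_mul, Complex.conj_conj]
    rw [Finset.sum_mul_sum]
    refine Finset.sum_congr rfl fun k _ => Finset.sum_congr rfl fun k' _ => ?_
    ring
  have eq2 : ∀ w : ℂ, ((h w : ℝ) : ℂ) =
      ∑ k ∈ range K, ∑ k' ∈ range K, (cj w ^ k * w ^ k') * b k k' := by
    intro w
    rw [hh]
    simp only
    rw [← integral_complex_ofReal]
    simp_rw [expand w]
    rw [integral_finsetSum _ fun k _ => integrable_finsetSum _ fun k' _ =>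
      (hint k k').const_mul _]
    refine Finset.sum_congr rfl fun k _ => ?_
    rw [integral_finsetSum _ fun k' _ => (hint k k').const_mul _]
    refine Finset.sum_congr rfl fun k' _ => ?_
    rw [integral_const_mul]
  have hnn : ∀ w, 0 ≤ h w := fun w => integral_nonneg fun ω => by positivity
  have hconj : ∀ k k' : ℕ, ∫ ω, cj (z ω) ^ k * z ω ^ k' ∂m = cj (b k k') := by
    intro k k'
    rw [hb, hcj]
    simp only
    rw [← integral_conj]
    congr 1
    ext ω
    simp
  have hint' : ∀ k k' : ℕ, Integrable (fun ω => (cj (z ω) ^ k * z ω ^ k') * b k k') m := by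
    intro k k'
    refine Integrable.mul_const ?_ _
    have := hint k' k
    refine this.congr (Filter.Eventually.of_forall fun ω => ?_)
    simp only; ring
  have hHint : Integrable (fun ω => ((h (z ω) : ℝ) : ℂ)) m := by
    have : Integrable (fun ω => ∑ k ∈ range K, ∑ k' ∈ range K,
        (cj (z ω) ^ k * z ω ^ k') * b k k') m :=
      integrable_finsetSum _ fun k _ => integrable_finsetSum _ fun k' _ => hint' k k'
    refine this.congr (Filter.Eventually.of_forall fun ω => ?_)
    exact (eq2 (z ω)).symm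
  have hhint : Integrable (fun ω => h (z ω)) m := by
    have := hHint.re
    simpa using this
  have eq3 : ∫ ω, h (z ω) ∂m = ∑ k ∈ range K, ∑ k' ∈ range K, ‖b k k'‖ ^ 2 := by
    have e : ((∫ ω, h (z ω) ∂m : ℝ) : ℂ) =
        ((∑ k ∈ range K, ∑ k' ∈ range K, ‖b k k'‖ ^ 2 : ℝ) : ℂ) := by
      rw [← integral_complex_ofReal]
      simp_rw [eq2]
      rw [integral_finsetSum _ fun k _ => integrable_finsetSum _ fun k' _ => hint' k k']
      push_cast
      refine Finset.sum_congr rfl fun k _ => ?_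
      rw [integral_finsetSum _ fun k' _ => hint' k k']
      refine Finset.sum_congr rfl fun k' _ => ?_
      rw [integral_mul_const, hconj, hcj]
      simp only
      rw [mul_comm, Complex.mul_conj, Complex.normSq_eq_norm_sq]
      push_cast
      rfl
    exact_mod_cast e
  -- the atoms
  set μ : ℂ → ℝ := fun d => m.real (z ⁻¹' {d}) with hμ
  have hμ0 : ∀ d, 0 ≤ μ d := fun d => measureReal_nonneg
  have hmeas : ∀ d, MeasurableSet (z ⁻¹' {d}) := fun d => hz (measurableSet_singleton d)
  have hlow : ∀ d, (K : ℝ) ^ 2 * μ d ≤ h d ∨ μ d = 0 := by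
    intro d
    by_cases hd : ‖d‖ = 1
    · left
      have e1 : (K : ℝ) ^ 2 * μ d = ∫ ω, (z ⁻¹' {d}).indicator (fun _ => (K : ℝ) ^ 2) ω ∂m := by
        rw [integral_indicator_const _ (hmeas d), smul_eq_mul, mul_comm]
      rw [e1]
      have hI : Integrable (fun ω => ‖∑ k ∈ range K, (z ω * cj d) ^ k‖ ^ 2) m := by
        refine Integrable.of_bound (C := (K : ℝ) ^ 2) ?_ ?_
        · refine Measurable.aestronglyMeasurable ?_
          refine Measurable.pow_const ?_ 2
          refine Measurable.norm ?_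
          exact Finset.measurable_fun_sum _ fun k _ => (hz.mul_const _).pow_const k
        · filter_upwards [h1] with ω hω
          rw [Real.norm_eq_abs, abs_of_nonneg (by positivity)]
          refine pow_le_pow_left₀ (norm_nonneg _) ?_ 2
          refine (norm_sum_le _ _).trans ?_
          have : ∀ k ∈ range K, ‖(z ω * cj d) ^ k‖ ≤ 1 := by
            intro k _
            rw [norm_pow, norm_mul, hω, hcj]
            simp [hd]
          refine (Finset.sum_le_sum this).trans ?_
          simp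
      refine integral_mono ?_ hI fun ω => ?_
      · exact (integrable_const _).indicator (hmeas d)
      · by_cases hω : ω ∈ z ⁻¹' {d}
        · rw [Set.indicator_of_mem hω]
          have e2 : z ω = d := hω
          have e3 : z ω * cj d = 1 := by
            rw [e2, hcj]
            simp only
            rw [Complex.mul_conj, Complex.normSq_eq_norm_sq, hd]
            simp
          simp only [e3, one_pow, sum_const, card_range, nsmul_eq_mul, mul_one]
          simp
        · rw [Set.indicator_of_notMem hω]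
          positivity
    · right
      rw [hμ]
      simp only
      rw [measureReal_def, measure_mono_null (t := {ω | ¬ ‖z ω‖ = 1}) _ (ae_iff.1 h1)]
      · simp
      · intro ω hω
        have e2 : z ω = d := hω
        show ¬ ‖z ω‖ = 1
        rw [e2]; exact hd
  have hlow2 : (K : ℝ) ^ 2 * ∑ d ∈ D, μ d ^ 2 ≤ ∫ ω, h (z ω) ∂m := by
    have e1 : ∫ ω, ∑ d ∈ D, (z ⁻¹' {d}).indicator (fun _ => h d) ω ∂m = ∑ d ∈ D, μ d * h d := by
      rw [integral_finsetSum _ fun d _ => (integrable_const _).indicator (hmeas d)]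
      refine Finset.sum_congr rfl fun d _ => ?_
      rw [integral_indicator_const _ (hmeas d), smul_eq_mul]
    have e2 : ∫ ω, ∑ d ∈ D, (z ⁻¹' {d}).indicator (fun _ => h d) ω ∂m ≤ ∫ ω, h (z ω) ∂m := by
      refine integral_mono (integrable_finsetSum _ fun d _ =>
        (integrable_const _).indicator (hmeas d)) hhint fun ω => ?_
      have e3 : ∀ d ∈ D, (z ⁻¹' {d}).indicator (fun _ => h d) ω =
          if z ω = d then h (z ω) else 0 := by
        intro d _
        by_cases hd : z ω = d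
        · rw [if_pos hd, Set.indicator_of_mem (by exact hd), hd]
        · rw [if_neg hd, Set.indicator_of_notMem (by exact hd)]
      simp only
      rw [Finset.sum_congr rfl e3, Finset.sum_ite_eq]
      split_ifs
      · exact le_rfl
      · exact hnn _
    refine le_trans ?_ (e1 ▸ e2)
    rw [Finset.mul_sum]
    refine Finset.sum_le_sum fun d _ => ?_
    rcases hlow d with h3 | h3
    · calc (K : ℝ) ^ 2 * μ d ^ 2 = μ d * ((K : ℝ) ^ 2 * μ d) := by ring
        _ ≤ μ d * h d := mul_le_mul_of_nonneg_left h3 (hμ0 d)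
    · rw [h3]; simp
  have hsum : q ≤ ∑ d ∈ D, μ d := by
    refine hD.trans ?_
    have e1 : z ⁻¹' (D : Set ℂ) = ⋃ d ∈ D, z ⁻¹' {d} := by
      ext ω; simp
    rw [e1]
    exact measureReal_biUnion_finset_le _ _
  have hcs : (∑ d ∈ D, μ d) ^ 2 ≤ D.card * ∑ d ∈ D, μ d ^ 2 := sq_sum_le_card_mul_sum_sq
  have hDne : 0 < D.card := by
    rw [card_pos]
    by_contra hne
    rw [not_nonempty_iff_eq_empty] at hne
    rw [hne] at hsum
    simp at hsum
    linarith
  have hM0 : (0 : ℝ) < M := by exact_mod_cast lt_of_lt_of_le hDne hM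
  have hMD : (D.card : ℝ) ≤ M := by exact_mod_cast hM
  have hS0 : 0 ≤ ∑ d ∈ D, μ d ^ 2 := Finset.sum_nonneg fun d _ => sq_nonneg _
  have hq2 : q ^ 2 ≤ M * ∑ d ∈ D, μ d ^ 2 := by
    calc q ^ 2 ≤ (∑ d ∈ D, μ d) ^ 2 := pow_le_pow_left₀ hq.le hsum 2
      _ ≤ D.card * ∑ d ∈ D, μ d ^ 2 := hcs
      _ ≤ _ := mul_le_mul_of_nonneg_right hMD hS0
  -- the upper bound
  have hbsymm : ∀ k k' : ℕ, k' ≤ k → ‖b k k'‖ = ‖∫ ω, z ω ^ (k - k') ∂m‖ := by
    intro k k' hkk
    congr 1
    refine integral_congr_ae ?_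
    filter_upwards [h1] with ω hω
    have e1 : z ω * cj (z ω) = 1 := by
      rw [hcj]
      simp only
      rw [Complex.mul_conj, Complex.normSq_eq_norm_sq, hω]
      simp
    calc z ω ^ k * cj (z ω) ^ k' = z ω ^ (k - k') * (z ω * cj (z ω)) ^ k' := by
          rw [mul_pow, ← mul_assoc, ← pow_add, Nat.sub_add_cancel hkk]
      _ = _ := by rw [e1]; simp
  have hbsw : ∀ k k' : ℕ, ‖b k k'‖ = ‖b k' k‖ := by
    intro k k'
    have e1 : cj (b k k') = b k' k := by
      rw [← hconj, hb]
      simp only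
      congr 1
      ext ω; ring
    rw [← e1, hcj]
    simp
  have hoff : ∀ k k' : ℕ, k' < k → k < K → ‖b k k'‖ ^ 2 ≤ q ^ 2 / (2 * M) := by
    intro k k' h2 h3
    rw [hbsymm k k' h2.le, le_div_iff₀ (by positivity)]
    have := hcon (k - k') (by omega) (by omega)
    linarith
  have hdiag : ∀ k, ‖b k k‖ ^ 2 ≤ 1 := by
    intro k
    rw [hbsymm k k le_rfl]
    simp
  have hterm : ∀ k ∈ range K, ∀ k' ∈ range K, ‖b k k'‖ ^ 2 ≤
      (if k = k' then 1 else 0) + q ^ 2 / (2 * M) := by
    intro k hk k' hk'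
    rw [mem_range] at hk hk'
    rcases lt_trichotomy k k' with h2 | h2 | h2
    · rw [if_neg h2.ne, hbsw k k', zero_add]
      exact hoff k' k h2 hk'
    · subst h2
      rw [if_pos rfl]
      have : 0 ≤ q ^ 2 / (2 * (M : ℝ)) := by positivity
      linarith [hdiag k]
    · rw [if_neg h2.ne', zero_add]
      exact hoff k k' h2 hk
  have hup : ∑ k ∈ range K, ∑ k' ∈ range K, ‖b k k'‖ ^ 2 ≤
      K + (K : ℝ) ^ 2 * (q ^ 2 / (2 * M)) := by
    refine (Finset.sum_le_sum fun k hk => Finset.sum_le_sum fun k' hk' => hterm k hk k' hk').trans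
      (le_of_eq ?_)
    simp only [Finset.sum_add_distrib, Finset.sum_ite_eq, Finset.sum_const, card_range,
      nsmul_eq_mul]
    rw [Finset.sum_congr rfl (g := fun _ => (1 : ℝ)) (fun k hk => by rw [if_pos hk])]
    simp only [Finset.sum_const, card_range, nsmul_eq_mul]
    ring
  have hKr : (K : ℝ) = L + 1 := by rw [hK]; push_cast; ring
  have hfin : (K : ℝ) ^ 2 * (q ^ 2 / M) ≤ K + (K : ℝ) ^ 2 * (q ^ 2 / (2 * M)) := by
    refine le_trans ?_ (hlow2.trans (eq3 ▸ hup))
    refine mul_le_mul_of_nonneg_left ?_ (by positivity)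
    rw [div_le_iff₀ hM0]; linarith
  have hKpos : (0 : ℝ) < K := by rw [hKr]; positivity
  have e1 : (K : ℝ) ^ 2 * (q ^ 2 / (2 * M)) ≤ K := by
    have e2 : (K : ℝ) ^ 2 * (q ^ 2 / M) = 2 * ((K : ℝ) ^ 2 * (q ^ 2 / (2 * M))) := by
      field_simp
    linarith
  have e2 : (K : ℝ) * q ^ 2 ≤ 2 * M := by
    have e3 : (K : ℝ) * (K * q ^ 2) ≤ K * (2 * M) := by
      have e4 : (K : ℝ) ^ 2 * (q ^ 2 / (2 * M)) * (2 * M) ≤ K * (2 * M) :=
        mul_le_mul_of_nonneg_right e1 (by positivity)
      have e5 : (K : ℝ) ^ 2 * (q ^ 2 / (2 * M)) * (2 * M) = K * (K * q ^ 2) := by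
        field_simp
      linarith
    exact le_of_mul_le_mul_left e3 hKpos
  rw [hKr] at e2
  have : 0 < q ^ 2 := by positivity
  nlinarith

end Vale.Agent.P099.R2.H525
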