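import Mathlib

/-!
Row D of `P099.RateOfMixing`: words in reflections of the unit circle.
-/

namespace Vale.Agent.P099.R2.H525

open Finset

/-- `v` is reached from `u` by `n` moves: stay, or the reflection `w ↦ c i * conj w`. -/
inductive Reach {N : ℕ} (c : Fin N → ℂ) : ℕ → ℂ → ℂ → Prop
  | refl (u) : Reach c 0 u u
  | stay {n u v} : Reach c n u v → Reach c (n + 1) u v
  | step {n u v} (i) : Reach c n u v → Reach c (n + 1) u (c i * (starRingEnd ℂ) v)

/-- The product with exponents `m`. -/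
noncomputable def LL {N : ℕ} (c : Fin (N + 1) → ℂ) (m : Fin N → ℤ) : ℂ :=
  ∏ j : Fin N, (c j.succ / c 0) ^ (m j)

theorem conj_LL {N : ℕ} (c : Fin (N + 1) → ℂ) (hc : ∀ i, ‖c i‖ = 1) (m : Fin N → ℤ) :
    (starRingEnd ℂ) (LL c m) = LL c (fun j => -m j) := by
  unfold LL
  rw [map_prod]
  refine Finset.prod_congr rfl fun j _ => ?_
  rw [map_zpow₀, ← Complex.inv_eq_conj (by rw [norm_div, hc, hc, div_one]), inv_zpow, zpow_neg]

theorem LL_add {N : ℕ} (c : Fin (N + 1) → ℂ) (hc : ∀ i, ‖c i‖ = 1) (m : Fin N → ℤ) (i : Fin N) :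
    LL c (fun j => m j + if j = i then 1 else 0) = LL c m * (c i.succ / c 0) := by
  have h0 : ∀ i, c i ≠ 0 := fun i h => by
    have := hc i
    rw [h, norm_zero] at this
    exact zero_ne_one this
  unfold LL
  have h : ∀ j : Fin N, (c j.succ / c 0) ^ (m j + if j = i then 1 else 0) =
      (c j.succ / c 0) ^ (m j) * (if j = i then (c i.succ / c 0) else 1) := by
    intro j
    rw [zpow_add₀ (div_ne_zero (h0 _) (h0 _))]
    split_ifs with hj
    · rw [hj, zpow_one]
    · rw [zpow_zero]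
  rw [Finset.prod_congr rfl fun j _ => h j, Finset.prod_mul_distrib, Finset.prod_ite_eq']
  simp

theorem exists_move {N : ℕ} (c : Fin (N + 1) → ℂ) (hc : ∀ i, ‖c i‖ = 1) (n : ℕ) (m : Fin N → ℤ)
    (hm : ∀ j, m j ∈ Finset.Icc (-(n : ℤ)) n) (i : Fin (N + 1)) :
    ∃ m' : Fin N → ℤ, (∀ j, m' j ∈ Finset.Icc (-((n + 1 : ℕ) : ℤ)) ((n + 1 : ℕ) : ℤ)) ∧
      c i / c 0 * (starRingEnd ℂ) (LL c m) = LL c m' := by
  have h0 : ∀ i, c i ≠ 0 := fun i h => by
    have := hc i
    rw [h, norm_zero] at this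
    exact zero_ne_one this
  rw [conj_LL c hc]
  refine Fin.cases ?_ (fun k => ?_) i
  · refine ⟨fun j => -m j, fun j => ?_, ?_⟩
    · have := Finset.mem_Icc.1 (hm j)
      rw [Finset.mem_Icc]
      push_cast
      omega
    · rw [div_self (h0 0), one_mul]
  · refine ⟨fun j => -m j + if j = k then 1 else 0, fun j => ?_, ?_⟩
    · have := Finset.mem_Icc.1 (hm j)
      rw [Finset.mem_Icc]
      push_cast
      split_ifs <;> omega
    · rw [LL_add c hc (fun j => -m j) k, mul_comm]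

theorem reach_form {N : ℕ} (c : Fin (N + 1) → ℂ) (hc : ∀ i, ‖c i‖ = 1) {n : ℕ} {u v : ℂ}
    (h : Reach c n u v) : ∃ m : Fin N → ℤ, (∀ j, m j ∈ Finset.Icc (-(n : ℤ)) n) ∧
      (v = LL c m * u ∨ v = c 0 * LL c m * (starRingEnd ℂ) u) := by
  have h0 : c 0 ≠ 0 := fun h => by
    have := hc 0
    rw [h, norm_zero] at this
    exact zero_ne_one this
  induction h with
  | refl u => exact ⟨fun _ => 0, fun _ => by simp, Or.inl (by simp [LL])⟩
  | @stay n u v _ ih =>
    obtain ⟨m, hm, hv⟩ := ih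
    refine ⟨m, fun j => ?_, hv⟩
    have := Finset.mem_Icc.1 (hm j)
    rw [Finset.mem_Icc]
    push_cast
    omega
  | @step n u v i _ ih =>
    obtain ⟨m, hm, hv⟩ := ih
    obtain ⟨m', hm', h'⟩ := exists_move c hc n m hm i
    refine ⟨m', hm', ?_⟩
    rcases hv with hv | hv
    · right
      rw [← h', hv, map_mul]
      field_simp
    · left
      rw [← h', hv, map_mul, map_mul, Complex.conj_conj, ← Complex.inv_eq_conj (hc 0)]
      field_simp

theorem words {N : ℕ} (c : Fin (N + 1) → ℂ) (hc : ∀ i, ‖c i‖ = 1) (n : ℕ) :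
    ∃ D E : Finset ℂ, D.card ≤ (2 * n + 1) ^ N ∧ E.card ≤ (2 * n + 1) ^ N ∧
      ∀ u v : ℂ, ‖u‖ = 1 → Reach c n u v →
        v * (starRingEnd ℂ) u ∈ D ∨ v * u ∈ E := by
  classical
  let P : Finset (Fin N → ℤ) := Fintype.piFinset fun _ => Finset.Icc (-(n : ℤ)) n
  have hP : P.card = (2 * n + 1) ^ N := by
    rw [Fintype.card_piFinset]
    simp only [Int.card_Icc, Finset.prod_const, Finset.card_univ, Fintype.card_fin]
    congr 1
    omega
  refine ⟨P.image (LL c), P.image (fun m => c 0 * LL c m), ?_, ?_, fun u v hu h => ?_⟩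
  · exact Finset.card_image_le.trans hP.le
  · exact Finset.card_image_le.trans hP.le
  · have hu' : (starRingEnd ℂ) u * u = 1 := by
      rw [← Complex.inv_eq_conj hu]
      exact inv_mul_cancel₀ fun h => by
        rw [h, norm_zero] at hu
        exact zero_ne_one hu
    obtain ⟨m, hm, hv | hv⟩ := reach_form c hc h
    · left
      refine Finset.mem_image.2 ⟨m, Fintype.mem_piFinset.2 hm, ?_⟩
      rw [hv, mul_assoc, mul_comm u, hu', mul_one]
    · right
      refine Finset.mem_image.2 ⟨m, Fintype.mem_piFinset.2 hm, ?_⟩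
      rw [hv, mul_assoc, hu', mul_one]

theorem refl_eq {v : ℂ} (hv : v ≠ 0) (u : ℂ) :
    (Submodule.span ℝ {v}).reflection u = (v / ‖v‖) ^ 2 * (starRingEnd ℂ) u := by
  have hn : (‖v‖ : ℂ) ≠ 0 := by exact_mod_cast norm_ne_zero_iff.2 hv
  have hn2 : (‖v‖ : ℂ) ^ 2 = (starRingEnd ℂ) v * v := by
    rw [mul_comm, Complex.mul_conj, Complex.normSq_eq_norm_sq]; push_cast; ring
  have h2 : (2 * ((u * (starRingEnd ℂ) v).re : ℂ)) =
      u * (starRingEnd ℂ) v + (starRingEnd ℂ) u * v := by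
    have := Complex.add_conj (u * (starRingEnd ℂ) v)
    rw [map_mul, Complex.conj_conj] at this
    rw [this]; push_cast; ring
  have h3 : (2 • ((u * (starRingEnd ℂ) v).re / ‖v‖ ^ 2) • v - u : ℂ) =
      (2 * ((u * (starRingEnd ℂ) v).re : ℂ)) / (‖v‖ : ℂ) ^ 2 * v - u := by
    rw [Complex.real_smul, nsmul_eq_mul]
    push_cast
    ring
  have h4 : (Submodule.span ℝ {v}).reflection u =
      (2 • ((u * (starRingEnd ℂ) v).re / ‖v‖ ^ 2) • v - u : ℂ) := by
    rw [Submodule.reflection_singleton_apply, Complex.inner]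
    rfl
  rw [h4, h3, h2, div_pow]
  field_simp
  rw [hn2]
  ring

end Vale.Agent.P099.R2.H525
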