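import Vale.Agent.P099.H184.PT.Defs

open Set

namespace Vale.Agent.P099.R2.H525

private theorem fin3_ne (i : Fin 3) : i + 1 ≠ i ∧ i + 2 ≠ i ∧ i + 1 ≠ i + 2 := by
  revert i
  decide

private theorem sum_fin3 (f : Fin 3 → ℂ) (i : Fin 3) : ∑ j, f j = f i + f (i + 1) + f (i + 2) := by
  fin_cases i <;> simp [Fin.sum_univ_three] <;> ring

private theorem sum_fin3r (f : Fin 3 → ℝ) (i : Fin 3) : ∑ j, f j = f i + f (i + 1) + f (i + 2) := by
  fin_cases i <;> simp [Fin.sum_univ_three] <;> ring

theorem exists_table (T : Vale.Agent.P099.Triangle) :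
    ∃ S : Vale.Agent.P099T.PolygonalTable 3, S.Q = T.table ∧ (∀ i, S.a i = T.P (i + 1)) ∧
      ∀ i, S.b i = T.P (i + 2) := by
  have hspan : affineSpan ℝ (range T.P) = ⊤ := by
    rw [T.indep.affineSpan_eq_top_iff_card_eq_finrank_add_one]
    simp
  let b : AffineBasis (Fin 3) ℝ ℂ := ⟨T.P, T.indep, hspan⟩
  have hb : ∀ i, b i = T.P i := fun i => rfl
  have hbr : (range b : Set ℂ) = range T.P := rfl
  have hint : T.table = {x | ∀ i, 0 < b.coord i x} := by
    unfold Vale.Agent.P099.Triangle.table
    rw [← hbr]
    exact b.interior_convexHull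
  have hcl : convexHull ℝ (range T.P) = {x | ∀ i, 0 ≤ b.coord i x} := by
    rw [← hbr]
    exact b.convexHull_eq_nonneg_coord
  have hcv : Convex ℝ (convexHull ℝ (range T.P)) := convex_convexHull ℝ _
  have hcc : IsCompact (convexHull ℝ (range T.P)) := (finite_range T.P).isCompact_convexHull ℝ
  have hne : (interior (convexHull ℝ (range T.P))).Nonempty := by
    rw [interior_convexHull_nonempty_iff_affineSpan_eq_top]
    exact hspan
  have hfr : frontier T.table = ⋃ i, segment ℝ (T.P (i + 1)) (T.P (i + 2)) := by
    have e1 : frontier T.table = convexHull ℝ (range T.P) \ T.table := by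
      unfold Vale.Agent.P099.Triangle.table
      rw [frontier, interior_interior, hcv.closure_interior_eq_closure_of_nonempty_interior hne,
        hcc.isClosed.closure_eq]
    rw [e1, hcl, hint]
    ext x
    have hx1 : ∑ j, b.coord j x • b j = x := b.linear_combination_coord_eq_self x
    have hx2 : ∑ j, b.coord j x = 1 := b.sum_coord_apply_eq_one x
    simp only [mem_sdiff, mem_ofPred_eq, not_forall, not_lt, mem_iUnion]
    constructor
    · rintro ⟨h1, i, h2⟩
      have h3 : b.coord i x = 0 := le_antisymm h2 (h1 i)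
      refine ⟨i, b.coord (i + 1) x, b.coord (i + 2) x, h1 _, h1 _, ?_, ?_⟩
      · rw [sum_fin3r _ i, h3, zero_add] at hx2
        exact hx2
      · rw [sum_fin3 _ i, h3, zero_smul, zero_add] at hx1
        exact hx1
    · rintro ⟨i, s, t, hs, ht, hst, rfl⟩
      obtain ⟨hne1, hne2, hne3⟩ := fin3_ne i
      have key : ∀ j, b.coord j (s • T.P (i + 1) + t • T.P (i + 2)) =
          s * b.coord j (T.P (i + 1)) + t * b.coord j (T.P (i + 2)) := by
        intro j
        have := (Convex.combo_affine_apply (f := b.coord j) (x := T.P (i + 1)) (y := T.P (i + 2)) hst)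
        simpa using this
      refine ⟨?_, i, ?_⟩
      · intro j
        rw [key, ← hb, ← hb, b.coord_apply, b.coord_apply]
        split_ifs <;> simp [hs, ht]
        positivity
      · rw [key, ← hb, ← hb, b.coord_apply_ne (Ne.symm hne1), b.coord_apply_ne (Ne.symm hne2)]
        simp
  refine ⟨{ Q := T.table, isOpen := isOpen_interior, isConnected := ?_, isBounded := ?_,
            a := fun i => T.P (i + 1), b := fun i => T.P (i + 2), ne := ?_, frontier_eq := hfr },
          rfl, fun _ => rfl, fun _ => rfl⟩
  · exact ⟨hne, hcv.interior.isPreconnected⟩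
  · exact hcc.isBounded.subset interior_subset
  · intro i h
    exact (fin3_ne i).2.2 (T.indep.injective h)

end Vale.Agent.P099.R2.H525
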